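import Crest.Agent.X262.Res.Loop

/-!
# Row 262, squad RES+: the centre is generated by weight vectors (helper64)
-/

set_option autoImplicit false
set_option linter.unusedSectionVars false

noncomputable section

namespace Crest.Agent.X262.Res

open Crest.Agent.X277.Res AddMonoidAlgebra Gr

variable {k C G : Type} [Field k] [Field C] [Algebra k C] [AddCommGroup G]

/-- the action on the ambient ring -/
def act (s : kˣ →* (C ≃ₐ[k] C)) (a : kˣ) : GA C G →ₐ[k] GA C G :=
  mapAlgHom G (s a : C →ₐ[k] C)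

variable {s : kˣ →* (C ≃ₐ[k] C)}

theorem act_single (a : kˣ) (μ : G) (c : C) : act s a (single μ c) = single μ (s a c) :=
  mapAlgHom_single _ _ _

theorem act_act (a b : kˣ) (f : GA C G) : act s a (act s b f) = act s (a * b) f := by
  ext μ
  simp only [act, coeff_mapAlgHom, map_mul]
  rfl

theorem act_one (f : GA C G) : act s 1 f = f := by
  ext μ
  simp only [act, coeff_mapAlgHom, map_one]
  rfl

theorem act_inv_act (a : kˣ) (f : GA C G) : act s a⁻¹ (act s a f) = f := by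
  rw [act_act, inv_mul_cancel, act_one]

theorem act_act_inv (a : kˣ) (f : GA C G) : act s a (act s a⁻¹ f) = f := by
  rw [act_act, mul_inv_cancel, act_one]

theorem isH_act (a : kˣ) {f : GA C G} (hf : IsH f) : IsH (act s a f) := by
  obtain ⟨μ, c, rfl⟩ := hf
  exact ⟨μ, _, act_single a μ c⟩

theorem EV.act {f : GA C G} (hf : EV s f) (a : kˣ) : ∃ c : kˣ, act s a f = (c : k) • f := by
  obtain ⟨μ, c, n, rfl, hc⟩ := hf
  exact ⟨a ^ n, by rw [act_single, hc, smul_single]⟩

theorem EV.act' {f : GA C G} (hf : EV s f) (a : kˣ) : ∃ c : k, f = c • Res.act s a f := by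
  obtain ⟨c, hc⟩ := hf.act a
  exact ⟨(c⁻¹ : kˣ), by rw [hc, smul_smul, Units.inv_mul, one_smul]⟩

theorem act_mem_adjoin {S : Set (GA C G)} (hS : ∀ u ∈ S, EV s u) (a : kˣ) {f : GA C G}
    (hf : f ∈ Algebra.adjoin k S) : act s a f ∈ Algebra.adjoin k S := by
  have : Algebra.adjoin k S ≤ (Algebra.adjoin k S).comap (act s a) := by
    refine Algebra.adjoin_le fun u hu => ?_
    obtain ⟨c, hc⟩ := (hS u hu).act a
    change act s a u ∈ Algebra.adjoin k S
    rw [hc]
    exact Subalgebra.smul_mem _ (Algebra.subset_adjoin hu) _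
  exact this hf

/-- decomposition into weight vectors inside the span of the orbit -/
theorem exists_wt_decomp [CharZero k] {c : C} (hc : c ∈ FW s) :
    ∃ D : Finset C, (∀ e ∈ D, (∃ n, Wt s n e) ∧
      e ∈ Submodule.span k (Set.range fun l => s l c)) ∧ c ∈ Submodule.span k (D : Set C) := by
  classical
  obtain ⟨N, P, hP⟩ := hc
  have hP' : ∀ l : kˣ, ((l : k) ^ N) • s l c =
      ∑ i ∈ Finset.range (P.natDegree + 1), ((l : k) ^ i) • P.coeff i := by
    intro l
    rw [Algebra.smul_def, map_pow, hP, Polynomial.eval_eq_sum_range]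
    exact Finset.sum_congr rfl fun i _ => by rw [Algebra.smul_def, map_pow, mul_comm]
  refine ⟨(Finset.range (P.natDegree + 1)).image P.coeff, ?_, ?_⟩
  · intro e he
    obtain ⟨i, hi, rfl⟩ := Finset.mem_image.1 he
    refine ⟨⟨(i : ℤ) - N, fun m => ?_⟩, ?_⟩
    · have key : Polynomial.C (algebraMap k C m ^ N) * P.map (s m : C →+* C) =
          P.comp (Polynomial.C (algebraMap k C m) * Polynomial.X) := by
        refine poly_ext (k := k) fun l => ?_
        have h1 := congrArg (s m) (hP l)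
        have h2 := hP (m * l)
        rw [map_mul, map_pow, AlgEquiv.commutes, ← AlgEquiv.mul_apply, ← map_mul] at h1
        have h3 : s m (P.eval (algebraMap k C l)) =
            (P.map (s m : C →+* C)).eval (algebraMap k C l) := by
          conv_rhs => rw [← (s m).commutes (l : k)]
          exact (Polynomial.eval_map_apply (s m : C →+* C) _).symm
        rw [Polynomial.eval_mul, Polynomial.eval_C, ← h3, ← h1, Polynomial.eval_comp,
          Polynomial.eval_mul, Polynomial.eval_C, Polynomial.eval_X, ← map_mul, ← Units.val_mul,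
          ← h2, Units.val_mul, map_mul (algebraMap k C), mul_pow, mul_assoc]
      have h1 := congrArg (fun Q => Polynomial.coeff Q i) key
      simp only [Polynomial.coeff_C_mul, Polynomial.coeff_map, Polynomial.comp_C_mul_X_coeff,
        RingHom.coe_coe] at h1
      have hm := algebraMap_unit_ne (C := C) m
      rw [Algebra.smul_def, Units.val_zpow_eq_zpow_val, map_zpow₀, zpow_sub₀ hm, zpow_natCast,
        zpow_natCast]
      field_simp
      linear_combination h1
    · rw [← Subspace.forall_mem_dualAnnihilator_apply_eq_zero_iff]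
      intro φ hφ
      let Q : Polynomial k := ∑ j ∈ Finset.range (P.natDegree + 1),
        Polynomial.monomial j (φ (P.coeff j))
      have hQ : Q = 0 := by
        refine poly_ext (k := k) (C := k) fun l => ?_
        have h1 := congrArg φ (hP' l)
        rw [map_smul, (Submodule.mem_dualAnnihilator φ).1 hφ _ (Submodule.subset_span ⟨l, rfl⟩),
          smul_zero, map_sum] at h1
        rw [Polynomial.eval_zero, h1, Polynomial.eval_finsetSum]
        exact Finset.sum_congr rfl fun j _ => by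
          rw [Polynomial.eval_monomial, map_smul, smul_eq_mul, mul_comm]; rfl
      have h1 := congrArg (fun Q => Polynomial.coeff Q i) hQ
      simpa [Q, Polynomial.finsetSum_coeff, Polynomial.coeff_monomial, hi] using h1
  · have h1 := hP' 1
    simp only [Units.val_one, one_pow, one_smul, map_one, AlgEquiv.one_apply] at h1
    rw [h1]
    exact sum_mem fun i hi => Submodule.subset_span (Finset.mem_image_of_mem _ hi)

/-- the same for homogeneous elements of an equivariant algebra -/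
theorem exists_ev_decomp [CharZero k] {S : Set (GA C G)} (hS : ∀ u ∈ S, EV s u) {f : GA C G}
    (hf : f ∈ Algebra.adjoin k S) (hh : IsH f) :
    ∃ D : Finset (GA C G), (∀ e ∈ D, EV s e) ∧ f ∈ Submodule.span k (D : Set (GA C G)) ∧
      (EV s f → f ∈ D) ∧ ∀ V : Submodule k (GA C G), (∀ a, ∀ g ∈ V, act s a g ∈ V) → f ∈ V →
        ∀ e ∈ D, e ∈ V := by
  classical
  by_cases he : EV s f
  · refine ⟨{f}, by simpa using he, Submodule.subset_span (by simp), fun _ => by simp, ?_⟩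
    intro V _ hV e h1
    rwa [Finset.mem_singleton.1 h1]
  obtain ⟨μ, c, rfl⟩ := hh
  obtain ⟨D, hD, hc⟩ := exists_wt_decomp (Emb.single_mem_SA.1 (adjoin_le_SA hS hf))
  let ι : C →ₗ[k] GA C G := lsingle μ
  have hι : ∀ x, ι x = single μ x := fun _ => rfl
  refine ⟨D.image ι, ?_, ?_, fun h => absurd h he, ?_⟩
  · intro e h1
    obtain ⟨x, hx, rfl⟩ := Finset.mem_image.1 h1
    obtain ⟨n, hn⟩ := (hD x hx).1
    exact ⟨μ, x, n, rfl, hn⟩
  · rw [Finset.coe_image, ← Submodule.map_span, ← hι]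
    exact Submodule.mem_map_of_mem hc
  · intro V hV h0 e h1
    obtain ⟨x, hx, rfl⟩ := Finset.mem_image.1 h1
    have : Submodule.span k (Set.range fun l => s l c) ≤ V.comap ι := by
      refine Submodule.span_le.2 ?_
      rintro _ ⟨l, rfl⟩
      change ι (s l c) ∈ V
      rw [hι, ← act_single]
      exact hV l _ h0
    exact this (hD x hx).2

theorem map_mem_span {O O' : Subalgebra k (GA C G)} (τ : GA C G →ₐ[k] GA C G)
    (hτ : ∀ f ∈ O, τ f ∈ O') {S S' : Set (GA C G)} (hS : ∀ a ∈ S, τ a ∈ Submodule.span O' S')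
    {f : GA C G} (hf : f ∈ Submodule.span O S) : τ f ∈ Submodule.span O' S' := by
  induction hf using Submodule.span_induction with
  | mem a ha => exact hS a ha
  | zero => rw [map_zero]; exact zero_mem _
  | add a b _ _ ha hb => rw [map_add]; exact add_mem ha hb
  | smul r a _ ha =>
    change τ ((r : GA C G) * a) ∈ _
    rw [map_mul]
    exact G1.mul_mem_sub (hτ _ r.2) ha

theorem map_mem_filt {O O' : Subalgebra k (GA C G)} (τ : GA C G →ₐ[k] GA C G)
    (hτ : ∀ f ∈ O, τ f ∈ O') {ι : Type} [Fintype ι] {z : ι → GA C G} {w : ι → ℚ} {c : ℚ}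
    {f : GA C G} (hf : f ∈ filt O z w c) : τ f ∈ filt O' (fun i => τ (z i)) w c := by
  refine map_mem_span τ hτ ?_ hf
  rintro _ ⟨γ, hγ, rfl⟩
  exact Submodule.subset_span ⟨γ, hγ, by simp only [map_prod, map_pow]⟩

theorem smul_mem_sub {O : Subalgebra k (GA C G)} {N : Submodule O (GA C G)} (c : k)
    {f : GA C G} (hf : f ∈ N) : c • f ∈ N := by
  rw [Algebra.smul_def]
  exact G1.mul_mem_sub (O.algebraMap_mem c) hf

/-- transport of a competitor -/
theorem comp_act {L L' : Loc k C G} {a : kˣ} (h1 : ∀ f ∈ L.O, act s a f ∈ L'.O)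
    (h2 : ∀ f ∈ L'.O, act s a⁻¹ f ∈ L.O) {ε : GA C G} {I : Set (GA C G)} (hε : EV s ε)
    (hI : ∀ f ∈ I, EV s f) {d : ℕ} {z : Fin d → GA C G} {w : Fin d → ℚ} {t : Fin d → Bool}
    (h : Comp L ε I ⟨z, w, t⟩) : Comp L' ε I ⟨fun i => act s a (z i), w, t⟩ := by
  have hp : ∀ i f, f ∈ prin L.O (z i) → act s a f ∈ prin L'.O (act s a (z i)) := fun i f hf =>
    map_mem_span _ h1 (by rintro _ rfl; exact Submodule.subset_span rfl) hf
  refine ⟨⟨fun i => h1 _ (h.shape.mem i), fun i => isH_act a (h.shape.hom i), h.shape.nonneg,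
    h.shape.sorted, h.shape.t_pos⟩, fun i hi => ?_, fun i hi => ⟨?_, ?_⟩, fun f hf => ?_⟩
  · by_contra hm
    obtain ⟨g, hg, hzg⟩ := L'.unit _ (h1 _ (h.shape.mem i)) (isH_act a (h.shape.hom i)) hm
    have h3 := congrArg (act s a⁻¹) hzg
    rw [map_mul, act_inv_act, map_one] at h3
    exact L.one_notMem (h3 ▸ G1.mul_mem_sub' (h2 g hg) (h.mem_m i hi))
  · intro x hx y hy hxh hyh hxy
    have h3 : act s a⁻¹ (x * y) ∈ prin L.O (z i) := map_mem_span _ h2 (by
      rintro _ rfl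
      rw [act_inv_act]
      exact Submodule.subset_span rfl) hxy
    rw [map_mul] at h3
    rcases (h.div i hi).1 _ (h2 x hx) _ (h2 y hy) (isH_act _ hxh) (isH_act _ hyh) h3 with h4 | h4
    · exact Or.inl (act_act_inv (s := s) a x ▸ hp i _ h4)
    · exact Or.inr (act_act_inv (s := s) a y ▸ hp i _ h4)
  · obtain ⟨c, hc⟩ := hε.act' a
    rw [hc]
    exact smul_mem_sub c (hp i _ (h.div i hi).2)
  · obtain ⟨c, hc⟩ := (hI f hf).act' a
    rw [hc]
    exact smul_mem_sub c (map_mem_filt _ h1 (h.adm f hf))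

section Points

variable {R : Subalgebra k (GA C G)} (hR : ∀ a, ∀ f ∈ R, act s a f ∈ R)

/-- the translate of a point -/
def mv (a : kˣ) (q : R →ₐ[k] k) : R →ₐ[k] k :=
  q.comp (((act s a).comp R.val).codRestrict R fun f => hR a f f.2)

theorem mv_apply (a : kˣ) (q : R →ₐ[k] k) (f : R) : mv hR a q f = q ⟨act s a f, hR a f f.2⟩ := rfl

theorem act_mem_loc (a : kˣ) (q : R →ₐ[k] k) {f : GA C G} (hf : f ∈ loc R (mv hR a q)) :
    act s a f ∈ loc R q := by
  obtain ⟨b, hb, hq, hbf⟩ := hf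
  refine ⟨⟨act s a b, hR a b b.2⟩, isH_act a hb, hq, ?_⟩
  change act s a b * act s a f ∈ R
  rw [← map_mul]
  exact hR a _ hbf

theorem act_inv_mem_loc (a : kˣ) (q : R →ₐ[k] k) {f : GA C G} (hf : f ∈ loc R q) :
    act s a⁻¹ f ∈ loc R (mv hR a q) := by
  refine act_mem_loc hR a⁻¹ _ ?_
  have : mv hR a⁻¹ (mv hR a q) = q := by
    ext g
    rw [mv_apply, mv_apply]
    exact congrArg q (Subtype.ext (act_act_inv a _))
  rwa [this]

theorem nz_mv (a : kˣ) {q : R →ₐ[k] k} {h : GA C G} (he : EV s h) (hq : NZ q h) :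
    NZ (mv hR a q) h := by
  obtain ⟨hh, hq⟩ := hq
  obtain ⟨c, hc⟩ := he.act a
  refine ⟨hh, ?_⟩
  have : (⟨act s a h, hR a h hh⟩ : R) = (c : k) • ⟨h, hh⟩ := Subtype.ext hc
  rw [mv_apply, this, map_smul]
  exact smul_ne_zero c.ne_zero hq

end Points

/-- the elements of `R` which lie in the filtration of all competitors of type `(w, t)` -/
def cenSub {R : Subalgebra k (GA C G)} {M : AddSubgroup G} (h : Good R M) (U : Set (R →ₐ[k] k))
    (ε : GA C G) (I : Set (GA C G)) {d : ℕ} (w : Fin d → ℚ) (t : Fin d → Bool) (W : Fin d → ℕ)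
    (b : ℕ) : Submodule k (GA C G) where
  carrier := {f | f ∈ R ∧ ∀ q ∈ U, ∀ z, Comp (locOf h q) ε I ⟨z, w, t⟩ →
    f ∈ filt (loc R q) z (fun i => (W i : ℚ)) b}
  add_mem' := fun hf hg => ⟨add_mem hf.1 hg.1, fun q hq z hz =>
    add_mem (hf.2 q hq z hz) (hg.2 q hq z hz)⟩
  zero_mem' := ⟨zero_mem _, fun _ _ _ _ => zero_mem _⟩
  smul_mem' := fun c _ hf => ⟨R.smul_mem hf.1 c, fun q hq z hz => smul_mem_sub c (hf.2 q hq z hz)⟩

theorem centre_ev [CharZero k] (tl : G1.Tools k C G) {S : Set (GA C G)} (hS : ∀ u ∈ S, EV s u)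
    {M : AddSubgroup G} {h : Good (Algebra.adjoin k S) M} {U : Set (Algebra.adjoin k S →ₐ[k] k)}
    (hU : ∀ a, ∀ q ∈ U, mv (fun a _ hf => act_mem_adjoin hS a hf) a q ∈ U) {ε : GA C G}
    {I T : Set (GA C G)} {d : ℕ} (St : G1.Setup h U ε I T d) (hε : EV s ε) (hI : ∀ f ∈ I, EV s f)
    {w : Fin d → ℚ} {t : Fin d → Bool} {a : ℕ} {W : Fin d → ℕ} {n : ℕ} {g : Fin n → GA C G}
    {e : Fin n → ℕ} (Z : G1.Centre h U ε I T w t a W g e) :
    ∃ (n' : ℕ) (g' : Fin n' → GA C G) (e' : Fin n' → ℕ),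
      G1.Centre h U ε I T w t a W g' e' ∧ ∀ j, EV s (g' j) := by
  classical
  have hR : ∀ a, ∀ f ∈ Algebra.adjoin k S, act s a f ∈ Algebra.adjoin k S :=
    fun a _ hf => act_mem_adjoin hS a hf
  have ha' : (0 : ℚ) < a := Nat.cast_pos.2 Z.a_pos
  have hst : ∀ b l, ∀ f ∈ cenSub h U ε I w t W b, act s l f ∈ cenSub h U ε I w t W b := by
    intro b l f hf
    refine ⟨hR l f hf.1, fun q hq z hz => ?_⟩
    have h1 := comp_act (L := locOf h q) (L' := locOf h (mv hR l q)) (a := l⁻¹)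
      (fun f hf => act_inv_mem_loc hR l q hf)
      (fun f hf => by rw [inv_inv]; exact act_mem_loc hR l q hf) hε hI hz
    have h2 := map_mem_filt (act s l) (fun f hf => act_mem_loc hR l q hf)
      (hf.2 _ (hU l q hq) _ h1)
    simpa only [act_act_inv] using h2
  have hg : ∀ j, g j ∈ cenSub h U ε I w t W (e j) := by
    intro j
    refine ⟨Z.g_mem j, fun q hq z hz => ?_⟩
    rcases Z.cases q hq with ⟨c, hc, -, hg, -⟩ | ⟨-, ⟨f, hf, hm⟩ | ⟨J, hc, hlt⟩⟩
    · obtain ⟨-, -, -, he⟩ := tl.ub _ ε I T d _ _ St.ε_ne St.ε_hom hc hz le_rfl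
      have hsc : ∀ x : Fin d → GA C G, filt (loc _ q) x (fun i => (W i : ℚ)) (e j) =
          filt (loc _ q) x w (e j / a) := fun x => by
        rw [← G1.filt_scale _ x ha' Z.W_eq, mul_div_cancel₀ _ ha'.ne']
      rw [hsc]
      exact (he _).ge (hsc c.x ▸ hg j)
    · exact absurd (G1.Comp_mem_m hz hf) hm
    · exact absurd (G1.inv_le_of_cert tl.ub St.ε_ne St.ε_hom hc hz) (not_le.2 hlt)
  choose D hD1 hD2 hD3 hD4 using fun j => exists_ev_decomp hS (Z.g_mem j) (Z.g_hom j)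
  let P : Finset (GA C G × ℕ) := Finset.univ.biUnion fun j => (D j).image fun f => (f, e j)
  have hP : ∀ p : GA C G × ℕ, p ∈ P ↔ ∃ j, p.1 ∈ D j ∧ p.2 = e j := by
    rintro ⟨f, b⟩
    simp only [P, Finset.mem_biUnion, Finset.mem_univ, true_and, Finset.mem_image, Prod.mk.injEq]
    exact exists_congr fun j => ⟨fun ⟨x, hx, h1, h2⟩ => ⟨h1 ▸ hx, h2.symm⟩,
      fun ⟨h1, h2⟩ => ⟨f, h1, rfl, h2.symm⟩⟩
  let E := P.equivFin.symm
  have hE : ∀ i, ∃ j, (E i : GA C G × ℕ).1 ∈ D j ∧ (E i : GA C G × ℕ).2 = e j :=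
    fun i => (hP _).1 (E i).2
  have hE' : ∀ j, ∀ f ∈ D j, ∃ i, (E i : GA C G × ℕ).2 = e j ∧ (E i : GA C G × ℕ).1 = f :=
    fun j f hf => ⟨E.symm ⟨(f, e j), (hP _).2 ⟨j, hf, rfl⟩⟩, by rw [Equiv.apply_symm_apply],
      by rw [Equiv.apply_symm_apply]⟩
  have hN : ∀ i, (E i : GA C G × ℕ).1 ∈ cenSub h U ε I w t W (E i : GA C G × ℕ).2 := by
    intro i
    obtain ⟨j, h1, h2⟩ := hE i
    rw [h2]
    exact hD4 j _ (hst _) (hg j) _ h1
  have hV : ∀ (O : Subalgebra k (GA C G)) (N : Submodule O (GA C G)) j,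
      (∀ f ∈ D j, f ∈ N) → g j ∈ N := by
    intro O N j hj
    refine Submodule.span_induction (p := fun x _ => x ∈ N) hj (zero_mem _)
      (fun _ _ _ _ => add_mem) (fun c _ _ => smul_mem_sub c) (hD2 j)
  have hEV : ∀ i, EV s (E i : GA C G × ℕ).1 := fun i => (hE i).elim fun j h1 => hD1 j _ h1.1
  refine ⟨P.card, fun i => (E i : GA C G × ℕ).1, fun i => (E i : GA C G × ℕ).2,
    ⟨Z.a_pos, Z.W_eq, Z.W_le, fun i => (hN i).1, fun i => (hEV i).isH, fun i => ?_,
      fun f hf => ?_, fun q hq => ?_⟩, hEV⟩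
  · obtain ⟨j, -, h2⟩ := hE i
    rw [h2]
    exact Z.e_pos j
  · obtain ⟨j, h1, rfl⟩ := Z.I_mem f hf
    rw [← h1]
    exact hE' j _ (hD3 j (hI _ hf))
  · rcases Z.cases q hq with ⟨c, hc, hp, -, hx⟩ | ⟨⟨j, hj, hm⟩, h2⟩
    · refine Or.inl ⟨c, hc, hp, fun i => (hN i).2 q hq _ hp, fun b h1 h2 => (hx b h1 h2).trans ?_⟩
      refine Submodule.span_le.2 ?_
      rintro _ ⟨j, rfl, rfl⟩
      refine hV _ _ j fun f hf => ?_
      obtain ⟨i, h3, h4⟩ := hE' j f hf
      exact Submodule.subset_span ⟨i, h3, h4.symm⟩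
    · refine Or.inr ⟨?_, h2⟩
      by_contra hcon
      push Not at hcon
      refine hm (hV _ _ j fun f hf => ?_)
      obtain ⟨i, h3, h4⟩ := hE' j f hf
      exact h4 ▸ hcon i (h3.trans hj)

theorem centreEV (k : Type) [Field k] [IsAlgClosed k] [CharZero k] : CentreEV k := by
  intro C F _ _ _ _ S π N y B d s tl X I St hX hI w t hA hB
  obtain ⟨a, W, n, g, e, Z⟩ := St.exists_centre tl hA hB
  obtain ⟨n', g', e', Z', h'⟩ := centre_ev (s := s) tl hX.gens (h := X.good)
    (U := {q | X.IsPt q})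
    (fun l q ⟨f, hf, hq⟩ => ⟨f, hf, nz_mv _ l (hX.hs f hf) hq⟩) St hX.ε hI Z
  exact ⟨a, W, n', g', e', Z', h'⟩

end Crest.Agent.X262.Res
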