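import Crest.Agent.X262.Res.StartD

/-!
# Row 262, squad RES+ (helper39): the first model, `StartStmt`
-/

set_option autoImplicit false

noncomputable section

namespace Crest.Agent.X262.Res

open AddMonoidAlgebra Crest.Agent.X277.Res Crest.Agent.X277.Res.Gr Crest.Agent.X277.Res.Out
  Crest.Agent.X277.Res.St Crest.Agent.X277.Lef

namespace StC

variable {k C F : Type} [Field k] [Field C] [Algebra k C] [Field F] [Algebra k F] {N : ℕ}
  {S : Subalgebra k C} {π : S →ₐ[k] F}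

open Classical in
/-- the first model -/
def model [CharZero k] (Y : Fin (N + 1) → C) (B : Set (Fin (N + 1))) (hr : Red S π Y)
    (X : Model π Y N) (h1 : X.toPre = pre k Y) (h2 : X.θ = ee 0)
    (h3 : X.hs = Finset.univ.image (YY Y)) (h4 : X.ε = ∏ j, YY Y j)
    (hne : ∀ j, π ⟨Y j, hr.le (Algebra.subset_adjoin ⟨j, rfl⟩)⟩ ≠ 0) : Mod π Y B N where
  toPre := pre k Y
  θ := ee 0
  hs := Finset.univ.image (YY Y)
  ε := eps Y B
  θ_mem := AddSubgroup.mem_zmultiples _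
  hs_mem := by rw [← h1, ← h2, ← h3]; exact X.hs_mem
  St := by rw [← h1, ← h2, ← h3]; exact X.St
  ε_mem := eps_mem
  ε_notP := Finset.prod_induction _ (NotP π) (fun _ _ => G1.NotP_mul) (G1.NotP_chi 0)
    fun j _ => ⟨_, ⟨_, hr.le (Algebra.subset_adjoin ⟨j, rfl⟩)⟩, rfl, hne j⟩
  e0_mem := AddSubgroup.mem_zmultiples _
  Y_mem := YY_mem Y
  Y_dvd := fun j hj => ⟨∏ l ∈ (Finset.univ.filter (· ∈ B)).erase j, YY Y l,
    prod_mem fun l _ => YY_mem Y l,
    (Finset.prod_erase_mul _ _ (Finset.mem_filter.2 ⟨Finset.mem_univ j, hj⟩)).symm⟩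
  dom := by rw [← h1, ← h3]; exact X.dom
  prop := by rw [← h1, ← h2, ← h3]; exact X.prop
  coord := by
    have h := X.coord
    rw [h4, h3] at h
    generalize X.toPre = P at h h1
    subst h1
    intro q hq
    obtain ⟨c⟩ := h q hq
    exact coord_eps (le_loc q) c

open Crest.Agent.X277.Res.Emb in
theorem start_of [CharZero k] {Y : Fin (N + 1) → C} {y : Fin (N + 1) → F}
    (B : Set (Fin (N + 1))) (hr : Red S π Y) (Dt : Dat π Y y) {D : Fin (N + 1) → Der k C MM}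
    (hD : ∀ l, HomDer (-ee 0) (D l)) (hK : ∀ l, Kills (fresh C 1) (D l))
    (hDY : ∀ l j, D l (YY Y j) = if l = j then 1 else 0) {s : kˣ →* (C ≃ₐ[k] C)}
    {s' : kˣ →* (F ≃ₐ[k] F)} (hs : ∀ j, ∃ n, Wt s n (Y j) ∧ Wt s' n (pf π (Y j))) :
    ∃ (X : Mod π Y B N) (I : Finset (GA C MM)), Emb X I ∧ EqRed s s' π ∧ Eqv s X ∧
      (∀ f ∈ I, EV s f) ∧ Iso (gdv y B) (olv y) X ∧ Gud (gdv y B) X I := by
  classical
  have hne : ∀ j, π ⟨Y j, hr.le (Algebra.subset_adjoin ⟨j, rfl⟩)⟩ ≠ 0 := fun j => by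
    rw [← pf_of_mem π, Dt.hY]; exact div_ne_zero (Dt.y_ne j) (Dt.y_ne 0)
  have hY0 : ∀ j, Y j ≠ 0 := fun j h => hne j (by
    rw [show (⟨Y j, _⟩ : S) = 0 from Subtype.ext h, map_zero])
  let X := model Y B hr (St.model Y hr hne D hD hK hDY) rfl rfl rfl rfl hne
  have hE : EqRed s s' π := eqRed_of hr hs
  have hYY : ∀ j, EV s (YY Y j) := fun j => (hs j).elim fun n h => ⟨_, _, n, rfl, h.1⟩
  have hYY' : ∀ u ∈ Finset.univ.image (YY Y), EV s u := fun u hu => by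
    obtain ⟨j, -, rfl⟩ := Finset.mem_image.1 hu
    exact hYY j
  obtain ⟨I, hI, hgen⟩ := exists_gens hr hE (pre k Y) hYY'
  refine ⟨X, I, ⟨fun f hf => ⟨(hI f hf).1, (hI f hf).2.1⟩,
      fun f hf hP => ⟨1, one_mem _, G1.NotP_chi 0, by rw [one_mul]; exact hgen f hf hP⟩,
      fun n hn => ?_, fun μ hμ => ?_⟩, hE,
    ⟨hYY', hYY', show EV s (eps Y B) from EV.prod _ fun j _ => hYY j⟩, fun f hf => (hI f hf).2.2,
    fun q hq hv => ⟨fun μ hμ => ?_, fun c hc => ?_⟩, fun q hq hv => ?_⟩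
  · obtain rfl : n = 0 := Nat.lt_one_iff.1 hn
    have := YY_mem (k := k) Y 0
    rwa [YY, hr.y0] at this
  · refine ⟨μ 0, ?_⟩
    ext n
    by_cases hn : n = 0
    · simp [ee, hn]
    · rw [hμ n (Nat.one_le_iff_ne_zero.2 hn)]; simp [ee, hn]
  · obtain ⟨i, -, hi, -⟩ := hv
    obtain ⟨e, he, -⟩ := StB.exists_unit (pre k Y).good (u_YY hi) hμ
    exact ⟨e, he.mem, he.nm, he.hom⟩
  · simp only [olv, Algebra.mem_iInf]
    rintro i ψ ⟨hi, hψ⟩
    rw [← pf_coe]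
    exact (pf_mem Dt hi hψ hc).1
  · obtain ⟨i, ψ, hi, hψ, hsn⟩ := hv
    obtain ⟨c₀⟩ := X.coord q hq
    obtain ⟨c, A, h1, h2⟩ := exists_good (I := (I : Set (GA C MM))) Dt hr.y0 hY0 hi hψ hsn
      (ε₀ := ⟨_, X.ε_mem⟩) c₀ (fun f hf => ⟨(hI f hf).1, (hI f hf).2.1⟩) hgen
    obtain ⟨J, j1, j2, j3, j4, j5⟩ := StB.exists_ctr c A h1 h2
    exact ⟨fun f hf => not_nz Dt hi hψ hf, J, j1, j2, j3, j4, fun l hl =>
      Submodule.span_mono (fun f hf => And.intro (hI f hf).1 (hI f hf).2.1) (j5 l hl)⟩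

end StC

open StC Crest.Agent.X277.Res.Emb in
/-- **the first model** -/
theorem startStmt (k : Type) [Field k] [CharZero k] : StartStmt k := by
  classical
  intro F _ _ N y B s' hy hF hw
  let π0 : (Algebra.adjoin k (Set.range (YC k N))) →ₐ[k] F :=
    (MvPolynomial.aeval fun j : Fin N => y j.succ / y 0).comp
      (((AlgEquiv.ofInjective (ιC k N) ιC_inj).trans (Subalgebra.equivOfEq _ _ range_ιC)).symm :
        _ →ₐ[k] _)
  have hπ0 : ∀ p : MvPolynomial (Fin N) k, pf π0 (ιC k N p) =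
      MvPolynomial.aeval (fun j : Fin N => y j.succ / y 0) p := by
    intro p
    have hp : ιC k N p ∈ Algebra.adjoin k (Set.range (YC k N)) := by
      rw [← range_ιC]; exact ⟨p, rfl⟩
    rw [pf_of_mem π0 hp]
    have : (⟨_, hp⟩ : Algebra.adjoin k (Set.range (YC k N))) =
        ((AlgEquiv.ofInjective (ιC k N) ιC_inj).trans (Subalgebra.equivOfEq _ _ range_ιC)) p := rfl
    rw [this]
    exact congrArg (MvPolynomial.aeval fun j : Fin N => y j.succ / y 0)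
      (((AlgEquiv.ofInjective (ιC k N) ιC_inj).trans
        (Subalgebra.equivOfEq _ _ range_ιC)).symm_apply_apply p)
  have hY : ∀ j, pf π0 (YC k N j) = y j / y 0 := by
    intro j
    refine Fin.cases ?_ (fun j => ?_) j
    · rw [div_self (hy 0)]; exact pf_one π0
    · exact (hπ0 (MvPolynomial.X j)).trans (MvPolynomial.aeval_X _ _)
  have hch : ∀ a ∈ chart k y 0, ∃ b ∈ Algebra.adjoin k (Set.range (YC k N)), pf π0 b = a := by
    intro a ha
    have : chart k y 0 ≤ π0.range := Algebra.adjoin_le (by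
      rintro _ ⟨j, rfl⟩
      exact ⟨⟨YC k N j, Algebra.subset_adjoin ⟨j, rfl⟩⟩, (pf_of_mem π0 _).symm.trans (hY j)⟩)
    obtain ⟨b, rfl⟩ := this ha
    exact ⟨b, b.2, pf_coe π0 b⟩
  have hr : Red (Sl π0) (pl π0) (YC k N) := by
    refine ⟨rfl, le_Sl π0, pl_surjective π0 fun f => ?_, fun c hc => ?_, fun c => ?_⟩
    · obtain ⟨a, ha, c, hc, hc0, rfl⟩ := hF f
      obtain ⟨a', ha', rfl⟩ := hch a ha
      obtain ⟨c', hc', rfl⟩ := hch c hc
      exact ⟨a', ha', c', hc', hc0, by field_simp⟩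
    · exact inv_mem_Sl π0 c.2 (by rwa [pf_coe])
    · obtain ⟨b, hb, h1, h2⟩ := (mem_Sl π0).1 c.2
      refine ⟨⟨b, le_Sl π0 hb⟩, hb, ?_, h2⟩
      rwa [← pf_of_mem (pl π0), pf_pl π0 hb]
  have hY1 : ∀ j, pf (pl π0) (YC k N j) = y j / y 0 := fun j => by
    rw [pf_pl π0 (Algebra.subset_adjoin ⟨j, rfl⟩), hY]
  have hY' : ∀ j, pl π0 ⟨YC k N j, hr.le (Algebra.subset_adjoin ⟨j, rfl⟩)⟩ = y j / y 0 :=
    fun j => by rw [← pf_of_mem (pl π0), hY1]
  obtain ⟨D, hD, hK, hDY⟩ := exists_ders (k := k) (N := N)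
  choose a ha using hw
  obtain ⟨s, hs⟩ := exists_action k N fun j => a j.succ - a 0
  have hs' : ∀ j, Wt s (a j - a 0) (YC k N j) := fun j => by
    refine Fin.cases ?_ (fun j => hs j) j
    rw [sub_self]; exact wt_one
  obtain ⟨X, I, h1, h2⟩ := start_of (s' := s') B hr ⟨hr.le, hr.inv, hY1, hy⟩ hD hK hDY fun j =>
    ⟨_, hs' j, by rw [hY1]; exact (ha j).div (ha 0)⟩
  exact ⟨CC k N, inferInstance, inferInstance, _, _, _, hr, X, I, s, h1, hY', h2⟩

end Crest.Agent.X262.Res
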