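import Crest.Agent.X262.Res.Main0
import Crest.Agent.X262.Res.Cen
import Crest.Agent.X262.Res.Start

/-!
# Row 262, squad RES+: strong equivariant log resolution (helper64)
-/

namespace Crest.Agent.X262.Res

/-- **strong, torus-equivariant log resolution of singularities** -/
theorem plusStmt (k : Type) [Field k] [IsAlgClosed k] [CharZero k] : PlusStmt k :=
  plusStmt_of k (startStmt k) (centreEV k)

end Crest.Agent.X262.Res
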