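import Crest.Agent.X262.Res.Wt
import Crest.Agent.X277.Res.BlowGl
import Crest.Agent.X277.Res.G1d

/-!
# Row 262, squad RES+: the global blow-up (helper64; port of `X277/Res/BlowGl`)
-/

set_option autoImplicit false
set_option linter.unusedSectionVars false

noncomputable section

namespace Crest.Agent.X262.Res

open AddMonoidAlgebra Crest.Agent.X277.Res Gr BG

variable {k C F : Type} [Field k] [Field C] [Algebra k C] [Field F] [Algebra k F]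
variable {S : Subalgebra k C} {π : S →ₐ[k] F} {N : ℕ} {y : Fin (N + 1) → C}
  {B : Set (Fin (N + 1))} {d : ℕ}

namespace BG

theorem exists_charts (X : Mod π y B d) (𝒢 : Finset (GA C MM × ℕ))
    (h𝒢 : ∀ p ∈ 𝒢, p.1 ∈ X.R ∧ IsH p.1 ∧ 0 < p.2) :
    ∃ A D : ℕ, 0 < D ∧ ∀ h ∈ X.hs, ∀ p ∈ 𝒢, ∃ h',
      IsCh X.R (A • X.θ - D • ee X.ρ) h (p.1 * chi (-ee X.ρ) ^ p.2) h' := by
  classical
  have key : ∀ x : GA C MM × GA C MM × ℕ, ∃ (n c c' : ℕ) (w w' : GA C MM),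
      x ∈ X.hs ×ˢ 𝒢 → 0 < n ∧ w ∈ X.R ∧ w' ∈ X.R ∧ IsH w ∧ IsH w' ∧ w * w' = x.1 ^ c' ∧
        Hom (c • X.θ - (n * x.2.2) • ee X.ρ) (w * (x.2.1 * chi (-ee X.ρ) ^ x.2.2) ^ n) := by
    intro x
    by_cases hx : x ∈ X.hs ×ˢ 𝒢
    · obtain ⟨h1, h2⟩ := Finset.mem_product.1 hx
      obtain ⟨μ, hμ, c, -, e⟩ := exists_deg X.toPre (h𝒢 _ h2).1 (h𝒢 _ h2).2.1
      obtain ⟨n, hn, c1, c', w, hw, w', hw', h3, h4, h5⟩ := X.St _ h1 (-μ) (neg_mem hμ)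
      refine ⟨n, c1, c', w, w', fun _ => ⟨hn, hw, hw', ⟨_, h3⟩, h4, h5, ?_⟩⟩
      rw [e, mul_chi_pow]
      refine Dest.hom_congr (HomD.mul h3 (HomD.pow (homD_single _ c) n)) ?_
      rw [mul_nsmul']
      module
    · exact ⟨0, 0, 0, 0, 0, fun h => absurd h hx⟩
  choose n c c' w w' hk using key
  set D := ∏ x ∈ X.hs ×ˢ 𝒢, n x * x.2.2 with hD
  have hpos : ∀ x ∈ X.hs ×ˢ 𝒢, 0 < n x * x.2.2 := fun x hx =>
    Nat.mul_pos (hk x hx).1 (h𝒢 _ (Finset.mem_product.1 hx).2).2.2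
  have hD0 : 0 < D := Finset.prod_pos hpos
  refine ⟨1 + ∑ x ∈ X.hs ×ˢ 𝒢, D / (n x * x.2.2) * c x, D, hD0, fun h hh p hp => ?_⟩
  have hx : (h, p) ∈ X.hs ×ˢ 𝒢 := Finset.mem_product.2 ⟨hh, hp⟩
  obtain ⟨hn, hw, hw', h1, h2, h3, h4⟩ := hk _ hx
  set b := D / (n (h, p) * p.2) with hb
  have hbD : b * (n (h, p) * p.2) = D :=
    Nat.div_mul_cancel (Finset.dvd_prod_of_mem (fun x => n x * x.2.2) hx)
  have hb0 : 0 < b := by
    rcases Nat.eq_zero_or_pos b with h0 | h0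
    · rw [h0, zero_mul] at hbD; omega
    · exact h0
  obtain ⟨a, ha⟩ : ∃ a, ∑ x ∈ X.hs ×ˢ 𝒢, D / (n x * x.2.2) * c x = a + b * c (h, p) :=
    ⟨_, (Nat.sub_add_cancel (Finset.single_le_sum
      (f := fun x => D / (n x * x.2.2) * c x) (fun _ _ => Nat.zero_le _) hx)).symm⟩
  refine ⟨_, ?_, a, n (h, p) * b, c' (h, p) * b, w (h, p) ^ b, w' (h, p) ^ b, Nat.mul_pos hn hb0,
    pow_mem hw _, pow_mem hw' _, IsHom.pow h1 _, IsHom.pow h2 _, ?_, rfl⟩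
  · have h5 := (X.hs_mem h hh).2
    rw [pow_mul, mul_assoc, ← mul_pow]
    refine Dest.hom_congr (HomD.mul h5 (HomD.mul (HomD.pow h5 a) (HomD.pow h4 b))) ?_
    rw [ha, ← hbD]
    module
  · rw [← mul_pow, h3, pow_mul]

theorem blow [CharZero k] (X : Mod π y B d) (𝒢 : Finset (GA C MM × ℕ)) (hr : Red S π y)
    (Bl : BlowIn X 𝒢) {s : kˣ →* (C ≃ₐ[k] C)} (hX : Eqv s X) (h𝒢 : ∀ p ∈ 𝒢, EV s p.1) :
    ∃ X' : Mod π y B d, IsBlow X X' 𝒢 ∧ Eqv s X' := by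
  classical
  obtain ⟨A, D, hD, hch⟩ := exists_charts X 𝒢 Bl.mem
  choose! ch hch using hch
  set P := pre X.toPre 𝒢 Bl.mem with hP
  have hg : (P.gens : Set (GA C MM)) = (X.gens : Set (GA C MM)) ∪ newGens X.ρ 𝒢 :=
    pre_gens X.toPre 𝒢 Bl.mem
  have hM : P.M = X.M ⊔ AddSubgroup.zmultiples (ee X.ρ) := rfl
  have hle : X.R ≤ P.R := BO.R_le hg
  have hs : (chi (ee X.ρ) : GA C MM) ∈ P.R := BO.newGens_mem hg (Or.inl rfl)
  have hψ : ∀ p ∈ 𝒢, p.1 * chi (-ee X.ρ) ^ p.2 ∈ P.R := fun p hp =>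
    BO.newGens_mem hg (Or.inr ⟨p, hp, rfl⟩)
  have hψh : ∀ p ∈ 𝒢, IsH (p.1 * chi (-ee X.ρ) ^ p.2) := fun p hp =>
    IsHom.mul (Bl.mem p hp).2.1 (IsHom.pow ⟨_, BL.homD_chi _⟩ _)
  set hs' : Finset (GA C MM) := (X.hs ×ˢ 𝒢).image fun x => ch x.1 x.2 with hhs'
  have hmem : ∀ h' ∈ hs', ∃ h ∈ X.hs, ∃ p ∈ 𝒢, IsCh X.R (A • X.θ - D • ee X.ρ) h
      (p.1 * chi (-ee X.ρ) ^ p.2) h' := by
    intro h' hh'
    obtain ⟨x, hx, rfl⟩ := Finset.mem_image.1 hh'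
    obtain ⟨h1, h2⟩ := Finset.mem_product.1 hx
    exact ⟨_, h1, _, h2, hch _ h1 _ h2⟩
  have hpt : ∀ q' : P.R →ₐ[k] k, (∃ h' ∈ hs', NZ q' h') → X.IsPt (res hle q') ∧
      ∃ p ∈ 𝒢, NZ q' (p.1 * chi (-ee X.ρ) ^ p.2) := by
    rintro q' ⟨h', hh', hq⟩
    obtain ⟨h, hh, p, hp, hc⟩ := hmem h' hh'
    obtain ⟨h1, h2⟩ := hc.nz hle (X.hs_mem h hh).1 (hψ p hp) hq
    exact ⟨⟨h, hh, h1⟩, p, hp, h2⟩
  have hσ : ee X.ρ ∈ P.M := AddSubgroup.mem_sup_right (AddSubgroup.mem_zmultiples _)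
  have hMle : X.M ≤ P.M := le_sup_left
  refine ⟨{ toPre := P
            θ := A • X.θ - D • ee X.ρ
            hs := hs'
            ε := X.ε * chi (ee X.ρ)
            θ_mem := sub_mem (nsmul_mem (hMle X.θ_mem) _) (nsmul_mem hσ _)
            hs_mem := ?_
            St := ?_
            ε_mem := mul_mem (hle X.ε_mem) hs
            ε_notP := ?_
            e0_mem := hMle X.e0_mem
            Y_mem := fun j => hle (X.Y_mem j)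
            Y_dvd := ?_
            dom := ?_
            prop := ?_
            coord := ?_ }, ⟨rfl, rfl, hg, rfl, ?_⟩, ?_, ?_, hX.ε.mul (ev_chi _)⟩
  · intro h' hh'
    obtain ⟨h, hh, p, hp, hc⟩ := hmem h' hh'
    exact ⟨hc.mem hle (X.hs_mem h hh).1 (hψ p hp), hc.hom⟩
  · intro h' hh' μ hμ
    obtain ⟨h, hh, p, hp, hc⟩ := hmem h' hh'
    have hR' := hc.mem hle (X.hs_mem h hh).1 (hψ p hp)
    obtain ⟨hhR, hhh⟩ := X.hs_mem h hh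
    obtain ⟨a, e, c', w, w', -, hw, -, hwh, -, -, he⟩ := hc.eq
    have hU := BS.UD_le (hR := hhR) (hh := hhh) hle hR' hc.hom
      (mul_mem (mul_mem (pow_mem (hle hhR) a) (hle hw)) (pow_mem (hψ p hp) e))
      (IsHom.mul (IsHom.mul (IsHom.pow ⟨_, hhh⟩ _) hwh) (IsHom.pow (hψh p hp) _)) he.symm
    have h1 : X.M ≤ BS.UD P.R h' _ hR' hc.hom := fun ν hν => hU (X.St h hh ν hν)
    have h2 : A • X.θ - D • ee X.ρ ∈ BS.UD P.R h' _ hR' hc.hom :=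
      BS.mem_UD_of_dvd hR' (one_mem _) hc.hom isHom_one (c := 1) (by rw [mul_one, pow_one])
    have h3 : ee X.ρ ∈ BS.UD P.R h' _ hR' hc.hom := by
      refine BS.UD_sat hD ?_
      simpa using sub_mem (nsmul_mem (h1 X.θ_mem) A) h2
    exact (sup_le h1 (AddSubgroup.zmultiples_le_of_mem h3) : P.M ≤ _) hμ
  · obtain ⟨μ, c, e, hc⟩ := X.ε_notP
    exact ⟨μ + ee X.ρ, c, by rw [e, chi, single_mul_single, mul_one], hc⟩
  · intro j hj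
    obtain ⟨r, hr, e⟩ := X.Y_dvd j hj
    exact ⟨r * chi (ee X.ρ), mul_mem (hle hr) hs, by rw [e]; ring⟩
  · intro q' hq
    obtain ⟨j, _, hj⟩ := X.dom _ (hpt q' hq).1
    exact ⟨j, hle (X.Y_mem j), hj⟩
  · intro V hV
    obtain ⟨n, hn, τ, hb, c0, hc0, h1⟩ := X.prop V hV
    have hv := sval (π := π) V hV hn
    have hτ : BS.Chr fun μ : MM => τ (Multiplicative.ofAdd μ) :=
      ⟨map_one τ, fun μ ν => by rw [ofAdd_add, map_mul]⟩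
    have hB : BS.Bd S (sv π V n) (fun μ : MM => τ (Multiplicative.ofAdd μ)) X.R := by
      intro μ c hc
      have hcS : c ∈ S := hr.le (by simpa using (X.coeff_mem hc μ).1)
      refine ⟨hcS, ?_⟩
      have := hb μ ⟨c, hcS⟩ hc
      rwa [← sv_coe] at this
    obtain ⟨E, hE, τ', hτ', hB', hone, p, hp, hp1⟩ := BS.bd_step hv hτ hB
      (Finsupp.applyAddHom X.ρ) (σ := ee X.ρ) (by simp [ee])
      (fun μ f hf hh h0 => X.M_supp μ (X.deg_mem μ f hf hh h0) _ le_rfl)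
      (X := (X.gens : Set (GA C MM))) (fun a ha => ⟨X.gens_mem ha, X.isH_gens ha⟩) 𝒢 Bl.mem
      (by
        obtain ⟨p, hp, μ, c, e, hc⟩ := Bl.ne
        refine ⟨p, hp, μ, c, e, ?_⟩
        rw [sv_coe]
        exact pow_ne_zero _ ((Valuation.ne_zero_iff _).2 hc))
    have hB'' : BS.Bd S (fun c => sv π V n c ^ E) τ' P.R := by
      have : P.R = Algebra.adjoin k ((X.gens : Set (GA C MM)) ∪ newGens X.ρ 𝒢) := by
        rw [← hg]; rfl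
      rw [this]
      exact hB'
    refine ⟨n * E, Nat.mul_pos hn hE, chrHom hτ', fun μ c hc => ?_, ?_⟩
    · have : sv π V n c ^ E * τ' μ ≤ 1 := (hB'' μ c hc).2
      rwa [sv_coe, ← pow_mul] at this
    · have hh1 : BS.NOne S (sv π V n) (fun μ : MM => τ (Multiplicative.ofAdd μ))
          (single X.θ (c0 : C)) := ⟨_, _, c0.2, rfl, by rw [sv_coe]; exact h1⟩
      have hhR := (X.hs_mem _ hc0).1
      have hc := hch _ hc0 p hp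
      obtain ⟨a, e, c', w, w', -, hw, hw', hwh, hwh', h2, h3⟩ := hc.eq
      have hv' := hv.pow hE
      have hh2 := hone _ hhR hh1
      have hw1 := hone _ hw (BS.NOne.of_mul hv hτ hB hw hw' hwh hwh' (h2 ▸ hh1.pow hv hτ c'))
      have h4 := hh2.mul hv' hτ' (((hh2.pow hv' hτ' a).mul hv' hτ' hw1).mul hv' hτ'
        (hp1.pow hv' hτ' e))
      rw [← h3] at h4
      obtain ⟨c, hcS, h5, h6⟩ := h4.of_hom hv' hc.hom
      refine ⟨⟨c, hcS⟩, ?_, ?_⟩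
      · change single _ c ∈ hs'
        rw [← h5]
        exact Finset.mem_image.2 ⟨(_, p), Finset.mem_product.2 ⟨hc0, hp⟩, rfl⟩
      · have e1 := sv_coe (π := π) V n ⟨c, hcS⟩
        change sv π V n c = _ at e1
        rw [e1, ← pow_mul] at h6
        exact h6
  · intro q' hq
    obtain ⟨h1, h2⟩ := hpt q' hq
    obtain ⟨hF, hU, hBl⟩ := BO.blowOverStmt k C N y X.toPre P 𝒢 (res hle q') q' hM hg Bl.mem
      (BO.liesOver_res hle q')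
    rcases Bl.loc _ h1 with h3 | ⟨c, W, hS⟩
    · obtain ⟨c⟩ := X.coord _ h1
      obtain ⟨c', -⟩ := BL.unitLoc _ _ _ _ _ _ c _ _ hF (hU h3)
      exact ⟨c'⟩
    · obtain ⟨hO, h4⟩ := hBl (Fin d) c.x W (Dest.x_mem_m c) (fun i => ⟨_, c.hom i⟩) hS
      obtain ⟨h5, i, hi, h6⟩ := h4 h2
      obtain ⟨c', -⟩ := BL.blowLoc _ _ _ _ _ _ c W _ _ i hF hO h5 hi h6
      exact ⟨c'⟩
  · intro q' hq
    obtain ⟨h1, h2⟩ := hpt q' hq
    exact ⟨_, h1, BO.liesOver_res hle q', h2⟩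
  · intro u hu
    have hu' : u ∈ (X.gens : Set (GA C MM)) ∪ newGens X.ρ 𝒢 := hg ▸ Finset.mem_coe.2 hu
    rcases hu' with h1 | rfl | ⟨p, hp, rfl⟩
    · exact hX.gens u h1
    · exact ev_chi _
    · exact (h𝒢 p hp).mul ((ev_chi _).pow _)
  · intro h' hh'
    obtain ⟨h, hh, p, hp, hc⟩ := hmem h' hh'
    obtain ⟨a, e, c', w, w', -, hw, hw', hwh, hwh', h2, rfl⟩ := hc.eq
    have h3 := hX.hs h hh
    by_cases h0 : h = 0
    · rw [h0, zero_mul]; exact ev_zero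
    · have h4 : EV s w := EV.of_mul hX.gens hw hw' hwh hwh' (h2 ▸ h3.pow c') (by
        rw [h2]; exact ((IsHom.isUnit h3.isH h0).pow c').ne_zero)
      exact h3.mul (((h3.pow a).mul h4).mul (((h𝒢 p hp).mul ((ev_chi _).pow _)).pow e))

end BG

theorem blowStmt (k : Type) [Field k] [CharZero k] : BlowStmt k :=
  fun _ _ _ _ _ _ _ _ _ _ _ _ X 𝒢 _ hr Bl hX h𝒢 => BG.blow X 𝒢 hr Bl hX h𝒢

section Away

variable {X X' : Pre k C y} {𝒢 : Finset (GA C MM × ℕ)}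

/-- homogeneous elements of the blow-up algebra come from `R` -/
theorem cp_mul_chi_mem
    (hg : (X'.gens : Set (GA C MM)) = (X.gens : Set (GA C MM)) ∪ newGens X.ρ 𝒢)
    (h𝒢 : ∀ p ∈ 𝒢, p.1 ∈ X.R ∧ IsH p.1 ∧ 0 < p.2)
    {f : GA C MM} (hf : f ∈ X'.R) : ∀ μ, cp μ f * chi (-(μ X.ρ • ee X.ρ)) ∈ X.R := by
  have base : ∀ (u : GA C MM) (ν : MM), Hom ν u → u * chi (-(ν X.ρ • ee X.ρ)) ∈ X.R →
      ∀ μ, cp μ u * chi (-(μ X.ρ • ee X.ρ)) ∈ X.R := by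
    intro u ν hu h μ
    by_cases hμ : μ = ν
    · rw [hμ, HomD.cp_self hu]; exact h
    · rw [HomD.cp_ne hu hμ, zero_mul]; exact zero_mem _
  have baseR : ∀ u ∈ X.R, IsH u → ∀ m : ℤ, ∀ μ,
      cp μ (u * chi (m • ee X.ρ)) * chi (-(μ X.ρ • ee X.ρ)) ∈ X.R := by
    rintro u hu ⟨ν, hν⟩ m
    by_cases h0 : u = 0
    · intro μ; rw [h0, zero_mul, cp_zero, zero_mul]; exact zero_mem _
    · refine base _ (ν + m • ee X.ρ) (HomD.mul hν ⟨1, rfl⟩) ?_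
      have : (ν + m • ee X.ρ) X.ρ = m := by
        rw [Finsupp.add_apply, X.M_supp ν (X.deg_mem ν u hu hν h0) _ le_rfl, Finsupp.smul_apply,
          G1.ee_apply_self]; simp
      rw [this, mul_assoc, G1.chi_mul_chi_neg, mul_one]
      exact hu
  induction hf using Algebra.adjoin_induction with
  | mem u hu =>
    rw [hg] at hu
    rcases hu with hu | rfl | ⟨p, hp, rfl⟩
    · have := baseR u (X.gens_mem hu) (X.isH_gens hu) 0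
      rwa [zero_smul, show (chi 0 : GA C MM) = 1 from rfl, mul_one] at this
    · have := baseR 1 (one_mem _) isHom_one 1
      rwa [one_smul, one_mul] at this
    · have := baseR p.1 (h𝒢 p hp).1 (h𝒢 p hp).2.1 (-(p.2 : ℤ))
      rwa [neg_smul, natCast_zsmul, ← smul_neg, ← G1.chi_pow] at this
  | algebraMap c =>
    have := baseR _ (X.R.algebraMap_mem c) (isHom_algebraMap c) 0
    rwa [zero_smul, show (chi 0 : GA C MM) = 1 from rfl, mul_one] at this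
  | add a b _ _ ha hb => intro μ; rw [cp_add, add_mul]; exact add_mem (ha μ) (hb μ)
  | mul a b _ _ ha hb =>
    intro μ
    rw [cp_mul, Finset.sum_mul]
    refine sum_mem fun ν _ => ?_
    have : (chi (-(μ X.ρ • ee X.ρ)) : GA C MM) =
        chi (-(ν X.ρ • ee X.ρ)) * chi (-((μ - ν) X.ρ • ee X.ρ)) := by
      rw [G1.chi_add', Finsupp.sub_apply, sub_smul]
      congr 1
      abel
    rw [this, mul_mul_mul_comm]
    exact mul_mem (ha ν) (hb _)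

/-- away from the centre the new variable is a unit -/
theorem nz_chi (hg : (X'.gens : Set (GA C MM)) = (X.gens : Set (GA C MM)) ∪ newGens X.ρ 𝒢)
    (h𝒢 : ∀ p ∈ 𝒢, p.1 ∈ X.R ∧ IsH p.1 ∧ 0 < p.2) {q : X.R →ₐ[k] k} {q' : X'.R →ₐ[k] k}
    (hl : LiesOver q q') (hu : ∃ p ∈ 𝒢, NZ q p.1) : NZ q' (chi (ee X.ρ)) := by
  obtain ⟨p, hp, hm, hq⟩ := hu
  obtain ⟨hm', h1⟩ := hl _ hm
  have hs : (chi (ee X.ρ) : GA C MM) ∈ X'.R := BO.newGens_mem hg (Or.inl rfl)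
  have hψ : p.1 * chi (-ee X.ρ) ^ p.2 ∈ X'.R := BO.newGens_mem hg (Or.inr ⟨p, hp, rfl⟩)
  have h2 : NZ q' (p.1 * chi (-ee X.ρ) ^ p.2 * chi (ee X.ρ) ^ p.2) := by
    rw [mul_assoc, mul_comm (chi (-ee X.ρ) ^ p.2), G1.chi_pow_mul, mul_one]
    exact ⟨hm', h1 ▸ hq⟩
  exact nz_of_pow hs (h𝒢 p hp).2.2 (nz_of_mul hψ (pow_mem hs _) h2).2

/-- a homogeneous element which is nonzero at `q'` comes from an element nonzero at `q` -/
theorem nz_down (hg : (X'.gens : Set (GA C MM)) = (X.gens : Set (GA C MM)) ∪ newGens X.ρ 𝒢)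
    (h𝒢 : ∀ p ∈ 𝒢, p.1 ∈ X.R ∧ IsH p.1 ∧ 0 < p.2) {q : X.R →ₐ[k] k} {q' : X'.R →ₐ[k] k}
    (hl : LiesOver q q') (hu : ∃ p ∈ 𝒢, NZ q p.1) {μ : MM} {b : GA C MM} (hb : Hom μ b)
    (hq : NZ q' b) : NZ q (b * chi (-(μ X.ρ • ee X.ρ))) := by
  have hs := nz_chi hg h𝒢 hl hu
  have h1 := cp_mul_chi_mem hg h𝒢 hq.1 μ
  rw [HomD.cp_self hb] at h1
  obtain ⟨h2, h3⟩ := hl _ h1
  refine ⟨h1, h3 ▸ ?_⟩
  have h4 : b * chi (ee X.ρ) ^ (μ X.ρ).natAbs =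
      (b * chi (-(μ X.ρ • ee X.ρ))) * chi (ee X.ρ) ^ ((μ X.ρ).natAbs + μ X.ρ).toNat := by
    rw [mul_assoc, G1.chi_pow, G1.chi_pow, G1.chi_add', ← natCast_zsmul, ← natCast_zsmul,
      Int.toNat_of_nonneg (by omega), add_smul]
    congr 2
    abel
  have h5 : NZ q' (b * chi (ee X.ρ) ^ (μ X.ρ).natAbs) := by
    obtain ⟨a1, a2⟩ := hq
    obtain ⟨b1, b2⟩ := hs
    refine ⟨mul_mem a1 (pow_mem b1 _), ?_⟩
    rw [show (⟨_, mul_mem a1 (pow_mem b1 (μ X.ρ).natAbs)⟩ : X'.R) =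
      (⟨b, a1⟩ : X'.R) * (⟨_, b1⟩ : X'.R) ^ (μ X.ρ).natAbs from rfl, map_mul, map_pow]
    exact mul_ne_zero a2 (pow_ne_zero _ b2)
  rw [h4] at h5
  exact (nz_of_mul h2 (pow_mem hs.1 _) h5).1.2

/-- away from the centre the part of degree zero does not change -/
theorem deg0_down (hg : (X'.gens : Set (GA C MM)) = (X.gens : Set (GA C MM)) ∪ newGens X.ρ 𝒢)
    (h𝒢 : ∀ p ∈ 𝒢, p.1 ∈ X.R ∧ IsH p.1 ∧ 0 < p.2) {q : X.R →ₐ[k] k} {q' : X'.R →ₐ[k] k}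
    (hl : LiesOver q q') (hu : ∃ p ∈ 𝒢, NZ q p.1) {c : C}
    (hc : (single 0 c : GA C MM) ∈ (X'.loc q').O) : (single 0 c : GA C MM) ∈ (X.loc q).O := by
  obtain ⟨b, ⟨μ, hb⟩, hq, hbc⟩ := hc
  obtain ⟨h1, h2⟩ := nz_down hg h𝒢 hl hu hb ⟨b.2, hq⟩
  refine ⟨⟨_, h1⟩, IsHom.mul ⟨μ, hb⟩ (G1.isH_chi _), h2, ?_⟩
  have h3 := cp_mul_chi_mem hg h𝒢 hbc μ
  have h4 : HomD μ ((b : GA C MM) * single 0 c) := by
    simpa using HomD.mul hb (homD_single 0 c)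
  rw [HomD.cp_self h4] at h3
  change (b : GA C MM) * _ * _ ∈ _
  rwa [mul_right_comm]

end Away

section Away2

variable {X X' : Mod π y B d} {𝒢 : Finset (GA C MM × ℕ)} {q : X.R →ₐ[k] k} {q' : X'.R →ₐ[k] k}

theorem vals_eq (hl : LiesOver q q') : X'.vals q' = X.vals q :=
  funext fun j => (hl _ (X.Y_mem j)).2

theorem freeAt_unit (hB : IsBlow X X' 𝒢) (h𝒢 : ∀ p ∈ 𝒢, p.1 ∈ X.R ∧ IsH p.1 ∧ 0 < p.2)
    (hl : LiesOver q q') (hu : ∃ p ∈ 𝒢, NZ q p.1) (h : FreeAt X q) : FreeAt X' q' := by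
  have hs := nz_chi hB.gens h𝒢 hl hu
  have hO := BO.over_newGens hB.gens hl
  have h1 : X'.M ≤ Dest.Mu (X'.loc q') := by
    rw [hB.M]
    refine sup_le (fun μ hμ => ?_) ?_
    · obtain ⟨e, he, hm, hh⟩ := h μ hμ
      exact ⟨e, hO.le he, G1.notMem_of_over hO.le he ⟨_, hh⟩ hm, hh⟩
    · rw [AddSubgroup.zmultiples_le]
      exact ⟨_, le_loc q' hs.1, (X'.notMem_loc_m hs.1 (G1.isH_chi _)).2 hs, ⟨1, rfl⟩⟩
  exact fun μ hμ => h1 hμ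

theorem onP_unit (hB : IsBlow X X' 𝒢) (h𝒢 : ∀ p ∈ 𝒢, p.1 ∈ X.R ∧ IsH p.1 ∧ 0 < p.2)
    (hl : LiesOver q q') (hu : ∃ p ∈ 𝒢, NZ q p.1) (h : OnP X q) : OnP X' q' := by
  intro f hf hq
  obtain ⟨μ, hμ⟩ := G1.InP_isH hf
  exact h _ (G1.InP_mul_chi hf _) (nz_down hB.gens h𝒢 hl hu hμ hq)

/-- a blow-up whose centre avoids the good points is an isomorphism over them -/
theorem Iso.blow {Gd : Set (Fin (N + 1) → k)} {Ol : (Fin (N + 1) → k) → Subalgebra k F}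
    (h : Iso Gd Ol X) (hB : IsBlow X X' 𝒢) (h𝒢 : ∀ p ∈ 𝒢, p.1 ∈ X.R ∧ IsH p.1 ∧ 0 < p.2)
    (hu : ∀ q, X.IsPt q → X.vals q ∈ Gd → ∃ p ∈ 𝒢, NZ q p.1) : Iso Gd Ol X' := by
  intro q' hq' hv
  obtain ⟨q, hq, hl, -⟩ := hB.pt q' hq'
  rw [vals_eq hl] at hv ⊢
  obtain ⟨h1, h2⟩ := h q hq hv
  exact ⟨freeAt_unit hB h𝒢 hl (hu q hq hv) h1,
    fun c hc => h2 c (deg0_down hB.gens h𝒢 hl (hu q hq hv) hc)⟩

end Away2

end Crest.Agent.X262.Res
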