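import Crest.Agent.X277.Res.GDefs
import Crest.Agent.X277.Res.FinCov

/-!
# Row 262, squad RES+: strong, equivariant log resolution; definitions and statements (helper64)

The global layer of `X277/Res` is run again with
* a boundary which contains only the hyperplanes `Y j = 0`, `j ∈ B`;
* a torus action `s` (`EV s f` : `f` is homogeneous and a weight vector);
* a set `Gd` of good points of the model `y`, over which nothing is changed.
-/

set_option autoImplicit false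

noncomputable section

namespace Crest.Agent.X262.Res

open AddMonoidAlgebra Crest.Agent.X277.Res Crest.Agent.X277.Lef

section Weights

variable {k C G : Type} [Field k] [Field C] [Algebra k C] [AddCommGroup G]

/-- `c` is a weight vector of weight `n` -/
def Wt (s : kˣ →* (C ≃ₐ[k] C)) (n : ℤ) (c : C) : Prop :=
  ∀ a : kˣ, s a c = ((a ^ n : kˣ) : k) • c

/-- homogeneous, and a weight vector -/
def EV (s : kˣ →* (C ≃ₐ[k] C)) (f : GA C G) : Prop :=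
  ∃ (μ : G) (c : C) (n : ℤ), f = single μ c ∧ Wt s n c

end Weights

section Models

variable {k C F : Type} [Field k] [Field C] [Algebra k C] [Field F] [Algebra k F]

/-- a model: `d` is the number of coordinates, `B` the set of boundary hyperplanes -/
structure Mod {S : Subalgebra k C} (π : S →ₐ[k] F) {N : ℕ} (y : Fin (N + 1) → C)
    (B : Set (Fin (N + 1))) (d : ℕ) extends Pre k C y where
  /-- the degree of the charts -/
  θ : MM
  /-- the charts -/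
  hs : Finset (GA C MM)
  /-- the boundary -/
  ε : GA C MM
  θ_mem : θ ∈ M
  hs_mem : ∀ h ∈ hs, h ∈ toPre.R ∧ Hom θ h
  St : ∀ h ∈ hs, ∀ μ ∈ M, ∃ n : ℕ, 0 < n ∧ ∃ (c c' : ℕ), ∃ w ∈ toPre.R, ∃ w' ∈ toPre.R,
    Hom (n • μ + c • θ) w ∧ IsH w' ∧ w * w' = h ^ c'
  ε_mem : ε ∈ toPre.R
  ε_notP : NotP π ε
  e0_mem : ee 0 ∈ M
  Y_mem : ∀ j, (single (ee 0) (y j) : GA C MM) ∈ toPre.R
  Y_dvd : ∀ j ∈ B, ∃ r ∈ toPre.R, ε = r * single (ee 0) (y j)
  dom : ∀ q : toPre.R →ₐ[k] k, (∃ h ∈ hs, NZ q h) → ∃ j, NZ q (single (ee 0) (y j))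
  prop : ∀ V : ValuationSubring F, (∀ c : k, algebraMap k F c ∈ V) →
    ∃ n : ℕ, 0 < n ∧ ∃ τ : Multiplicative MM →* V.ValueGroup,
      (∀ (μ : MM) (c : S), (single μ (c : C) : GA C MM) ∈ toPre.R →
        V.valuation (π c) ^ n * τ (Multiplicative.ofAdd μ) ≤ 1) ∧
      ∃ c : S, (single θ (c : C) : GA C MM) ∈ hs ∧
        V.valuation (π c) ^ n * τ (Multiplicative.ofAdd θ) = 1
  coord : ∀ q : toPre.R →ₐ[k] k, (∃ h ∈ hs, NZ q h) →
    Nonempty (Coord (toPre.loc q) ε (fresh C ρ) (Fin d))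

variable {S : Subalgebra k C} {π : S →ₐ[k] F} {N : ℕ} {y : Fin (N + 1) → C}
  {B : Set (Fin (N + 1))} {d : ℕ}

/-- the points of a model -/
def Mod.IsPt (X : Mod π y B d) (q : X.R →ₐ[k] k) : Prop := ∃ h ∈ X.hs, NZ q h

/-- the homogeneous coordinates of the image of `q` in projective space -/
def Mod.vals (X : Mod π y B d) (q : X.R →ₐ[k] k) : Fin (N + 1) → k :=
  fun j => q ⟨_, X.Y_mem j⟩

/-- the input of a blow-up -/
structure BlowIn (X : Mod π y B d) (𝒢 : Finset (GA C MM × ℕ)) : Prop where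
  mem : ∀ p ∈ 𝒢, p.1 ∈ X.R ∧ IsH p.1 ∧ 0 < p.2
  ne : ∃ p ∈ 𝒢, NotP π p.1
  loc : ∀ q, X.IsPt q → (∃ p ∈ 𝒢, NZ q p.1) ∨
    ∃ (c : Coord (X.loc q) X.ε (fresh C X.ρ) (Fin d)) (W : Fin d → ℕ),
      Shaped (X.loc q) X.ρ 𝒢 c.x W

/-- `X'` is the blow-up of `X` along `𝒢` -/
structure IsBlow (X X' : Mod π y B d) (𝒢 : Finset (GA C MM × ℕ)) : Prop where
  ρ : X'.ρ = X.ρ + 1
  M : X'.M = X.M ⊔ AddSubgroup.zmultiples (ee X.ρ)
  gens : (X'.gens : Set (GA C MM)) = (X.gens : Set (GA C MM)) ∪ newGens X.ρ 𝒢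
  ε : X'.ε = X.ε * chi (ee X.ρ)
  pt : ∀ q', X'.IsPt q' → ∃ q, X.IsPt q ∧ LiesOver q q' ∧
    ∃ p ∈ 𝒢, NZ q' (p.1 * chi (-ee X.ρ) ^ p.2)

/-- the extra structure of phase 0: the ideal `I` is generically the ideal of the variety -/
structure Emb (X : Mod π y B d) (I : Finset (GA C MM)) : Prop where
  I_mem : ∀ f ∈ I, f ∈ X.R ∧ InP π f
  gen : ∀ f ∈ X.R, InP π f → ∃ b ∈ X.R, NotP π b ∧
    b * f ∈ Submodule.span X.R (I : Set (GA C MM))
  chi_mem : ∀ n, n < X.ρ → (chi (ee n) : GA C MM) ∈ X.R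
  full : ∀ μ : MM, (∀ n, X.ρ ≤ n → μ n = 0) → μ ∈ X.M

/-- the point lies on the strict transform of the variety -/
def OnP (X : Mod π y B d) (q : X.R →ₐ[k] k) : Prop := ∀ f, InP π f → ¬ NZ q f

/-- the strict transform is the coordinate subspace `x_i = 0 (i ∈ A)` at each of its points -/
def Stop (X : Mod π y B d) (A : Set (Fin d)) : Prop :=
  ∀ q, X.IsPt q → OnP X q → ∃ c : Coord (X.loc q) X.ε (fresh C X.ρ) (Fin d),
    Submodule.span (X.loc q).O (c.x '' A) =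
      Submodule.span (X.loc q).O {f | f ∈ X.R ∧ InP π f}

/-- the stabiliser of `q` is trivial -/
def FreeAt (X : Mod π y B d) (q : X.R →ₐ[k] k) : Prop :=
  ∀ μ ∈ X.M, ∃ e ∈ (X.loc q).O, e ∉ (X.loc q).m ∧ Hom μ e

/-- all stabilisers are trivial -/
def Free (X : Mod π y B d) : Prop := ∀ q, X.IsPt q → FreeAt X q

/-- the model is equivariant -/
structure Eqv (s : kˣ →* (C ≃ₐ[k] C)) (X : Mod π y B d) : Prop where
  gens : ∀ u ∈ X.gens, EV s u
  hs : ∀ h ∈ X.hs, EV s h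
  ε : EV s X.ε

/-- nothing has happened over the points `v ∈ Gd` of projective space; `Ol v` is the local ring
of the variety at `v` -/
def Iso (Gd : Set (Fin (N + 1) → k)) (Ol : (Fin (N + 1) → k) → Subalgebra k F)
    (X : Mod π y B d) : Prop :=
  ∀ q, X.IsPt q → X.vals q ∈ Gd → FreeAt X q ∧
    ∀ c : S, (single 0 (c : C) : GA C MM) ∈ (X.loc q).O → π c ∈ Ol (X.vals q)

/-- at `q` the variety is smooth, transversal to the boundary and cut out by `I` -/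
def GoodAt (X : Mod π y B d) (I : Finset (GA C MM)) (q : X.R →ₐ[k] k) : Prop :=
  OnP X q ∧ ∃ J : Ctr C MM d, (∀ i, J.t i = false) ∧ (∀ i, J.w i = 0 ∨ J.w i = 1) ∧
    Cert (X.loc q) X.ε (I : Set (GA C MM)) (fresh C X.ρ) J ∧
    Comp (X.loc q) X.ε (I : Set (GA C MM)) J ∧
    ∀ i, 0 < J.w i → J.z i ∈ Submodule.span (X.loc q).O {f | f ∈ X.R ∧ InP π f}

/-- all points over `Gd` are good -/
def Gud (Gd : Set (Fin (N + 1) → k)) (X : Mod π y B d) (I : Finset (GA C MM)) : Prop :=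
  ∀ q, X.IsPt q → X.vals q ∈ Gd → GoodAt X I q

/-- the reduction is equivariant -/
def EqRed (s : kˣ →* (C ≃ₐ[k] C)) (s' : kˣ →* (F ≃ₐ[k] F)) (π : S →ₐ[k] F) : Prop :=
  ∀ (a : kˣ) (c : S), ∃ h : s a c ∈ S, π ⟨_, h⟩ = s' a (π c)

end Models

section Output

variable {k F : Type} [Field k] [Field F] [Algebra k F]

/-- the local ring of the model `y` at the point with homogeneous coordinates `v` -/
def olv {N : ℕ} (y : Fin (N + 1) → F) (v : Fin (N + 1) → k) : Subalgebra k F :=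
  ⨅ (i : Fin (N + 1)) (ψ : chart k y i →ₐ[k] k)
    (_ : v i ≠ 0 ∧ ∀ j, ψ ⟨_, div_mem_chart y i j⟩ = v j / v i), Out.lo (chart k y i) ψ

/-- `O` is regular and the hyperplanes number `j ∈ B` are units or distinct coordinate
hyperplanes; `y i` generates `O(1)` -/
def Snc {N : ℕ} (y : Fin (N + 1) → F) (B : Set (Fin (N + 1))) (i : Fin (N + 1))
    (O : Subalgebra k F) : Prop :=
  ∃ (n : ℕ) (t : Fin n → F) (σ : Fin (N + 1) → Option (Fin n)), Out.Coords O t ∧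
    (∀ j ∈ B, ∀ j' ∈ B, ∀ l, σ j = some l → σ j' = some l → j = j') ∧
    ∀ j ∈ B, Out.Un O (y j / y i / (σ j).elim 1 t)

/-- the good points of the model `y` -/
def gdv {N : ℕ} (y : Fin (N + 1) → F) (B : Set (Fin (N + 1))) : Set (Fin (N + 1) → k) :=
  {v | ∃ (i : Fin (N + 1)) (ψ : chart k y i →ₐ[k] k), v i ≠ 0 ∧
    (∀ j, ψ ⟨_, div_mem_chart y i j⟩ = v j / v i) ∧ Snc y B i (Out.lo (chart k y i) ψ)}

/-- the data at one closed point (local ring `O`) of a strong resolution of `y` -/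
structure PlusAt {N n : ℕ} (y : Fin (N + 1) → F) (B : Set (Fin (N + 1))) (O : Subalgebra k F)
    (t : Fin n → F) (i₀ : Fin (N + 1)) : Prop where
  coords : Out.Coords O t
  dom : ∀ j, y j / y i₀ ∈ O
  mono : ∀ j ∈ B, ∃ β : Fin n → ℕ, Out.Un O (y j / y i₀ / ∏ l, t l ^ β l)
  iso : ∀ (i : Fin (N + 1)) (ψ : chart k y i →ₐ[k] k), Snc y B i (Out.lo (chart k y i) ψ) →
    (∀ a : chart k y i, (a : F) ∈ O ∧ (ψ a = 0 → ¬ Out.Un O (a : F))) → O = Out.lo (chart k y i) ψ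

end Output

section Statements

variable (k : Type) [Field k]

/-- **Strong equivariant log resolution.** -/
def PlusStmt : Prop :=
  ∀ (F : Type) [Field F] [Algebra k F] (N : ℕ) (y : Fin (N + 1) → F) (B : Set (Fin (N + 1)))
    (s : kˣ →* (F ≃ₐ[k] F)), (∀ i, y i ≠ 0) → Out.IsFr (chart k y 0) →
    (∀ j, ∃ a, Wt s a (y j)) →
    ∃ (P : PModel k F) (n : ℕ), (∀ j, ∃ a, Wt s a (P.y j)) ∧
      ∀ (i : Fin (P.N + 1)) (φ : P.A i →ₐ[k] k), ∃ (t : Fin n → F) (i₀ : Fin (N + 1)),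
        PlusAt y B (Out.lo (P.A i) φ) t i₀

/-- the global blow-up -/
def BlowStmt : Prop :=
  ∀ (C F : Type) [Field C] [Algebra k C] [Field F] [Algebra k F] (S : Subalgebra k C)
    (π : S →ₐ[k] F) (N : ℕ) (y : Fin (N + 1) → C) (B : Set (Fin (N + 1))) (d : ℕ)
    (X : Mod π y B d) (𝒢 : Finset (GA C MM × ℕ)) (s : kˣ →* (C ≃ₐ[k] C)),
    Red S π y → BlowIn X 𝒢 → Eqv s X → (∀ p ∈ 𝒢, EV s p.1) →
    ∃ X' : Mod π y B d, IsBlow X X' 𝒢 ∧ Eqv s X'

/-- phase 0: the first model -/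
def StartStmt : Prop :=
  ∀ (F : Type) [Field F] [Algebra k F] (N : ℕ) (y : Fin (N + 1) → F) (B : Set (Fin (N + 1)))
    (s' : kˣ →* (F ≃ₐ[k] F)), (∀ i, y i ≠ 0) → Out.IsFr (chart k y 0) →
    (∀ j, ∃ a, Wt s' a (y j)) →
    ∃ (C : Type) (_ : Field C) (_ : Algebra k C) (S : Subalgebra k C) (π : S →ₐ[k] F)
      (Y : Fin (N + 1) → C) (hr : Red S π Y) (X : Mod π Y B N) (I : Finset (GA C MM))
      (s : kˣ →* (C ≃ₐ[k] C)),
      Emb X I ∧ (∀ j, π ⟨Y j, hr.le (Algebra.subset_adjoin ⟨j, rfl⟩)⟩ = y j / y 0) ∧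
      EqRed s s' π ∧ Eqv s X ∧ (∀ f ∈ I, EV s f) ∧ Iso (gdv y B) (olv y) X ∧ Gud (gdv y B) X I

/-- phase 0: the loop -/
def LoopStmt : Prop :=
  ∀ (C F : Type) [Field C] [Algebra k C] [Field F] [Algebra k F] (S : Subalgebra k C)
    (π : S →ₐ[k] F) (N : ℕ) (y : Fin (N + 1) → C) (B : Set (Fin (N + 1))) (d : ℕ)
    (X : Mod π y B d) (I : Finset (GA C MM)) (s : kˣ →* (C ≃ₐ[k] C))
    (Gd : Set (Fin (N + 1) → k)) (Ol : (Fin (N + 1) → k) → Subalgebra k F),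
    Red S π y → Emb X I → Eqv s X → (∀ f ∈ I, EV s f) → Iso Gd Ol X → Gud Gd X I →
    ∃ (X' : Mod π y B d) (I' : Finset (GA C MM)) (A : Set (Fin d)),
      Emb X' I' ∧ Stop X' A ∧ Eqv s X' ∧ Iso Gd Ol X'

/-- phase 0: passing to the strict transform -/
def EmbGlobStmt : Prop :=
  ∀ (C F : Type) [Field C] [Algebra k C] [Field F] [Algebra k F] (S : Subalgebra k C)
    (π : S →ₐ[k] F) (N : ℕ) (y : Fin (N + 1) → C) (B : Set (Fin (N + 1))) (d : ℕ)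
    (X : Mod π y B d) (I : Finset (GA C MM)) (A : Set (Fin d)) (hr : Red S π y)
    (s : kˣ →* (C ≃ₐ[k] C)) (s' : kˣ →* (F ≃ₐ[k] F))
    (Gd : Set (Fin (N + 1) → k)) (Ol : (Fin (N + 1) → k) → Subalgebra k F),
    Emb X I → Stop X A → EqRed s s' π → Eqv s X → Iso Gd Ol X →
    ∃ (d' : ℕ) (X' : Mod (⊤ : Subalgebra k F).val
      (fun j => π ⟨y j, hr.le (Algebra.subset_adjoin ⟨j, rfl⟩)⟩) B d'), Eqv s' X' ∧ Iso Gd Ol X'

/-- phase 2: killing the stabilisers -/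
def DestackStmt : Prop :=
  ∀ (F : Type) [Field F] [Algebra k F] (N : ℕ) (y : Fin (N + 1) → F) (B : Set (Fin (N + 1)))
    (d : ℕ) (X : Mod (⊤ : Subalgebra k F).val y B d) (s : kˣ →* (F ≃ₐ[k] F))
    (Gd : Set (Fin (N + 1) → k)) (Ol : (Fin (N + 1) → k) → Subalgebra k F),
    Red ⊤ (⊤ : Subalgebra k F).val y → Eqv s X → Iso Gd Ol X →
    ∃ X' : Mod (⊤ : Subalgebra k F).val y B d, Free X' ∧ Eqv s X' ∧ Iso Gd Ol X'

/-- phase 3: the projective model -/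
def FinalStmt : Prop :=
  ∀ (F : Type) [Field F] [Algebra k F] (N : ℕ) (y : Fin (N + 1) → F) (B : Set (Fin (N + 1)))
    (d : ℕ) (X : Mod (⊤ : Subalgebra k F).val (fun j => y j / y 0) B d)
    (s : kˣ →* (F ≃ₐ[k] F)), (∀ i, y i ≠ 0) → Out.IsFr (chart k y 0) → Free X → Eqv s X →
    Iso (gdv y B) (olv y) X →
    ∃ (P : PModel k F), (∀ j, ∃ a, Wt s a (P.y j)) ∧
      ∀ (i : Fin (P.N + 1)) (φ : P.A i →ₐ[k] k), ∃ (t : Fin d → F) (i₀ : Fin (N + 1)),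
        PlusAt y B (Out.lo (P.A i) φ) t i₀

/-- assembly -/
theorem plus_of (h0 : StartStmt k) (h1 : LoopStmt k) (h2 : EmbGlobStmt k) (h3 : DestackStmt k)
    (h4 : FinalStmt k) : PlusStmt k := by
  intro F _ _ N y B s' hy hF hw
  obtain ⟨C, _, _, S, π, Y, hr, X, I, s, hE, hY, hs, hX, hI, hO, hG⟩ := h0 F N y B s' hy hF hw
  obtain ⟨X', I', A, hE', hS, hX', hO'⟩ := h1 C F S π N Y B N X I s _ _ hr hE hX hI hO hG
  have h := h2 C F S π N Y B N X' I' A hr s s' _ _ hE' hS hs hX' hO'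
  rw [funext hY] at h
  obtain ⟨d', X2, hX2, hO2⟩ := h
  have hr2 : Red ⊤ (⊤ : Subalgebra k F).val (fun j => y j / y 0) := by
    refine ⟨div_self (hy 0), le_top, fun f => ⟨⟨f, trivial⟩, rfl⟩, fun _ _ => trivial, ?_⟩
    intro c
    obtain ⟨a, ha, b, hb, hb0, hc⟩ := hF c
    refine ⟨⟨b, trivial⟩, hb, hb0, ?_⟩
    change b * (c : F) ∈ _
    rw [hc, mul_div_cancel₀ _ hb0]
    exact ha
  obtain ⟨X3, hF3, hX3, hO3⟩ := h3 F N _ B d' X2 s' _ _ hr2 hX2 hO2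
  obtain ⟨P, hP⟩ := h4 F N y B d' X3 s' hy hF hF3 hX3 hO3
  exact ⟨P, d', hP⟩

end Statements

end Crest.Agent.X262.Res
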