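import Crest.Agent.X262.Res.Blow
import Crest.Agent.X277.Res.DestGl

/-!
# Row 262, squad RES+: destackification (helper64; port of `X277/Res/DestMod`, `DestGl`)
-/

set_option autoImplicit false

noncomputable section

namespace Crest.Agent.X262.Res.Dest

open Crest.Agent.X277.Res hiding chi_mul_neg hom_chi
open AddMonoidAlgebra Gr
open Crest.Agent.X277.Res.Dest hiding exists_hs_ne exists_tight idx_ne_zero verPre_R lift_pt
  exists_verModel_aux exists_verModel blowIn s_notMem coord_ver Mu_unit Mu_ver step Bad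
  exists_free destackStmt

variable {k C F : Type} [Field k] [Field C] [Algebra k C] [Field F] [Algebra k F]
variable {S : Subalgebra k C} {π : S →ₐ[k] F} {N : ℕ} {y : Fin (N + 1) → C}
  {B : Set (Fin (N + 1))} {d : ℕ} {s : kˣ →* (C ≃ₐ[k] C)} {Gd : Set (Fin (N + 1) → k)}
  {Ol : (Fin (N + 1) → k) → Subalgebra k F}

theorem exists_hs_ne (X : Mod π y B d) : ∃ h ∈ X.hs, h ≠ 0 := by
  obtain ⟨n, hn, τ, -, c, hc, h1⟩ := X.prop ⊤ fun _ => trivial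
  refine ⟨_, hc, single_ne_zero.2 fun h0 => ?_⟩
  rw [show c = 0 from Subtype.ext h0, map_zero, map_zero, zero_pow hn.ne', zero_mul] at h1
  exact zero_ne_one h1

theorem exists_tight (hr : Red S π y) (X : Mod π y B d) (hX : Eqv s X) (hO : Iso Gd Ol X) :
    ∃ X' : Mod π y B d, Tight X'.toPre ∧ Eqv s X' ∧ Iso Gd Ol X' := by
  let M0 : AddSubgroup MM := AddSubgroup.closure {μ | ∃ f ∈ X.R, Hom μ f ∧ f ≠ 0}
  have hle : M0 ≤ X.M := (AddSubgroup.closure_le _).2 fun μ ⟨f, hf, hh, h0⟩ =>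
    X.deg_mem μ f hf hh h0
  have hM0 : ∀ μ, ∀ f ∈ X.R, Hom μ f → f ≠ 0 → μ ∈ M0 := fun μ f hf hh h0 =>
    AddSubgroup.subset_closure ⟨f, hf, hh, h0⟩
  let P : Pre k C y :=
    { ρ := X.ρ, M := M0, gens := X.gens
      M_supp := fun μ hμ => X.M_supp μ (hle hμ)
      gens_hom := fun u hu => by
        by_cases h0 : u = 0
        · exact ⟨0, zero_mem _, 0, zero_mem _, by rw [h0, single_zero]⟩
        · obtain ⟨μ, -, c, hc, h⟩ := X.gens_hom u hu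
          exact ⟨μ, hM0 μ u (X.gens_mem hu) ⟨c, h⟩ h0, c, hc, h⟩ }
  obtain ⟨h, hh, hh0⟩ := exists_hs_ne X
  refine ⟨{ toPre := P, θ := X.θ, hs := X.hs, ε := X.ε
            θ_mem := hM0 _ h (X.hs_mem h hh).1 (X.hs_mem h hh).2 hh0
            hs_mem := X.hs_mem
            St := fun h hh μ hμ => X.St h hh μ (hle hμ)
            ε_mem := X.ε_mem
            ε_notP := X.ε_notP
            e0_mem := hM0 _ _ (X.Y_mem 0) ⟨_, rfl⟩ (single_ne_zero.2 (hr.y0 ▸ one_ne_zero))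
            Y_mem := X.Y_mem
            Y_dvd := X.Y_dvd
            dom := X.dom
            prop := X.prop
            coord := fun q hq => ⟨shrinkCoord X.good P.good hle (X.coord q hq).some⟩ }, ?_,
    ⟨hX.gens, hX.hs, hX.ε⟩, fun q hq hv =>
      ⟨fun μ hμ => (hO q hq hv).1 μ (hle hμ), (hO q hq hv).2⟩⟩
  exact fun Γ hΓ => (AddSubgroup.closure_le _).2 fun μ ⟨f, hf, hh, h0⟩ => hΓ μ f hf hh h0

theorem idx_ne_zero {X : Mod π y B d} (h : Tight X.toPre) {q : X.R →ₐ[k] k} (hq : X.IsPt q) :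
    (Mu (X.loc q)).relIndex X.M ≠ 0 := by
  obtain ⟨c⟩ := X.coord q hq
  refine relIndex_Mu_ne_zero (L := X.loc q) h.fg fun μ hμ => ?_
  obtain ⟨n, hn, e, he, hm, hh, -⟩ := c.U μ hμ
  exact ⟨n, hn, e, he, hm, hh⟩

section Ver

variable {X : Mod π y B d} {Γ : Finset (GA C MM)} {p : ℕ} {Λ : AddSubgroup MM} {σ : MM}
  (h : Ver X.R X.M (Γ : Set (GA C MM)) p Λ σ)

theorem verPre_R : (verPre X.toPre Γ p Λ σ h).R = ver k Γ p σ := by
  classical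
  unfold Pre.R ver verPre
  rw [Finset.coe_insert]

include h in
theorem lift_pt [IsAlgClosed k] {R : Subalgebra k (GA C MM)} (hR : R = ver k Γ p σ)
    (hg : Good R Λ) (hle : R ≤ X.R) (q' : R →ₐ[k] k) :
    ∃ q, res hle q = q' ∧ locOf hg q' = locOf h.good (res h.ver_le q) := by
  subst hR
  obtain ⟨q, rfl⟩ := h.exists_res q'
  exact ⟨q, rfl, rfl⟩

theorem exists_verModel_aux [IsAlgClosed k] (he : ee 0 ∈ Λ)
    (hc : ∀ q : X.R →ₐ[k] k, X.IsPt q → Nonempty (Coord (locOf h.good (res h.ver_le q))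
      (X.ε ^ p) (fresh C X.ρ) (Fin d))) (P : Pre k C y) (hρ : P.ρ = X.ρ) (hM : P.M = Λ)
      (hR : P.R = ver k Γ p σ) (hX : Eqv s X) (hP : ∀ u ∈ P.gens, EV s u) :
    ∃ X' : Mod π y B d, X'.M = Λ ∧ X'.R = ver k Γ p σ ∧ Eqv s X' ∧
      ∀ q' : X'.R →ₐ[k] k, X'.IsPt q' → ∃ q, X.IsPt q ∧ X'.vals q' = X.vals q ∧
        X'.loc q' = locOf h.good (res h.ver_le q) := by
  classical
  subst hM
  have hin : ∀ {f : GA C MM}, f ∈ ver k Γ p σ → f ∈ P.R := fun hf => by rw [hR]; exact hf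
  have hle : P.R ≤ X.R := by rw [hR]; exact h.ver_le
  have hpow : ∀ {f : GA C MM}, IsH f → f ∈ X.R → f ^ p ∈ P.R := fun hh hf =>
    hin (h.pow_mem_ver hh hf)
  have hlift : ∀ q' : P.R →ₐ[k] k, (∃ g ∈ X.hs.image (· ^ p), NZ q' g) →
      ∃ q, X.IsPt q ∧ res hle q = q' ∧ P.loc q' = locOf h.good (res h.ver_le q) := by
    rintro q' ⟨_, hg0, hg', hq⟩
    obtain ⟨g, hg, rfl⟩ := Finset.mem_image.1 hg0
    obtain ⟨q, h1, h2⟩ := lift_pt h hR P.good hle q'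
    refine ⟨q, ⟨g, hg, (X.hs_mem g hg).1, fun h0 => hq ?_⟩, h1, h2⟩
    rw [← h1, res_apply, show (⟨g ^ p, _⟩ : X.R) = ⟨g, (X.hs_mem g hg).1⟩ ^ p from rfl, map_pow,
      h0, zero_pow h.pos.ne']
  have hY : ∀ j, (single (ee 0) (y j) : GA C MM) ∈ P.R := fun j =>
    hin (h.mem_of_hom ⟨_, rfl⟩ (X.Y_mem j) he)
  have hval : ∀ (q : X.R →ₐ[k] k) (q' : P.R →ₐ[k] k), res hle q = q' →
      ∀ j, q' ⟨_, hY j⟩ = q ⟨_, X.Y_mem j⟩ := by
    rintro q _ rfl j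
    exact res_apply hle q _
  obtain ⟨ν, c0, hc0, hc0'⟩ := X.ε_notP
  have hν : p • ν ∈ P.M := h.pM _ (X.deg_mem ν _ X.ε_mem ⟨_, hc0⟩ (notP_hom X.ε_notP).2)
  have f1 : ∀ g ∈ X.hs.image (· ^ p), g ∈ P.R ∧ Hom (p • X.θ) g := by
    intro g0 hg0
    obtain ⟨g, hg, rfl⟩ := Finset.mem_image.1 hg0
    exact ⟨hpow ⟨_, (X.hs_mem g hg).2⟩ (X.hs_mem g hg).1, HomD.pow (X.hs_mem g hg).2 p⟩
  have f2 : ∀ g ∈ X.hs.image (· ^ p), ∀ μ ∈ P.M, ∃ n : ℕ, 0 < n ∧ ∃ (c c' : ℕ), ∃ w ∈ P.R,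
      ∃ w' ∈ P.R, Hom (n • μ + c • p • X.θ) w ∧ IsH w' ∧ w * w' = g ^ c' := by
    intro g0 hg0 μ hμ
    obtain ⟨g, hg, rfl⟩ := Finset.mem_image.1 hg0
    obtain ⟨n, hn, c, c', w, hw, w', hw', h1, h2, h3⟩ := X.St g hg μ (h.le hμ)
    refine ⟨p * n, Nat.mul_pos h.pos hn, c, c', w ^ p, hpow ⟨_, h1⟩ hw, w' ^ p, hpow h2 hw',
      hom_congr (HomD.pow h1 p) (by module), IsHom.pow h2 p, ?_⟩
    rw [← mul_pow, h3, ← pow_mul, ← pow_mul, mul_comm]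
  have f3 : NotP π (X.ε ^ p) := ⟨p • ν, c0 ^ p, by rw [hc0, single_pow]; rfl, by
    rw [map_pow]; exact pow_ne_zero _ hc0'⟩
  have f4 : ∀ j ∈ B, ∃ r ∈ P.R, X.ε ^ p = r * single (ee 0) (y j) := by
    intro j hj
    obtain ⟨r, hr, h1⟩ := X.Y_dvd j hj
    refine ⟨cp (p • ν - ee 0) (X.ε ^ (p - 1) * r), hin (h.mem_of_hom (homD_cp _ _)
      (X.graded _ (mul_mem (pow_mem X.ε_mem _) hr) _) (P.M.sub_mem hν he)), ?_⟩
    rw [← HomD.cp_mul_right (homD_single (ee 0) (y j)), mul_assoc, ← h1, ← pow_succ,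
      Nat.sub_add_cancel h.pos, HomD.cp_self (HomD.pow ⟨_, hc0⟩ p)]
  have f5 : ∀ q : P.R →ₐ[k] k, (∃ g ∈ X.hs.image (· ^ p), NZ q g) →
      ∃ j, NZ q (single (ee 0) (y j)) := by
    intro q' hq'
    obtain ⟨q, hq, rfl, -⟩ := hlift q' hq'
    obtain ⟨j, _, hj⟩ := X.dom q hq
    exact ⟨j, hY j, hj⟩
  have f7 : ∀ V : ValuationSubring F, (∀ c : k, algebraMap k F c ∈ V) →
      ∃ n : ℕ, 0 < n ∧ ∃ τ : Multiplicative MM →* V.ValueGroup,
        (∀ (μ : MM) (c : S), (single μ (c : C) : GA C MM) ∈ P.R →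
          V.valuation (π c) ^ n * τ (Multiplicative.ofAdd μ) ≤ 1) ∧
        ∃ c : S, (single (p • X.θ) (c : C) : GA C MM) ∈ X.hs.image (· ^ p) ∧
          V.valuation (π c) ^ n * τ (Multiplicative.ofAdd (p • X.θ)) = 1 := by
    intro V hV
    obtain ⟨n, hn, τ, h1, c, hc, h2⟩ := X.prop V hV
    refine ⟨n, hn, τ, fun μ c hc => h1 μ c (hle hc), c ^ p,
      Finset.mem_image.2 ⟨_, hc, by rw [single_pow]; rfl⟩, ?_⟩
    rw [map_pow, map_pow, ofAdd_nsmul, map_pow, ← pow_mul, mul_comm p, pow_mul, ← mul_pow, h2,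
      one_pow]
  have f8 : ∀ q : P.R →ₐ[k] k, (∃ g ∈ X.hs.image (· ^ p), NZ q g) →
      Nonempty (Coord (P.loc q) (X.ε ^ p) (fresh C P.ρ) (Fin d)) := by
    intro q' hq'
    obtain ⟨q, hq, -, h1⟩ := hlift q' hq'
    rw [h1, hρ]
    exact hc q hq
  refine ⟨⟨P, p • X.θ, X.hs.image (· ^ p), X.ε ^ p, h.pM _ X.θ_mem, f1, f2,
    hpow ⟨_, _, hc0⟩ X.ε_mem, f3, he, hY, f4, f5, f7, f8⟩, rfl, hR,
    ⟨hP, fun g hg => ?_, hX.ε.pow p⟩, fun q' hq' => ?_⟩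
  · obtain ⟨g, hg', rfl⟩ := Finset.mem_image.1 hg
    exact (hX.hs g hg').pow p
  · obtain ⟨q, hq, h0, h1⟩ := hlift q' hq'
    exact ⟨q, hq, funext fun j => hval q q' h0 j, h1⟩

/-- the Veronese model; `hc` provides the coordinates -/
theorem exists_verModel [IsAlgClosed k] (he : ee 0 ∈ Λ)
    (hc : ∀ q : X.R →ₐ[k] k, X.IsPt q → Nonempty (Coord (locOf h.good (res h.ver_le q))
      (X.ε ^ p) (fresh C X.ρ) (Fin d))) (hX : Eqv s X) (hΓ : ∀ u ∈ Γ, EV s u) :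
    ∃ X' : Mod π y B d, X'.M = Λ ∧ X'.R = ver k Γ p σ ∧ Eqv s X' ∧
      ∀ q' : X'.R →ₐ[k] k, X'.IsPt q' → ∃ q, X.IsPt q ∧ X'.vals q' = X.vals q ∧
        X'.loc q' = locOf h.good (res h.ver_le q) := by
  classical
  refine exists_verModel_aux h he hc (verPre X.toPre Γ p Λ σ h) rfl rfl (verPre_R h) hX ?_
  intro u hu
  rcases Finset.mem_insert.1 hu with rfl | hu
  · exact (ev_chi _).pow p
  · exact hΓ u hu

end Ver

section Step

variable {X X' : Mod π y B d} {p : ℕ} [NeZero p] {a : X.M →+ ZMod p}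

theorem blowIn [CharZero k] (hπ : ∀ f : GA C MM, IsH f → f ≠ 0 → NotP π f) (hT : Tight X.toPre)
    (hp : 1 < p) (ha : Function.Surjective a) : BlowIn X (cen X.toPre a) where
  mem := cen_mem
  ne := by
    obtain ⟨z, hz⟩ := exists_cen hT hp ha
    exact ⟨z, hz, hπ _ (cen_mem z hz).2.1 (mem_cen.1 hz).2.1⟩
  loc := fun q hq => by
    by_cases h : ∃ z ∈ cen X.toPre a, NZ q z.1
    · exact Or.inl h
    · obtain ⟨c⟩ := X.coord q hq
      exact Or.inr ⟨c, _, shaped taylorStmt (fix_of h) c⟩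

omit [NeZero p] in
theorem s_notMem {q : X.R →ₐ[k] k} {q' : X'.R →ₐ[k] k}
    (h : Over (X.loc q) (X'.loc q') {chi (ee X.ρ), chi (-ee X.ρ)}) :
    (chi (ee X.ρ) : GA C MM) ∉ (X'.loc q').m := fun h1 => (X'.loc q').one_notMem (by
  rw [← chi_mul_neg (ee X.ρ), mul_comm]
  exact mul_mem_m _ (h.S_mem _ (Or.inr rfl)) h1)

/-- coordinates on the Veronese model -/
theorem coord_ver [CharZero k] (hB : IsBlow X X' (cen X.toPre a)) (q' : X'.R →ₐ[k] k)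
    (hq' : X'.IsPt q') :
    Nonempty (Coord (locOf (ver_of hB.M hB.gens).good (res (ver_of hB.M hB.gens).ver_le q'))
      (X'.ε ^ p) (fresh C X'.ρ) (Fin d)) := by
  obtain ⟨q, hq, hl, hz⟩ := hB.pt q' hq'
  obtain ⟨hF, hU, hE⟩ := BO.blowOverStmt k C N y X.toPre X'.toPre _ q q' hB.M hB.gens cen_mem hl
  obtain ⟨c⟩ := X.coord q hq
  have hr := (ver_of hB.M hB.gens).rootL q'
  rw [hB.ε, hB.ρ]
  by_cases h : ∃ z ∈ cen X.toPre a, NZ q z.1
  · obtain ⟨c', -, hD⟩ := BL.unitLoc _ _ _ _ _ _ c _ _ hF (hU h)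
    exact root2 c' hr (s_notMem (hU h)) fun i => by rw [hD]; exact c.kills i _ hF.mem
  · obtain ⟨hO, h1⟩ := hE _ c.x _ (x_mem_m c) (fun i => ⟨_, c.hom i⟩)
      (shaped taylorStmt (fix_of h) c)
    obtain ⟨hs, i0, hi0, hx⟩ := h1 hz
    obtain ⟨c', h2, h3⟩ := BL.blowLoc _ _ _ _ _ _ c _ _ _ i0 hF hO hs hi0 hx
    refine root1 c' hr i0 h2 fun j hj => ?_
    obtain ⟨n, hn⟩ := h3 j hj
    rw [hn]
    exact AddSubgroup.nsmul_mem _ (sub_mem_Lam (xi_mem c j)) n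

omit [NeZero p] in
/-- the stabiliser lattice of the blow-up away from the exceptional divisor -/
theorem Mu_unit (hB : IsBlow X X' (cen X.toPre a)) {q : X.R →ₐ[k] k} {q' : X'.R →ₐ[k] k}
    (hl : LiesOver q q') (h : Over (X.loc q) (X'.loc q') {chi (ee X.ρ), chi (-ee X.ρ)}) :
    Mu (X'.loc q') = Mu (X.loc q) ⊔ AddSubgroup.zmultiples (ee X.ρ) := by
  have hs := s_notMem h
  have hsR := s_mem_R hB.gens
  refine le_antisymm ?_ (sup_le (Mu_le_of_over h) ?_)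
  · have key : ∀ μ, ∀ u ∈ X.R, Hom μ u → NZ q' u → μ ∈ Mu (X.loc q) := by
      rintro μ u hu hh ⟨_, h1⟩
      obtain ⟨_, h2⟩ := hl u hu
      exact mem_Mu_of X.good (f := ⟨u, hu⟩) hh (h2 ▸ h1)
    refine Mu_le_of_gens X'.good (S := (X'.gens : Set (GA C MM))) rfl
      (fun u hu => X'.isH_gens hu) fun μ f hf hh hq => ?_
    have h0 := ne_zero_of_q hq
    rw [hB.gens] at hf
    rcases hf with hf | hf | ⟨z, hz, hf⟩
    · exact AddSubgroup.mem_sup_left (key μ f (X.gens_mem hf) hh ⟨f.2, hq⟩)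
    · rw [HomD.unique hh (hf ▸ hom_chi _) h0]
      exact AddSubgroup.mem_sup_right (AddSubgroup.mem_zmultiples _)
    · obtain ⟨h1, -, -, -⟩ := cen_deg hz
      replace hf : z.1 * chi (-ee X.ρ) ^ z.2 = (f : GA C MM) := hf
      rw [HomD.unique hh (hf ▸ hom_mul_chi h1 (ee X.ρ) z.2) h0, sub_eq_add_neg]
      refine AddSubgroup.add_mem_sup (key _ _ (cen_mem z hz).1 h1 ?_) (AddSubgroup.neg_mem _
        (AddSubgroup.nsmul_mem _ (AddSubgroup.mem_zmultiples _) _))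
      have h2 := nz_mul (q := q') ⟨f.2, hq⟩
        (nz_pow ((X'.notMem_loc_m hsR ⟨_, hom_chi _⟩).1 hs) z.2)
      rwa [← hf, mul_assoc, mul_comm (chi (-ee X.ρ) ^ _), chi_pow_mul_neg, mul_one] at h2
  · rw [AddSubgroup.zmultiples_le]
    exact ⟨_, le_loc q' hsR, hs, hom_chi _⟩

/-- the stabiliser lattices of the Veronese model -/
theorem Mu_ver (hp : 1 < p) (ha : Function.Surjective a) (hT : Tight X.toPre)
    (hB : IsBlow X X' (cen X.toPre a)) (q' : X'.R →ₐ[k] k) (hq' : X'.IsPt q')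
    {L : Loc k C MM} (hr : RootL (X'.loc q') L p (Lam X.toPre a) (ee X.ρ)) :
    ∃ q, X.IsPt q ∧ ((Mu L).relIndex (Lam X.toPre a) < (Mu (X.loc q)).relIndex X.M ∨
      (¬ Fix X.toPre a q ∧ Mu L = sh X.toPre a (Mu (X.loc q)))) := by
  obtain ⟨q, hq, hl, z, hz, hnz⟩ := hB.pt q' hq'
  refine ⟨q, hq, ?_⟩
  rw [hr.Mu_eq]
  by_cases h : ∃ z ∈ cen X.toPre a, NZ q z.1
  · obtain ⟨-, hU, -⟩ := BO.blowOverStmt k C N y X.toPre X'.toPre _ q q' hB.M hB.gens cen_mem hl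
    refine Or.inr ⟨fun hf => ?_, by rw [Mu_unit hB hl (hU h)]; rfl⟩
    obtain ⟨z, hz, hm, hq⟩ := h
    obtain ⟨h1, -, h2, -⟩ := cen_deg hz
    exact h2 (hf _ (mem_Mu_of X.good (f := ⟨_, hm⟩) h1 hq))
  · have hf := fix_of h
    obtain ⟨h1, h2, h3, h4⟩ := cen_deg hz
    refine Or.inl (relIndex_drop X.M (-ee X.ρ) a hp ha (idx_ne_zero hT hq)
      (fun μ hμ => (psi_of_mem μ.2).symm.trans (hf μ hμ))
      (le_inf (Mu_le_of_over (BO.over_newGens hB.gens hl))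
        fun μ hμ => mem_Lam_of (Mu_le _ hμ) (hf μ hμ))
      ⟨_, h2⟩ (fun h0 => h3 ((psi_of_mem h2).trans h0))
      (AddSubgroup.mem_inf.2 ⟨?_, up_mem _ _ _ h2⟩)).2
    rw [up_eq h2, ← h4]
    obtain ⟨hm, hq'⟩ := hnz
    exact mem_Mu_of X'.good (f := ⟨_, hm⟩) (hom_mul_chi h1 _ _) hq'

end Step

/-- one step of the destackification -/
theorem step [IsAlgClosed k] [CharZero k] (hπ : ∀ f : GA C MM, IsH f → f ≠ 0 → NotP π f)
    (hr : Red S π y) {X : Mod π y B d} (hT : Tight X.toPre) {q0 : X.R →ₐ[k] k} (hq0 : X.IsPt q0)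
    (h1 : (Mu (X.loc q0)).relIndex X.M ≠ 1) (hX : Eqv s X) (hO : Iso Gd Ol X) :
    ∃ (X'' : Mod π y B d) (f : AddSubgroup MM → AddSubgroup MM), Tight X''.toPre ∧
      Eqv s X'' ∧ Iso Gd Ol X'' ∧
      ∀ q'', X''.IsPt q'' → ∃ q, X.IsPt q ∧
        ((Mu (X''.loc q'')).relIndex X''.M < (Mu (X.loc q)).relIndex X.M ∨
          (Mu (X.loc q) ≠ Mu (X.loc q0) ∧ Mu (X''.loc q'') = f (Mu (X.loc q)) ∧
            (Mu (X''.loc q'')).relIndex X''.M ≤ (Mu (X.loc q)).relIndex X.M)) := by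
  obtain ⟨p, hp, a, ha, hk⟩ := exists_char X.M _ (idx_ne_zero hT hq0) h1
  have : NeZero p := ⟨by omega⟩
  have hfix : Fix X.toPre a q0 := fun μ hμ =>
    (psi_of_mem (Mu_le _ hμ)).trans (hk ⟨μ, Mu_le _ hμ⟩ hμ)
  obtain ⟨X', hB, hX'⟩ := BG.blow X _ hr (blowIn hπ hT hp ha) hX
    fun z hz => hX.gens _ (mem_cen.1 hz).1
  have hO' : Iso Gd Ol X' := hO.blow hB cen_mem fun q hq hv => by
    by_contra hne
    have : Fact (1 < p) := ⟨hp⟩
    obtain ⟨ν, hν⟩ := ha 1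
    have h2 := fix_of hne ν ((hO q hq hv).1 ν ν.2)
    rw [psi_of_mem ν.2] at h2
    exact one_ne_zero (hν.symm.trans h2)
  have hV := ver_of hB.M hB.gens
  have he : ee 0 ∈ Lam X.toPre a := by
    obtain ⟨j, hm, hj⟩ := X.dom q0 hq0
    exact mem_Lam_of X.e0_mem (hfix _ (mem_Mu_of X.good (f := ⟨_, hm⟩) ⟨_, rfl⟩ hj))
  obtain ⟨X'', hM, hR, hX'', hpt⟩ := exists_verModel hV he (coord_ver hB) hX' fun g hg => by
    obtain ⟨u, hu, rfl⟩ := mem_Gam.1 hg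
    exact (hX.gens u hu).mul ((ev_chi _).pow _)
  refine ⟨X'', sh X.toPre a, tight_of hT hB.M hB.gens hM hR, hX'', fun q'' hq'' hv => ?_,
    fun q'' hq'' => ?_⟩
  · obtain ⟨q', hq', h2, h3⟩ := hpt q'' hq''
    rw [h2] at hv ⊢
    obtain ⟨h4, h5⟩ := hO' q' hq' hv
    have h6 := hV.rootL q'
    rw [← h3] at h6
    refine ⟨fun μ hμ => ?_, fun c hc => h5 c ((h6.O_iff _).1 hc).1⟩
    rw [hM] at hμ
    obtain ⟨e, he, hm, hh⟩ := h4 μ (hV.le hμ)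
    exact ⟨e, h6.mem_O he hh hμ, h6.notMem_m hm, hh⟩
  obtain ⟨q', hq', -, h2⟩ := hpt q'' hq''
  obtain ⟨q, hq, h3⟩ := Mu_ver hp ha hT hB q' hq' (hV.rootL q')
  rw [← h2] at h3
  rw [hM]
  refine ⟨q, hq, h3.imp_right fun h4 => ⟨fun h5 => h4.1 fun μ hμ => hfix μ (h5 ▸ hμ), h4.2, ?_⟩⟩
  rw [h4.2]
  exact relIndex_sh (idx_ne_zero hT hq)

/-- the stabiliser lattices of index `n` -/
def Bad (X : Mod π y B d) (n : ℕ) : Set (AddSubgroup MM) :=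
  {Γ | ∃ q, X.IsPt q ∧ Mu (X.loc q) = Γ ∧ Γ.relIndex X.M = n}

theorem Bad.finite (X : Mod π y B d) (n : ℕ) : (Bad X n).Finite :=
  (finite_Mu X.good).subset fun _ ⟨q, _, h, _⟩ => ⟨q, h⟩

theorem exists_free [IsAlgClosed k] [CharZero k]
    (hπ : ∀ f : GA C MM, IsH f → f ≠ 0 → NotP π f) (hr : Red S π y) (n : ℕ) :
    ∀ X : Mod π y B d, Tight X.toPre → Eqv s X → Iso Gd Ol X →
      (∀ q, X.IsPt q → (Mu (X.loc q)).relIndex X.M ≤ n + 1) →
      ∃ X' : Mod π y B d, Free X' ∧ Eqv s X' ∧ Iso Gd Ol X' := by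
  induction n with
  | zero =>
    intro X hT hX hO h
    refine ⟨X, fun q hq μ hμ => ?_, hX, hO⟩
    have h1 := h q hq
    have h2 := idx_ne_zero hT hq
    exact AddSubgroup.relIndex_eq_one.1 (by omega : (Mu (X.loc q)).relIndex X.M = 1) hμ
  | succ n ih =>
    have key : ∀ m : ℕ, ∀ X : Mod π y B d, (Bad X (n + 2)).ncard = m → Tight X.toPre →
        Eqv s X → Iso Gd Ol X → (∀ q, X.IsPt q → (Mu (X.loc q)).relIndex X.M ≤ n + 2) →
        ∃ X' : Mod π y B d, Free X' ∧ Eqv s X' ∧ Iso Gd Ol X' := by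
      intro m
      induction m using Nat.strong_induction_on with
      | _ m ihm =>
      intro X hm hT hX hO h
      by_cases h0 : ∃ q, X.IsPt q ∧ (Mu (X.loc q)).relIndex X.M = n + 2
      swap
      · refine ih X hT hX hO fun q hq => ?_
        have h1 := h q hq
        have h2 : (Mu (X.loc q)).relIndex X.M ≠ n + 2 := fun h3 => h0 ⟨q, hq, h3⟩
        omega
      obtain ⟨q0, hq0, h1⟩ := h0
      obtain ⟨X'', f, hT'', hX'', hO'', hpt⟩ := step hπ hr hT hq0 (by omega) hX hO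
      refine ihm _ ?_ X'' rfl hT'' hX'' hO'' fun q'' hq'' => ?_
      · have h2 : Bad X'' (n + 2) ⊆ f '' (Bad X (n + 2) \ {Mu (X.loc q0)}) := by
          rintro _ ⟨q'', hq'', rfl, h3⟩
          obtain ⟨q, hq, h4⟩ := hpt q'' hq''
          have h5 := h q hq
          rcases h4 with h4 | ⟨h4, h6, h7⟩
          · omega
          · exact ⟨_, ⟨⟨q, hq, rfl, by omega⟩, h4⟩, h6.symm⟩
        have h3 := (Bad.finite X (n + 2)).sdiff (t := {Mu (X.loc q0)})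
        refine ((Set.ncard_le_ncard h2 (h3.image f)).trans (Set.ncard_image_le h3)).trans_lt ?_
        rw [← hm]
        exact Set.ncard_sdiff_singleton_lt_of_mem ⟨q0, hq0, rfl, h1⟩ (Bad.finite X _)
      · obtain ⟨q, hq, h4⟩ := hpt q'' hq''
        have h5 := h q hq
        rcases h4 with h4 | ⟨-, -, h4⟩ <;> omega
    exact fun X => key _ X rfl

theorem destackStmt (k : Type) [Field k] [IsAlgClosed k] [CharZero k] : DestackStmt k := by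
  intro F _ _ N y B d X s Gd Ol hr hX hO
  obtain ⟨X, hT, hX, hO⟩ := exists_tight hr X hX hO
  obtain ⟨n, hn⟩ := ((finite_Mu X.good).image fun Γ => Γ.relIndex X.M).bddAbove
  refine exists_free ?_ hr n X hT hX hO fun q _ =>
    (hn ⟨_, ⟨q, rfl⟩, rfl⟩).trans (Nat.le_succ n)
  rintro _ ⟨μ, c, rfl⟩ h0
  exact ⟨μ, ⟨c, trivial⟩, rfl, single_ne_zero.1 h0⟩

end Crest.Agent.X262.Res.Dest
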