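import Crest.Agent.X262.Res.Defs
import Crest.Agent.X277.Res.EmbGlob

/-!
# Row 262, squad RES+: passing to the strict transform (`EmbGlobStmt`, helper65)

Port of the last theorem of `X277/Res/EmbGlob`; equivariance and the `Iso` clause are new.
-/

set_option autoImplicit false
set_option linter.unusedSectionVars false

noncomputable section

namespace Crest.Agent.X262.Res

open AddMonoidAlgebra Crest.Agent.X277.Res Crest.Agent.X277.Res.Gr Crest.Agent.X277.Res.L1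
  Crest.Agent.X277.Res.Emb

section Aux

variable {k C F : Type} [Field k] [Field C] [Field F] [Algebra k C] [Algebra k F]
  {S : Subalgebra k C} {π : S →ₐ[k] F} {s : kˣ →* (C ≃ₐ[k] C)} {s' : kˣ →* (F ≃ₐ[k] F)}

/-- the reduction of a weight vector is a weight vector -/
theorem EqRed.wt (h : EqRed s s' π) {n : ℤ} {c : C} (hc : c ∈ S) (hw : Wt s n c) :
    Wt s' n (pf π c) := by
  intro a
  obtain ⟨ha, e⟩ := h a ⟨c, hc⟩
  rw [pf_of_mem π hc, ← e, ← map_smul]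
  exact congrArg π (Subtype.ext (hw a))

theorem EqRed.ev (h : EqRed s s' π) {f : GA C MM} (hf : f ∈ SA MM S) (hw : EV s f) :
    EV s' (Pf π f) := by
  obtain ⟨μ, c, n, rfl, hw⟩ := hw
  exact ⟨μ, pf π c, n, Pf_single π μ c, h.wt (single_mem_SA.1 hf) hw⟩

end Aux

theorem embGlobStmt (k : Type) [Field k] : EmbGlobStmt k := by
  intro C F _ _ _ _ S π N y B d X I A hr s s' Gd Ol hE hS hs hX hO
  classical
  have hRle := R_le hr X.toPre
  refine ⟨Fintype.card {i // i ∉ A}, {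
    toPre := preb hr X.toPre
    θ := X.θ
    hs := X.hs.image (Pf π)
    ε := Pf π X.ε
    θ_mem := X.θ_mem
    hs_mem := fun h hh => ?_
    St := fun h hh μ hμ => ?_
    ε_mem := Pf_mem hr _ X.ε_mem
    ε_notP := ?_
    e0_mem := X.e0_mem
    Y_mem := fun j => ?_
    Y_dvd := fun j hj => ?_
    dom := fun q' hq' => ?_
    prop := fun V hV => ?_
    coord := fun q' hq' => ?_ }, ⟨fun u hu => ?_, fun u hu => ?_, ?_⟩, fun q' hq' hG => ?_⟩
  · obtain ⟨h, hh', rfl⟩ := Finset.mem_image.1 hh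
    exact ⟨Pf_mem hr _ (X.hs_mem h hh').1, homD_Pf π (X.hs_mem h hh').2⟩
  · obtain ⟨h, hh', rfl⟩ := Finset.mem_image.1 hh
    obtain ⟨n, hn, c, c', w, hw, w', hw', h1, h2, h3⟩ := X.St h hh' μ hμ
    refine ⟨n, hn, c, c', Pf π w, Pf_mem hr _ hw, Pf π w', Pf_mem hr _ hw', homD_Pf π h1,
      isHom_Pf π h2, ?_⟩
    rw [← Pf_mul π (hRle hw) (hRle hw'), h3, Pf_pow π (hRle (X.hs_mem h hh').1)]
  · obtain ⟨μ, c, h, hc⟩ := X.ε_notP
    exact ⟨μ, ⟨π c, trivial⟩, by rw [h, Pf_single, pf_coe], hc⟩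
  · have := Pf_mem hr _ (X.Y_mem j)
    rwa [Pf_single, pf_y hr] at this
  · obtain ⟨r, hr', h⟩ := X.Y_dvd j hj
    refine ⟨Pf π r, Pf_mem hr _ hr', ?_⟩
    rw [h, Pf_mul π (hRle hr') (hRle (X.Y_mem j)), Pf_single, pf_y hr]
  · obtain ⟨h, hh, hq⟩ := hq'
    obtain ⟨h, hh', rfl⟩ := Finset.mem_image.1 hh
    obtain ⟨j, hj⟩ := X.dom (und hr X.toPre q') ⟨h, hh', (nz_und hr (X.hs_mem h hh').1).2 hq⟩
    have := (nz_und hr (X.Y_mem j)).1 hj
    rw [Pf_single, pf_y hr] at this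
    exact ⟨j, this⟩
  · obtain ⟨n, hn, τ, h1, c, hc, h2⟩ := X.prop V hV
    refine ⟨n, hn, τ, fun μ a ha => ?_, ⟨π c, trivial⟩, ?_, h2⟩
    · obtain ⟨f, hf, ⟨e, rfl⟩, he⟩ := exists_Pf_hom hr X.toPre ha (homD_single _ _)
      have heS := single_mem_SA.1 (hRle hf)
      rw [Pf_single, single_right_inj, pf_of_mem π heS] at he
      have := h1 μ ⟨e, heS⟩ hf
      rwa [he] at this
    · refine Finset.mem_image.2 ⟨_, hc, ?_⟩
      rw [Pf_single, pf_coe]
  · obtain ⟨h, hh, hq⟩ := hq'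
    obtain ⟨h, hh', rfl⟩ := Finset.mem_image.1 hh
    obtain ⟨c, hc⟩ := hS (und hr X.toPre q') ⟨h, hh', (nz_und hr (X.hs_mem h hh').1).2 hq⟩ (by
      rintro f ⟨μ, e, rfl, he⟩ ⟨hf, hq⟩
      refine Pf_ne_zero hr (b := ⟨_, hf⟩) hq ?_
      change Pf π (single μ (e : C)) = 0
      rw [Pf_single, pf_coe, he, single_zero])
    refine Nonempty.elim (embed_core (X.loc (und hr X.toPre q')) ((preb hr X.toPre).loc q') X.ε
      (fresh C X.ρ) (fresh F X.ρ) (Fin d) c A (SA MM S) (PiH π) (loc_le hr) (hRle X.ε_mem)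
      (PiH_surjective π hr.surj) graded_SA (fun μ f hf => homD_Pf π hf)
      (fun b hb h => exists_inv_SA hr hb b.2 h) (fun f hf hH => ?_)
      (fun f hf => by rw [hc]; exact Pf_eq_zero_iff_span hr hf)
      (fun g => ⟨fun hg => ?_, fun ⟨f, hf, e⟩ => e ▸ Pf_mem_loc hr hf⟩)
      (fun g => ⟨fun hg => ?_, fun ⟨f, hf, e⟩ =>
        e ▸ (Pf_mem_m_iff hr ((X.loc _).m_le f hf)).2 hf⟩)
      (fun μ hμ => hμ) (fun t ht => ?_) ?_)
      fun c' => ⟨c'.reindex (Fintype.equivFin _).symm⟩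
    · obtain ⟨μ, e, rfl⟩ := hH
      obtain ⟨b, hb, hb0, hbe⟩ := hr.frac ⟨e, single_mem_SA.1 hf⟩
      obtain ⟨n₁, h1⟩ := exists_single_mem hr X.Y_mem hb
      obtain ⟨n₂, h2⟩ := exists_single_mem hr X.Y_mem hbe
      obtain ⟨ν, ν', τ, hν, hν', hτ, hμ⟩ := exists_chi hE.chi_mem μ
      have h3 := mul_mem (h1 _ (le_max_left n₁ n₂)) hν
      have h4 := mul_mem (h2 _ (le_max_right n₁ n₂)) hν'
      unfold chi at h3 h4
      rw [single_mul_single, mul_one] at h3 h4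
      refine ⟨⟨_, hRle h3⟩, ⟨chi τ, single_one_mem_SA τ⟩, le_loc _ h3, isHom_single _ _, ?_,
        fun δ hδ => hδ _ ⟨τ, hτ, rfl⟩, isHom_single _ _, ?_, _, le_loc _ h4, ?_⟩
      · rw [PiH_apply, Pf_single, pf_coe]
        exact single_ne_zero.2 hb0
      · rw [PiH_apply, Pf_chi]
        exact single_ne_zero.2 one_ne_zero
      · change single _ _ * single _ _ = single _ _ * single _ _
        rw [single_mul_single, single_mul_single, mul_one, add_assoc, add_assoc, hμ]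
    · obtain ⟨f, hf, e⟩ := exists_Pf_loc hr hg
      exact ⟨f, hf, e⟩
    · obtain ⟨f, hf, e⟩ := exists_Pf_loc hr (((preb hr X.toPre).loc q').m_le g hg)
      exact ⟨f, (Pf_mem_m_iff hr hf).1 (e ▸ hg), e⟩
    · obtain ⟨μ, hμ, rfl⟩ := ht
      exact ⟨⟨chi μ, single_one_mem_SA μ⟩, ⟨μ, hμ, rfl⟩, Pf_chi π μ⟩
    · obtain ⟨μ, e, h, he⟩ := X.ε_notP
      rw [PiH_apply]
      change Pf π X.ε ≠ 0
      rw [h, Pf_single, pf_coe]
      exact single_ne_zero.2 he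
  · obtain ⟨v, hv, rfl⟩ := Finset.mem_image.1 hu
    exact hs.ev (hRle (X.gens_mem hv)) (hX.gens v hv)
  · obtain ⟨v, hv, rfl⟩ := Finset.mem_image.1 hu
    exact hs.ev (hRle (X.hs_mem v hv).1) (hX.hs v hv)
  · exact hs.ev (hRle X.ε_mem) hX.ε
  · obtain ⟨h, hh, hq⟩ := hq'
    obtain ⟨h, hh', rfl⟩ := Finset.mem_image.1 hh
    have hv : X.vals (und hr X.toPre q') = fun j => q' ⟨single (ee 0) (yb hr j), by
        have := Pf_mem hr _ (X.Y_mem j)
        rwa [Pf_single, pf_y hr] at this⟩ := by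
      funext j
      exact congrArg q' (Subtype.ext ((Pf_single π _ _).trans (congrArg _ (pf_y hr j))))
    obtain ⟨h1, h2⟩ := hO (und hr X.toPre q') ⟨h, hh', (nz_und hr (X.hs_mem h hh').1).2 hq⟩
      (by rw [hv]; exact hG)
    refine ⟨fun μ hμ => ?_, fun c hc => ?_⟩
    · obtain ⟨e, he, hem, heμ⟩ := h1 μ hμ
      exact ⟨Pf π e, Pf_mem_loc hr he, fun h => hem ((Pf_mem_m_iff hr he).1 h), homD_Pf π heμ⟩
    · obtain ⟨f, hf, e⟩ := exists_Pf_loc hr hc
      have hf0 : cp 0 f ∈ Gr.loc X.R (und hr X.toPre q') := graded_loc X.graded _ f hf 0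
      have hS0 : f.coeff 0 ∈ S := mem_SA.1 (loc_le hr hf) 0
      have h3 := h2 ⟨_, hS0⟩ hf0
      rw [hv, ← pf_of_mem π hS0, ← coeff_Pf, e, coeff_single, Finsupp.single_eq_same] at h3
      exact h3

end Crest.Agent.X262.Res
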