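import Crest.Agent.X262.Res.Wt
import Crest.Agent.X277.Res.FinOut

/-!
# Row 262, squad RES+: the projective model (`FinalStmt`, helper65)

Port of `X277/Res/FinGlob` and `X277/Res/Final`: the coordinates of the projective model are weight
vectors, the boundary hyperplanes are monomials, nothing happens over the good points.
-/

set_option autoImplicit false
set_option linter.unusedSectionVars false

noncomputable section

namespace Crest.Agent.X262.Res

open AddMonoidAlgebra Crest.Agent.X277.Res Crest.Agent.X277.Res.Gr Crest.Agent.X277.Res.Out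
  Crest.Agent.X277.Lef

namespace Fn

/-- divisors of a product of primes (helper37's lemma) -/
theorem exists_of_dvd_prod {R : Type*} [CommRing R] [IsDomain R] {ι : Type*} [DecidableEq ι]
    (p : ι → R) (hp : ∀ l, Prime (p l)) (b : ι → ℕ) (s : Finset ι) :
    ∀ f : R, f ∣ ∏ l ∈ s, p l ^ b l →
      ∃ c : ι → ℕ, ∃ u, IsUnit u ∧ f = u * ∏ l ∈ s, p l ^ c l := by
  induction s using Finset.induction_on with
  | empty =>
    intro f hf
    rw [Finset.prod_empty] at hf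
    exact ⟨fun _ => 0, f, isUnit_of_dvd_one hf, by simp⟩
  | insert a s ha ih =>
    rintro f ⟨g, hg⟩
    rw [Finset.prod_insert ha, mul_comm] at hg
    obtain ⟨i, j, b', c', -, hbc, hf, -⟩ := mul_eq_mul_prime_pow (hp a) hg.symm
    obtain ⟨c, u, hu, hb'⟩ := ih b' ⟨c', hbc⟩
    refine ⟨Function.update c a i, u, hu, ?_⟩
    rw [Finset.prod_insert ha, Function.update_self, hf, hb']
    have h1 : ∏ l ∈ s, p l ^ Function.update c a i l = ∏ l ∈ s, p l ^ c l :=
      Finset.prod_congr rfl fun l hl => by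
        rw [Function.update_of_ne fun h : l = a => ha (h ▸ hl)]
    rw [h1]
    ring

variable {k F : Type} [Field k] [Field F] [Algebra k F]

/-- a divisor of a monomial in the coordinates is a monomial -/
theorem mono_of_dvd [CharZero k] {O : Subalgebra k F} [IsLocalRing O] [IsNoetherianRing O] {n : ℕ}
    {t : Fin n → F} (h : Coords O t) {a : F} (ha : a ∈ O) (ha0 : a ≠ 0) (b : Fin n → ℕ)
    (hd : (∏ l, t l ^ b l) / a ∈ O) : ∃ β : Fin n → ℕ, Un O (a / ∏ l, t l ^ β l) := by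
  have hc : ∀ b : Fin n → ℕ, ((∏ l, h.el l ^ b l : O) : F) = ∏ l, t l ^ b l := fun b => by
    rw [SubmonoidClass.coe_finsetProd]
    rfl
  obtain ⟨β, u, hu, e⟩ := exists_of_dvd_prod h.el h.prime b Finset.univ ⟨a, ha⟩
    ⟨⟨_, hd⟩, Subtype.ext (by
      rw [hc, MulMemClass.coe_mul]
      exact (mul_div_cancel₀ _ ha0).symm)⟩
  refine ⟨β, ?_⟩
  have e' : a = u * ∏ l, t l ^ β l := by
    rw [← hc]
    exact congrArg Subtype.val e
  rw [e', mul_div_cancel_right₀ _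
    (Finset.prod_ne_zero_iff.2 fun l _ => pow_ne_zero _ (h.ne_zero l))]
  exact (un_iff_isUnit u).2 hu

section Dickson

variable {G : Type} [AddCommGroup G] {s : kˣ →* (F ≃ₐ[k] F)}

/-- the coefficients are spanned by weight vectors -/
theorem coeff_mem_span {S : Set (GA F G)} (hS : ∀ u ∈ S, EV s u) {f : GA F G}
    (hf : f ∈ Algebra.adjoin k S) (μ : G) : f.coeff μ ∈ Submodule.span k
      {c : F | (single μ c : GA F G) ∈ Algebra.adjoin k S ∧ ∃ n, Wt s n c} := by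
  classical
  have h1 : f ∈ Submodule.span k (Submonoid.closure S : Set (GA F G)) := by
    rw [← Algebra.adjoin_eq_span]; exact hf
  clear hf
  induction h1 using Submodule.span_induction with
  | mem a ha =>
    have h2 : a ∈ Algebra.adjoin k S ∧ EV s a := by
      induction ha using Submonoid.closure_induction with
      | mem x hx => exact ⟨Algebra.subset_adjoin hx, hS x hx⟩
      | one => exact ⟨one_mem _, ev_one⟩
      | mul x y _ _ hx hy => exact ⟨mul_mem hx.1 hy.1, hx.2.mul hy.2⟩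
    obtain ⟨h2, ν, c, n, rfl, hc⟩ := h2
    rw [coeff_single, Finsupp.single_apply]
    split_ifs with h
    · exact Submodule.subset_span ⟨h ▸ h2, n, hc⟩
    · exact zero_mem _
  | zero => exact zero_mem _
  | add a b _ _ ha hb => rw [coeff_add, Finsupp.add_apply]; exact add_mem ha hb
  | smul c a _ ha => rw [coeff_smul, Finsupp.smul_apply]; exact Submodule.smul_mem _ c ha

/-- Dickson–Gordan with weight vectors -/
theorem dickson (S : Finset (GA F G)) (hS : ∀ u ∈ S, EV s u) (θ : G) : ∃ T : Finset (ℕ × F),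
    (∀ p ∈ T, (single (p.1 • θ) p.2 : GA F G) ∈ Algebra.adjoin k (S : Set (GA F G)) ∧ p.2 ≠ 0 ∧
      ∃ n, Wt s n p.2) ∧
    ∀ hb : F, hb ≠ 0 → ∀ (e : ℕ) (f : F),
      (single (e • θ) f : GA F G) ∈ Algebra.adjoin k (S : Set (GA F G)) →
      f / hb ^ e ∈ Algebra.adjoin k {x | ∃ p ∈ T, x = p.2 / hb ^ p.1} := by
  classical
  obtain ⟨s₀, hs, hs'⟩ := dicksonStmt (Algebra.adjoin k (S : Set (GA F G))) ⟨S, rfl⟩
    (graded_adjoin fun u hu => (hS u hu).isH) θ
  have h1 : ∀ p : ℕ × F, ∃ T : Finset F, p ∈ s₀ → (T : Set F) ⊆ {c : F |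
      (single (p.1 • θ) c : GA F G) ∈ Algebra.adjoin k (S : Set (GA F G)) ∧ ∃ n, Wt s n c} ∧
      p.2 ∈ Submodule.span k (T : Set F) := by
    intro p
    by_cases hp : p ∈ s₀
    · have h2 := coeff_mem_span hS (hs p hp).1 (p.1 • θ)
      rw [coeff_single_self] at h2
      obtain ⟨T, hT⟩ := Submodule.mem_span_finite_of_mem_span h2
      exact ⟨T, fun _ => hT⟩
    · exact ⟨∅, fun h => absurd h hp⟩
  choose T hT using h1
  refine ⟨s₀.biUnion fun p => ((T p).filter (· ≠ 0)).image fun c => (p.1, c), fun p hp => ?_,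
    fun hb h0 e f hf => ?_⟩
  · simp only [Finset.mem_biUnion, Finset.mem_image, Finset.mem_filter] at hp
    obtain ⟨p, hp, c, ⟨hc, hc0⟩, rfl⟩ := hp
    exact ⟨((hT p hp).1 hc).1, hc0, ((hT p hp).1 hc).2⟩
  · refine Algebra.adjoin_le ?_ (hs' hb h0 e f hf)
    rintro _ ⟨p, hp, rfl⟩
    have h2 := (hT p hp).2
    generalize p.2 = x at h2
    induction h2 using Submodule.span_induction with
    | mem c hc =>
      by_cases hc0 : c = 0
      · rw [hc0, zero_div]; exact zero_mem _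
      · exact Algebra.subset_adjoin ⟨(p.1, c), Finset.mem_biUnion.2 ⟨p, hp,
          Finset.mem_image_of_mem _ (Finset.mem_filter.2 ⟨hc, hc0⟩)⟩, rfl⟩
    | zero => rw [zero_div]; exact zero_mem _
    | add a b _ _ ha hb => rw [add_div]; exact add_mem ha hb
    | smul c a _ ha => rw [smul_div_assoc]; exact Subalgebra.smul_mem _ ha c

end Dickson

variable {N d : ℕ} {y : Fin (N + 1) → F} {B : Set (Fin (N + 1))}
  (X : Mod (⊤ : Subalgebra k F).val (fun j => y j / y 0) B d)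

/-- coordinates at a point with trivial stabiliser -/
theorem finPt (q : X.R →ₐ[k] k) (hq : X.IsPt q) (hX : FreeAt X q) :
    Nonempty (FinPt X.R q ⟨X.ε, X.ε_mem⟩ d) := by
  obtain ⟨c⟩ := X.coord q hq
  refine finPt_of_coord X.good q ⟨X.ε, X.ε_mem⟩ c fun μ hμ => ?_
  obtain ⟨e, he, he', hh⟩ := hX μ hμ
  exact ⟨⟨e, he⟩, hh, fun h0 => he' ((mem_locOf_m_iff_ev X.good (f := ⟨e, he⟩) ⟨μ, hh⟩).2 h0)⟩

/-- the quotients of the coordinates at a point -/
theorem dom (hy : ∀ j, y j ≠ 0) (q : X.R →ₐ[k] k) {i : Fin (N + 1)} (hi : X.vals q i ≠ 0)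
    (j : Fin (N + 1)) : ∃ h : y j / y i ∈ O0 X.R q,
      ev0 X.R q ⟨_, h⟩ = X.vals q j / X.vals q i := by
  have hYne : (single (ee 0) (y i / y 0) : GA F MM) ≠ 0 :=
    single_ne_zero.2 (div_ne_zero (hy i) (hy 0))
  obtain ⟨v, -, hv⟩ := exists_inv_of_ev (a := incl X.R q ⟨_, X.Y_mem i⟩) (isHom_single _ _)
    (by rwa [ev_incl])
  have hv' : (v : GA F MM) * single (ee 0) (y i / y 0) = 1 := congrArg Subtype.val hv
  have h1 := single_div (c := ((incl X.R q ⟨_, X.Y_mem j⟩ * v : loc X.R q) : GA F MM))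
    (homD_single (ee 0) (y j / y 0)) (homD_single (ee 0) (y i / y 0)) hYne (by
      rw [MulMemClass.coe_mul, mul_assoc, hv', mul_one]; rfl)
  rw [coeff_single_self, coeff_single_self, div_div_div_cancel_right₀ (hy 0)] at h1
  have h2 : y j / y i ∈ O0 X.R q := by
    rw [mem_O0, h1]
    exact Subtype.prop _
  refine ⟨h2, ?_⟩
  have h3 : inc0 X.R q ⟨_, h2⟩ = incl X.R q ⟨_, X.Y_mem j⟩ * v := Subtype.ext h1
  have h4 := congrArg (ev X.R q) hv
  rw [map_mul, ev_incl, map_one] at h4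
  rw [ev0_apply, h3, map_mul, ev_incl, eq_inv_of_mul_eq_one_left h4]
  exact (div_eq_mul_inv _ _).symm

/-- the local analysis at a point -/
theorem plusAt [CharZero k] (hy : ∀ j, y j ≠ 0) (hX : Free X) (hO : Iso (gdv y B) (olv y) X)
    (q : X.R →ₐ[k] k) (hq : X.IsPt q) [IsLocalRing (O0 X.R q)] [IsNoetherianRing (O0 X.R q)] :
    ∃ (t : Fin d → F) (i₀ : Fin (N + 1)), PlusAt y B (O0 X.R q) t i₀ := by
  obtain ⟨P⟩ := finPt X q hq (hX q hq)
  set t : Fin d → F := fun l =>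
    (P.x l : GA F MM).coeff (P.μ l) / (P.w l : GA F MM).coeff (P.μ l) with ht
  have hcoord : Coords (O0 X.R q) t :=
    coords_O0 X.graded P.x P.w P.μ P.hx P.hw P.hw0 P.span P.d P.hd P.dual
  have hwu : ∀ l, IsUnit (P.w l) := fun l => isUnit_of_ev (P.hw l).isHom (P.hw0 l)
  have hwne : ∀ l, (P.w l : GA F MM) ≠ 0 := fun l h =>
    P.hw0 l (by rw [show P.w l = 0 from Subtype.ext h, map_zero])
  have hxt : ∀ l, P.x l = inc0 X.R q ⟨t l, hcoord.mem l⟩ * P.w l := fun l => by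
    apply Subtype.ext
    rw [MulMemClass.coe_mul, coe_inc0]
    conv_rhs => rw [homD_eq (P.hw l), single_mul_single, zero_add]
    simp only [ht]
    rw [div_mul_cancel₀ _ (coeff_ne_zero (P.hw l) (hwne l))]
    exact homD_eq (P.hx l)
  set τ : O0 X.R q := ∏ l, (⟨t l, hcoord.mem l⟩ : O0 X.R q) ^ P.β l with hτ
  have hτ' : (τ : F) = ∏ l, t l ^ P.β l := by
    rw [hτ, SubmonoidClass.coe_finsetProd]
    rfl
  obtain ⟨U, hUe⟩ : ∃ U : loc X.R q, inc0 X.R q τ = U * incl X.R q ⟨X.ε, X.ε_mem⟩ := by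
    have h1 : IsUnit (P.u * ∏ l, P.w l ^ P.β l) :=
      P.hu.mul (IsUnit.prod_iff.2 fun l _ => (hwu l).pow _)
    refine ⟨↑h1.unit⁻¹, ?_⟩
    rw [Units.eq_inv_mul_iff_mul_eq, IsUnit.unit_spec, P.heps, hτ, map_prod, mul_assoc,
      ← Finset.prod_mul_distrib]
    congr 1
    refine Finset.prod_congr rfl fun l _ => ?_
    rw [map_pow, ← mul_pow, mul_comm, ← hxt]
  have hUe' : (single 0 (τ : F) : GA F MM) = U * X.ε := congrArg Subtype.val hUe
  obtain ⟨i₀, _, hi₀⟩ := X.dom q hq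
  have hi₀ : X.vals q i₀ ≠ 0 := hi₀
  have hdom := dom X hy q hi₀
  refine ⟨t, i₀, hcoord, fun j => (hdom j).1, fun j hj => ?_, fun i ψ hS hD => ?_⟩
  · refine mono_of_dvd hcoord (hdom j).1 (div_ne_zero (hy j) (hy i₀)) P.β ?_
    obtain ⟨r, hr, hr'⟩ := X.Y_dvd j hj
    have h1 : HomD (ee 0) (single 0 (τ : F) * single (ee 0) (y i₀ / y 0) : GA F MM) := by
      rw [single_mul_single, zero_add]; exact homD_single _ _
    have h2 := div_mem_O0 (q := q) h1 (homD_single (ee 0) (y j / y 0))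
      (single_ne_zero.2 (div_ne_zero (hy j) (hy 0)))
      (U * incl X.R q (⟨r, hr⟩ * ⟨_, X.Y_mem i₀⟩)) (by
        rw [hUe', hr']
        simp only [MulMemClass.coe_mul, coe_incl]
        ring)
    rw [single_mul_single, zero_add, coeff_single_self, coeff_single_self, mul_div_assoc,
      div_div_div_cancel_right₀ (hy 0)] at h2
    rw [← hτ', div_div_eq_mul_div, mul_div_assoc]
    exact h2
  · have hle : chart k y i ≤ O0 X.R q := fun a ha => (hD ⟨a, ha⟩).1
    have hψ : ∀ a : chart k y i, ψ a = ev0 X.R q ⟨a, hle a.2⟩ := fun a => by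
      have h1 := (hD (a - algebraMap k _ (ψ a))).2 (by simp)
      rw [un_O0_iff (⟨_, hle (a - algebraMap k _ (ψ a)).2⟩ : O0 X.R q), not_not] at h1
      have h2 : (⟨_, hle (a - algebraMap k _ (ψ a)).2⟩ : O0 X.R q) =
          ⟨a, hle a.2⟩ - algebraMap k _ (ψ a) := rfl
      rw [h2, map_sub, AlgHom.commutes, sub_eq_zero] at h1
      exact h1.symm
    have hi : X.vals q i ≠ 0 := by
      obtain ⟨h1, h2⟩ := hdom i
      have h3 : Un (O0 X.R q) (y i / y i₀) :=
        ⟨div_ne_zero (hy i) (hy i₀), h1, by rw [inv_div]; exact hle (div_mem_chart y i i₀)⟩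
      have h4 := (un_O0_iff (⟨_, h1⟩ : O0 X.R q)).1 h3
      rw [h2] at h4
      exact fun h0 => h4 (by rw [h0, zero_div])
    have hv : ∀ j, ψ ⟨_, div_mem_chart y i j⟩ = X.vals q j / X.vals q i := fun j => by
      rw [hψ]
      exact (dom X hy q hi j).2
    refine le_antisymm (fun c hc => ?_) (lo_le_of_un hle fun b hb => ?_)
    · have h1 : c ∈ olv y (X.vals q) := (hO q hq ⟨i, ψ, hi, hv, hS⟩).2 ⟨c, trivial⟩ hc
      simp only [olv, Algebra.mem_iInf] at h1
      exact h1 i ψ ⟨hi, hv⟩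
    · exact (un_O0_iff (⟨(b : F), hle b.2⟩ : O0 X.R q)).2 (hψ b ▸ hb)

/-- semistability in the form used by `lo_B0` -/
theorem st {h : GA F MM} (hh : h ∈ X.hs) (q : X.R →ₐ[k] k) (hq : q ⟨h, (X.hs_mem h hh).1⟩ ≠ 0)
    (b : X.R) (hb : IsHom (b : GA F MM)) (hqb : q b ≠ 0) :
    ∃ (c : X.R) (e : ℕ), HomD (e • X.θ) ((c * b : X.R) : GA F MM) ∧ q c ≠ 0 := by
  obtain ⟨μ, hb⟩ := hb
  obtain ⟨n, hn, e, e', w, hw, w', hw', h1, -, h2⟩ :=
    X.St h hh (-μ) (neg_mem (X.deg_mem μ _ b.2 hb (ne_zero_of_q hqb)))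
  obtain ⟨n, rfl⟩ := Nat.exists_eq_succ_of_ne_zero hn.ne'
  refine ⟨⟨w, hw⟩ * b ^ n, e, ?_, ?_⟩
  · rw [mul_assoc, ← pow_succ]
    have h3 := HomD.mul (show HomD _ w from h1) (hb.pow (n + 1))
    rwa [smul_neg, neg_add_cancel_comm] at h3
  · have h3 : (⟨w, hw⟩ * ⟨w', hw'⟩ : X.R) = ⟨h, (X.hs_mem h hh).1⟩ ^ e' := Subtype.ext h2
    have h4 := congrArg q h3
    rw [map_mul, map_pow] at h4
    rw [map_mul, map_pow]
    exact mul_ne_zero (left_ne_zero_of_mul (h4 ▸ pow_ne_zero _ hq)) (pow_ne_zero _ hqb)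

/-- properness in the form used by `exists_good_chart` -/
theorem prop (V : ValuationSubring F) (hV : ∀ c, algebraMap k F c ∈ V) :
    ∃ c : F, c ≠ 0 ∧ (single X.θ c : GA F MM) ∈ X.hs ∧
      ∀ (e : ℕ) (f : F), (single (e • X.θ) f : GA F MM) ∈ X.R → f / c ^ e ∈ V := by
  obtain ⟨n, hn, τ, h1, c, hc, h2⟩ := X.prop V hV
  have h5 : V.valuation (c : F) ^ n * τ (Multiplicative.ofAdd X.θ) = 1 := h2
  have h3 : V.valuation (c : F) ≠ 0 := by
    intro h0
    rw [h0, zero_pow hn.ne', zero_mul] at h5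
    exact zero_ne_one h5
  refine ⟨c, (Valuation.ne_zero_iff _).1 h3, hc, fun e f hf => ?_⟩
  have h4 : V.valuation f ^ n * τ (Multiplicative.ofAdd (e • X.θ)) ≤ 1 :=
    h1 (e • X.θ) ⟨f, trivial⟩ hf
  rw [ofAdd_nsmul, map_pow, eq_inv_of_mul_eq_one_right h5] at h4
  rw [← V.valuation_le_one_iff, ← pow_le_one_iff hn.ne', map_div₀, map_pow, div_pow,
    div_eq_mul_inv, ← pow_mul, mul_comm e, pow_mul, ← inv_pow]
  exact h4

end Fn

/-- **Phase 3**: the projective model -/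
theorem finalStmt (k : Type) [Field k] [IsAlgClosed k] [CharZero k] : FinalStmt k := by
  intro F _ _ N y B d X s hy hfr hX hE hO
  classical
  obtain ⟨T, hT, hT'⟩ := Fn.dickson X.gens hE.gens X.θ
  have hft : Algebra.FiniteType k X.R := (Subalgebra.fg_iff_finiteType _).1 X.fg
  let H : Finset F := (X.hs.filter (· ≠ 0)).image fun h => h.coeff X.θ
  have hH : ∀ c, c ∈ H ↔ c ≠ 0 ∧ (single X.θ c : GA F MM) ∈ X.hs := by
    intro c
    simp only [H, Finset.mem_image, Finset.mem_filter]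
    constructor
    · rintro ⟨h, ⟨h1, h2⟩, rfl⟩
      have h3 : HomD X.θ h := (X.hs_mem h h1).2
      exact ⟨coeff_ne_zero h3 h2, homD_eq h3 ▸ h1⟩
    · rintro ⟨h1, h2⟩
      exact ⟨_, ⟨h2, fun h => h1 (single_eq_zero.1 h)⟩, coeff_single_self _ _⟩
  have hb0 : ∀ i : H, (i : F) ≠ 0 := fun i => ((hH _).1 i.2).1
  have hbs : ∀ i : H, (single X.θ (i : F) : GA F MM) ∈ X.hs := fun i => ((hH _).1 i.2).2
  have hh : ∀ i : H, (single X.θ (i : F) : GA F MM) ∈ X.R := fun i => (X.hs_mem _ (hbs i)).1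
  have hbw : ∀ i : H, ∃ n, Wt s n (i : F) := fun i => by
    have h1 := (hE.hs _ (hbs i)).coeff X.θ
    rwa [coeff_single_self] at h1
  set m := 1 + ∑ p ∈ T, p.1 with hm
  have hle : ∀ p ∈ T, p.1 ≤ m := fun p hp =>
    (Finset.single_le_sum (f := fun p : ℕ × F => p.1) (fun _ _ => Nat.zero_le _) hp).trans
      (by omega)
  let Y : H × Option T → F := fun a =>
    a.2.elim ((a.1 : F) ^ m) fun p => p.1.2 * (a.1 : F) ^ (m - p.1.1)
  have hY0 : ∀ a, Y a ≠ 0 := by
    rintro ⟨i, _ | p⟩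
    · exact pow_ne_zero _ (hb0 i)
    · exact mul_ne_zero (hT _ p.2).2.1 (pow_ne_zero _ (hb0 i))
  have hYR : ∀ a, (single (m • X.θ) (Y a) : GA F MM) ∈ X.R := by
    rintro ⟨i, _ | p⟩
    · have h1 := pow_mem (hh i) m
      rwa [single_pow] at h1
    · have h1 := mul_mem (show _ ∈ X.R from (hT _ p.2).1) (pow_mem (hh i) (m - p.1.1))
      rwa [single_pow, single_mul_single, ← add_smul, Nat.add_sub_cancel' (hle _ p.2)] at h1
  have hYw : ∀ a, ∃ n, Wt s n (Y a) := by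
    rintro ⟨i, _ | p⟩
    · obtain ⟨n, hn⟩ := hbw i
      exact ⟨_, hn.pow m⟩
    · obtain ⟨n, hn⟩ := hbw i
      obtain ⟨n', hn'⟩ := (hT _ p.2).2.2
      exact ⟨_, hn'.mul (hn.pow _)⟩
  obtain ⟨c₁, hc₁, hc₁', -⟩ := Fn.prop X ⊤ fun _ => trivial
  have hne : Nonempty (H × Option T) := ⟨(⟨c₁, (hH _).2 ⟨hc₁, hc₁'⟩⟩, none)⟩
  obtain ⟨N', hN'⟩ := Nat.exists_eq_succ_of_ne_zero (Fintype.card_ne_zero (α := H × Option T))
  let e : H × Option T ≃ Fin (N' + 1) := Fintype.equivFinOfCardEq hN'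
  let y' : Fin (N' + 1) → F := fun j => Y (e.symm j)
  have hy'i : ∀ i : H, y' (e (i, none)) = (i : F) ^ m := fun i => by simp [y', Y]
  have hchart : ∀ i : H, chart k y' (e (i, none)) = B0 X.R X.θ i (hh i) := by
    intro i
    apply le_antisymm
    · refine chart_le fun j => ?_
      rw [hy'i]
      exact div_mem_B0 (hb0 i) (hYR _)
    · rintro f ⟨a, ha⟩
      have h1 := hT' _ (hb0 i) a _ ha
      rw [mul_div_cancel_right₀ _ (pow_ne_zero _ (hb0 i))] at h1
      refine Algebra.adjoin_mono ?_ h1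
      rintro _ ⟨p, hp, rfl⟩
      refine ⟨e (i, some ⟨p, hp⟩), ?_⟩
      have h2 : y' (e (i, some ⟨p, hp⟩)) = p.2 * (i : F) ^ (m - p.1) := by simp [y', Y]
      have h3 := hb0 i
      change y' _ / y' _ = _
      rw [h2, hy'i, ← Nat.add_sub_cancel' (hle p hp), pow_add, Nat.add_sub_cancel_left]
      field_simp
  have hP : ∀ V : ValuationSubring F, (∀ c, algebraMap k F c ∈ V) →
      ∃ i, (∃ i', i = e (i', none)) ∧ ∀ j, y' j / y' i ∈ V := by
    intro V hV
    obtain ⟨c, hc, hc', hi⟩ := Fn.prop X V hV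
    refine ⟨_, ⟨⟨c, (hH _).2 ⟨hc, hc'⟩⟩, rfl⟩, fun j => ?_⟩
    rw [hy'i]
    exact hi _ _ (hYR _)
  have hy' : ∀ j, y' j ≠ 0 := fun j => hY0 _
  have key : ∀ j, ∀ φ : chart k y' j →ₐ[k] k, ∃ (t : Fin d → F) (i₀ : Fin (N + 1)),
      PlusAt y B (lo (chart k y' j) φ) t i₀ := by
    intro j φ
    obtain ⟨_, ⟨i, rfl⟩, hu⟩ := exists_good_chart hy' _ hP j φ
    obtain ⟨ψ, hψ⟩ := exists_change hy' φ hu
    rw [← hψ]
    have hf := finiteType_chart (k := k) y' (e (i, none))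
    revert ψ hf
    rw [hchart]
    intro ψ _ hf
    obtain ⟨q, hq, hφ⟩ := exists_lift X.graded (hb0 i) ψ
    have h1 := lo_B0 hq (Fn.st X (hbs i) q hq) ψ hφ
    have h2 : IsLocalRing (O0 X.R q) := h1 ▸ isLocalRing_lo _ ψ
    have h3 : IsNoetherianRing (O0 X.R q) := h1 ▸ isNoetherianRing_lo _ ψ
    rw [h1]
    exact Fn.plusAt X hy hX hO q ⟨_, hbs i, hh i, hq⟩
  refine ⟨⟨N', y', hy', ?_, fun i => ?_⟩, fun j => hYw _, key⟩
  · have := finiteType_chart (k := k) y' 0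
    obtain ⟨φ⟩ := nonempty_point (chart k y' 0)
    obtain ⟨t, i₀, hw⟩ := key 0 φ
    exact (hfr.chart hy i₀).of_le_lo (chart_le hw.dom)
  · have := finiteType_chart (k := k) y' i
    refine smooth_of_coords fun φ => ?_
    obtain ⟨t, i₀, hw⟩ := key i φ
    exact ⟨d, t, hw.coords⟩

end Crest.Agent.X262.Res
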