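import Crest.Agent.X262.Res.Blow
import Crest.Agent.X277.Res.G1e

/-!
# Row 262, squad RES+: the loop of phase 0 (helper64; port of `X277/Res/G1d`)
-/

set_option autoImplicit false
set_option linter.unusedSectionVars false
set_option linter.style.haveILetI false

noncomputable section

namespace Crest.Agent.X262.Res

open Crest.Agent.X277.Res AddMonoidAlgebra Gr Filter

/-- the centre can be generated by weight vectors -/
def CentreEV (k : Type) [Field k] : Prop :=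
  ∀ (C F : Type) [Field C] [Algebra k C] [Field F] [Algebra k F] (S : Subalgebra k C)
    (π : S →ₐ[k] F) (N : ℕ) (y : Fin (N + 1) → C) (B : Set (Fin (N + 1))) (d : ℕ)
    (s : kˣ →* (C ≃ₐ[k] C)) (_ : G1.Tools k C MM) (X : Mod π y B d) (I : Finset (GA C MM))
    (_ : G1.Setup X.good {q | X.IsPt q} X.ε (I : Set (GA C MM)) (fresh C X.ρ) d)
    (_ : Eqv s X) (_ : ∀ f ∈ I, EV s f) (w : Fin d → ℚ) (t : Fin d → Bool) (_ : Allowed w)
    (_ : G1.Bound X.good {q | X.IsPt q} X.ε (I : Set (GA C MM)) w t),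
    ∃ (a : ℕ) (W : Fin d → ℕ) (n : ℕ) (g : Fin n → GA C MM) (e : Fin n → ℕ),
      G1.Centre X.good {q | X.IsPt q} X.ε (I : Set (GA C MM)) (fresh C X.ρ) w t a W g e ∧
        ∀ j, EV s (g j)

namespace Lp

open G1 hiding exists_onP notMem_span_InP setup_of_emb mem_m_of_onP stop_of blowIn_of sub_mem_M
  blow_of cp_mul_chi_mem emb_of drop_of loopStmt_of

variable {k C F : Type} [Field k] [Field C] [Algebra k C] [Field F] [Algebra k F]
variable {S : Subalgebra k C} {π : S →ₐ[k] F} {N : ℕ} {y : Fin (N + 1) → C}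
  {B : Set (Fin (N + 1))} {d : ℕ}

/-- the strict transform is not empty -/
theorem exists_onP [IsAlgClosed k] (hr : Red S π y) (X : Mod π y B d) :
    ∃ q, X.IsPt q ∧ OnP X q := by
  obtain ⟨n, hn, τ, -, c, hc, hv⟩ := X.prop ⊤ fun _ => trivial
  have hc0 : π c ≠ 0 := by
    intro h0
    rw [h0, map_zero, zero_pow hn.ne', zero_mul] at hv
    exact zero_ne_one hv
  have hN : NotP π (single X.θ (c : C) : GA C MM) := ⟨_, c, rfl, hc0⟩
  have hR := (X.hs_mem _ hc).1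
  haveI := (Subalgebra.fg_iff_finiteType X.R).1 X.fg
  by_contra hcon
  obtain ⟨m, hm⟩ := nullstellensatz (k := k) (I := PI hr X.toPre) (g := ⟨_, hR⟩) fun q hq => by
    have h1 : ¬ OnP X q := fun h => hcon ⟨q, ⟨_, hc, hR, hq⟩, h⟩
    unfold OnP at h1
    push Not at h1
    obtain ⟨f, hf, hfR, hq'⟩ := h1
    exact ⟨⟨f, hfR⟩, mem_PI_of_InP hr X.toPre hf, hq'⟩
  exact notMem_PI_of_NotP hr X.toPre (f := ⟨_, hR⟩ ^ m) (NotP_pow hN m) hm

/-- at a point of the strict transform an element with nonzero reduction is not in the local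
ideal of the variety -/
theorem notMem_span_InP (hr : Red S π y) (X : Mod π y B d) {q : X.R →ₐ[k] k} (hq : OnP X q)
    {b : GA C MM} (hb : b ∈ X.R) (hN : NotP π b) :
    b ∉ Submodule.span (X.loc q).O {f | f ∈ X.R ∧ InP π f} := by
  intro h
  have h1 : b ∈ amb ((PI hr X.toPre).map (incl X.R q)) := by
    rw [amb_map_incl]
    refine Submodule.span_mono ?_ h
    rintro f ⟨hf, hP⟩
    exact ⟨⟨f, hf⟩, mem_PI_of_InP hr X.toPre hP, rfl⟩
  obtain ⟨β, hβ, hqβ, h2⟩ := (incl_mem_map (a := ⟨b, hb⟩)).1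
    ((coe_mem_amb (f := incl X.R q ⟨b, hb⟩)).1 h1)
  rcases inP_or_notP hr X.toPre β.2 hβ with h3 | h3
  · exact hq _ h3 ⟨β.2, hqβ⟩
  · have h4 : NotP π ((β * ⟨b, hb⟩ : X.R) : GA C MM) := by
      rw [MulMemClass.coe_mul]; exact NotP_mul h3 hN
    exact notMem_PI_of_NotP hr X.toPre h4 h2

theorem setup_of_emb (X : Mod π y B d) {I : Finset (GA C MM)} (hE : Emb X I) :
    Setup X.good {q | X.IsPt q} X.ε (I : Set (GA C MM)) (fresh C X.ρ) d where
  isOpen := by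
    rintro q ⟨h, hh, hR, hq⟩
    filter_upwards [eventually_ne_zero (g := ⟨h, hR⟩) ⟨_, (X.hs_mem h hh).2⟩ hq] with q' hq'
    exact ⟨h, hh, hR, hq'⟩
  ε_ne := NotP_ne_zero X.ε_notP
  ε_hom := NotP_isH X.ε_notP
  fin := I.finite_toSet
  mem := fun f hf => ⟨(hE.I_mem f hf).1, InP_isH (hE.I_mem f hf).2⟩
  coord := X.coord

theorem mem_m_of_onP (X : Mod π y B d) {q : X.R →ₐ[k] k} (hq : OnP X q) {f : GA C MM}
    (hf : f ∈ X.R) (hP : InP π f) : f ∈ (X.loc q).m := by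
  by_contra h
  exact hq f hP ((X.notMem_loc_m hf (InP_isH hP)).1 h)

section Step

variable {X : Mod π y B d} {I : Finset (GA C MM)} {w : Fin d → ℚ} {t : Fin d → Bool} {a : ℕ}
  {W : Fin d → ℕ} {n : ℕ} {g : Fin n → GA C MM} {e : Fin n → ℕ}

/-- the loop stops when the centre contains the strict transform -/
theorem stop_of (hP : PrimeStmt k C MM) (hr : Red S π y) (hE : Emb X I)
    (Z : Centre X.good {q | X.IsPt q} X.ε (I : Set (GA C MM)) (fresh C X.ρ) w t a W g e)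
    (h1 : ∀ j, e j = 1 → InP π (g j)) : Stop X {i | 0 < w i} := by
  intro q hq hon
  rcases Z.cases q hq with ⟨c, hc, hp, -, hx⟩ | ⟨⟨i, hi, hm⟩, -⟩
  · have hle : Submodule.span (X.loc q).O (c.x '' {i | 0 < w i}) ≤
        Submodule.span (X.loc q).O {f | f ∈ X.R ∧ InP π f} := by
      refine Submodule.span_le.2 ?_
      rintro _ ⟨i, hi, rfl⟩
      refine Submodule.span_mono ?_ (Z.x_mem_one hx i (Z.W_pos.2 hi))
      rintro _ ⟨j, hj, rfl⟩
      exact ⟨Z.g_mem j, h1 j hj⟩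
    refine ⟨c, le_antisymm hle (Submodule.span_le.2 ?_)⟩
    rintro f ⟨hf, hfP⟩
    obtain ⟨b, hb, hbN, hbf⟩ := hE.gen f hf hfP
    have h2 : b * f ∈ Submodule.span (X.loc q).O (c.x '' {i | 0 < w i}) := by
      refine span_mono_alg (le_loc q) (fun f' hf' => ?_) hbf
      exact filt_le_sub (N := Submodule.span (X.loc q).O (c.x '' {i | 0 < w i})) hc.shape.mem
        (fun i hi => Submodule.subset_span ⟨i, hi, rfl⟩) one_pos (hp.adm f' hf')
    rcases hP _ _ _ _ c {i | 0 < w i} b (le_loc q hb) f (le_loc q hf) (NotP_isH hbN)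
      (InP_isH hfP) h2 with h3 | h3
    · exact absurd (hle h3) (notMem_span_InP hr X hon hb hbN)
    · exact h3
  · exact absurd (mem_m_of_onP X hon (Z.g_mem i) (h1 i hi)) hm

theorem fam_mem
    (Z : Centre X.good {q | X.IsPt q} X.ε (I : Set (GA C MM)) (fresh C X.ρ) w t a W g e) :
    ∀ p ∈ fam g e, p.1 ∈ X.R ∧ IsH p.1 ∧ 0 < p.2 := fun p hp => by
  obtain ⟨j, rfl⟩ := mem_fam.1 hp
  exact ⟨Z.g_mem j, Z.g_hom j, Z.e_pos j⟩

/-- as long as the loop does not stop, the centre avoids the good points -/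
theorem unit_of_good (hUB : UBStmt k C MM) (hr : Red S π y)
    (Z : Centre X.good {q | X.IsPt q} X.ε (I : Set (GA C MM)) (fresh C X.ρ) w t a W g e)
    (hB : Bound X.good {q | X.IsPt q} X.ε (I : Set (GA C MM)) w t) {j : Fin n} (hj : e j = 1)
    (hN : NotP π (g j)) {q : X.R →ₐ[k] k} (hq : X.IsPt q) (hG : GoodAt X I q) :
    ∃ p ∈ fam g e, NZ q p.1 := by
  obtain ⟨hon, J, -, hw, hc, hp, hz⟩ := hG
  rcases Z.cases q hq with ⟨c, -, hp', hg, -⟩ | ⟨⟨i, -, hm⟩, -⟩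
  · exfalso
    obtain ⟨h1, -, -, h2⟩ := hUB _ _ _ _ d J ⟨c.x, w, t⟩ (NotP_ne_zero X.ε_notP)
      (NotP_isH X.ε_notP) hc hp' (hB q hq J hp)
    have ha : (0 : ℚ) < a := Nat.cast_pos.2 Z.a_pos
    have h3 := hg j
    have h4 : filt (loc X.R q) c.x (fun i => (W i : ℚ)) (e j : ℚ) =
        filt (loc X.R q) c.x w ((e j : ℚ) / a) := by
      rw [← filt_scale (loc X.R q) c.x ha Z.W_eq, mul_div_cancel₀ _ ha.ne']
    rw [h4] at h3
    have h5 : g j ∈ filt (X.loc q).O J.z J.w ((e j : ℚ) / a) := (h2 _).le h3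
    refine notMem_span_InP hr X hon (Z.g_mem j) hN ?_
    exact filt_le_sub (N := Submodule.span (X.loc q).O {f | f ∈ X.R ∧ InP π f}) hc.shape.mem hz
      (div_pos (by rw [hj]; exact_mod_cast one_pos) ha) h5
  · exact ⟨_, mem_fam.2 ⟨i, rfl⟩, (X.notMem_loc_m (Z.g_mem i) (Z.g_hom i)).1 hm⟩

theorem blowIn_of
    (Z : Centre X.good {q | X.IsPt q} X.ε (I : Set (GA C MM)) (fresh C X.ρ) w t a W g e)
    {j : Fin n} (hj : NotP π (g j)) : BlowIn X (fam g e) where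
  mem := fun p hp => by
    obtain ⟨j, rfl⟩ := mem_fam.1 hp
    exact ⟨Z.g_mem j, Z.g_hom j, Z.e_pos j⟩
  ne := ⟨_, mem_fam.2 ⟨j, rfl⟩, hj⟩
  loc := fun q hq => by
    rcases Z.cases q hq with ⟨c, hc, -, hg, hx⟩ | ⟨⟨i, -, hm⟩, -⟩
    · refine Or.inr ⟨c, W, fun p hp => ?_, fun i => ?_⟩
      · obtain ⟨j, rfl⟩ := mem_fam.1 hp
        exact hg j
      · rcases Nat.eq_zero_or_pos (W i) with h0 | h0
        · rw [h0, pow_zero, mul_one]
          exact Algebra.subset_adjoin (Or.inl (hc.shape.mem i))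
        · have : ∀ f ∈ Submodule.span (loc X.R q) {f | ∃ j, e j = W i ∧ f = g j},
              f * chi (-ee X.ρ) ^ W i ∈ Algebra.adjoin k
                (((X.loc q).O : Set (GA C MM)) ∪ newGens X.ρ (fam g e)) := by
            intro f hf
            induction hf using Submodule.span_induction with
            | mem f hf =>
              obtain ⟨j, hj, rfl⟩ := hf
              rw [← hj]
              exact Algebra.subset_adjoin (Or.inr (Or.inr ⟨(g j, e j), mem_fam.2 ⟨j, rfl⟩, rfl⟩))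
            | zero => rw [zero_mul]; exact zero_mem _
            | add a b _ _ ha hb => rw [add_mul]; exact add_mem ha hb
            | smul r a _ ha =>
              rw [smul_mul_assoc]
              exact mul_mem (Algebra.subset_adjoin (Or.inl r.2)) ha
          exact this _ (Z.x_mem hx i h0)
    · exact Or.inl ⟨_, mem_fam.2 ⟨i, rfl⟩, (X.notMem_loc_m (Z.g_mem i) (Z.g_hom i)).1 hm⟩

variable {X' : Mod π y B d}

theorem sub_mem_M (hB : IsBlow X X' (fam g e)) {μ : MM} (hμ : μ ∈ X'.M) :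
    μ - μ X.ρ • ee X.ρ ∈ X.M := by
  rw [hB.M] at hμ
  obtain ⟨ν, hν, _, ⟨m, rfl⟩, rfl⟩ := AddSubgroup.mem_sup.1 hμ
  have : (ν + m • ee X.ρ) X.ρ = m := by
    rw [Finsupp.add_apply, X.M_supp ν hν _ le_rfl, Finsupp.smul_apply, ee_apply_self]; simp
  rw [this, add_sub_cancel_right]
  exact hν

theorem blow_of (hB : IsBlow X X' (fam g e)) :
    Blow X.good X'.good (fresh C X.ρ) (fresh C X'.ρ) g e (ee X.ρ) (Finsupp.applyAddHom X.ρ) where
  le := Algebra.adjoin_mono (by rw [hB.gens]; exact Set.subset_union_left)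
  S_mem := fun f hf => Algebra.subset_adjoin (by rw [hB.gens, newGens_fam]; exact Or.inr hf)
  gen := Algebra.adjoin_mono (by
    rw [hB.gens, newGens_fam]
    exact Set.union_subset_union_left _ Algebra.subset_adjoin)
  fresh := fun q q' =>
    { φσ := ee_apply_self _
      φM := fun μ hμ => X.M_supp μ hμ _ le_rfl
      mem := ⟨_, fun m hm => ee_apply_ne hm.ne, rfl⟩
      sub := by
        rintro _ ⟨μ, hμ, rfl⟩
        rw [hB.ρ] at hμ
        exact ⟨⟨μ, fun m hm => hμ m (hm.trans (Nat.lt_succ_self _)), rfl⟩, μ, ⟨1, rfl⟩,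
          hμ _ (Nat.lt_succ_self _)⟩
      M' := fun μ hμ => sub_mem_M hB hμ }

theorem emb_of (hE : Emb X I)
    (Z : Centre X.good {q | X.IsPt q} X.ε (I : Set (GA C MM)) (fresh C X.ρ) w t a W g e)
    (hB : IsBlow X X' (fam g e)) : Emb X' (trans I X.ρ a) := by
  have Bl := blow_of hB
  have hs : (chi (ee X.ρ) : GA C MM) ∈ X'.R := Bl.S_mem _ (Or.inl rfl)
  refine ⟨fun f hf => ?_, fun f hf hP => ?_, fun m hm => ?_, fun μ hμ => ?_⟩
  · obtain ⟨f₀, hf₀, rfl⟩ := mem_trans.1 hf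
    refine ⟨Z.transform_mem Bl hf₀, ?_⟩
    rw [chi_pow]
    exact InP_mul_chi (hE.I_mem f₀ hf₀).2 _
  · obtain ⟨μ, hμ⟩ := InP_isH hP
    have h1 := Res.cp_mul_chi_mem hB.gens (fam_mem Z) hf μ
    rw [HomD.cp_self hμ] at h1
    obtain ⟨b, hb, hbN, hbf⟩ := hE.gen _ h1 (InP_mul_chi hP _)
    have h2 : b * (f * chi (-(μ X.ρ • ee X.ρ))) ∈
        Submodule.span X'.R (trans I X.ρ a : Set (GA C MM)) := by
      refine span_mono_alg Bl.le (fun f₀ hf₀ => ?_) hbf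
      have h3 : f₀ = chi (ee X.ρ) ^ a * (f₀ * chi (-ee X.ρ) ^ a) := by
        rw [mul_left_comm, chi_pow_mul, mul_one]
      rw [h3]
      exact G1.mul_mem_sub (pow_mem hs a) (Submodule.subset_span (mem_trans.2 ⟨f₀, hf₀, rfl⟩))
    refine ⟨b * chi (ee X.ρ) ^ (μ X.ρ).natAbs, mul_mem (Bl.le hb) (pow_mem hs _),
      NotP_mul hbN (NotP_pow (NotP_chi _) _), ?_⟩
    have h4 : b * chi (ee X.ρ) ^ (μ X.ρ).natAbs * f =
        chi (ee X.ρ) ^ ((μ X.ρ).natAbs + μ X.ρ).toNat * (b * (f * chi (-(μ X.ρ • ee X.ρ)))) := by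
      have h5 : (chi (ee X.ρ) : GA C MM) ^ (μ X.ρ).natAbs =
          chi (ee X.ρ) ^ ((μ X.ρ).natAbs + μ X.ρ).toNat * chi (-(μ X.ρ • ee X.ρ)) := by
        rw [chi_pow, chi_pow, chi_add', ← natCast_zsmul, ← natCast_zsmul,
          Int.toNat_of_nonneg (by omega), add_smul, add_neg_cancel_right]
      rw [h5]; ring
    rw [h4]
    exact G1.mul_mem_sub (pow_mem hs _) h2
  · rw [hB.ρ] at hm
    rcases (Nat.lt_succ_iff.1 hm).lt_or_eq with h1 | rfl
    · exact Bl.le (hE.chi_mem m h1)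
    · exact hs
  · rw [hB.ρ] at hμ
    rw [hB.M, ← sub_add_cancel μ (μ X.ρ • ee X.ρ)]
    refine AddSubgroup.add_mem_sup (hE.full _ fun m hm => ?_) ⟨μ X.ρ, rfl⟩
    rw [Finsupp.sub_apply, Finsupp.smul_apply]
    rcases hm.lt_or_eq with h1 | rfl
    · rw [hμ m h1, ee_apply_ne h1.ne']; simp
    · rw [ee_apply_self]; simp

theorem drop_of (hUB : UBStmt k C MM) (hCB : CertBlowStmt k C MM) (hCU : CertUnitStmt k C MM)
    (hE : Emb X I)
    (Z : Centre X.good {q | X.IsPt q} X.ε (I : Set (GA C MM)) (fresh C X.ρ) w t a W g e)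
    (hB : IsBlow X X' (fam g e)) {q' : X'.R →ₐ[k] k} (hq' : X'.IsPt q') {J : Ctr C MM d}
    (hJ : Comp (X'.loc q') X'.ε (trans I X.ρ a : Set (GA C MM)) J) : inv J.w J.t < inv w t := by
  have Bl := blow_of hB
  obtain ⟨q, hq, hov, p, hp, hnz⟩ := hB.pt q' hq'
  obtain ⟨j, rfl⟩ := mem_fam.1 hp
  rw [hB.ε] at hJ
  refine Z.drop hUB hCB hCU (setup_of_emb X hE) Bl (fun f hf => mem_trans.2 ⟨f, hf, rfl⟩)
    (fun f hf => ((emb_of hE Z hB).I_mem f hf).1) (q' := q') (j := j) ?_ ?_ hJ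
  · rw [eq_res Bl.le hov]; exact hq
  · exact (X'.notMem_loc_m hnz.1 (IsH_mul (Z.g_hom j) (IsH_pow (G1.isH_chi _) _))).2 hnz

/-- good points stay good away from the centre -/
theorem goodAt_unit (hCU : CertUnitStmt k C MM)
    (Z : Centre X.good {q | X.IsPt q} X.ε (I : Set (GA C MM)) (fresh C X.ρ) w t a W g e)
    (hB : IsBlow X X' (fam g e)) {q : X.R →ₐ[k] k} {q' : X'.R →ₐ[k] k} (hl : LiesOver q q')
    (hu : ∃ p ∈ fam g e, NZ q p.1) (hG : GoodAt X I q) : GoodAt X' (trans I X.ρ a) q' := by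
  obtain ⟨hon, J, ht, hw, hc, hp, hz⟩ := hG
  obtain ⟨hF, hU, -⟩ := BO.blowOverStmt k C N y X.toPre X'.toPre _ q q' hB.M hB.gens
    (fam_mem Z) hl
  have hO := hU hu
  have hle : X.R ≤ X'.R := BO.R_le hB.gens
  refine ⟨onP_unit hB (fam_mem Z) hl hu hon, J, ht, hw, ?_, ?_, fun i hi => ?_⟩
  · rw [hB.ε, hB.ρ]
    exact hCU _ _ _ _ _ _ _ d J a _ _ hF hO (fun f hf => mem_trans.2 ⟨f, hf, rfl⟩) hc
  · refine ⟨⟨fun i => hO.le (hp.shape.mem i), hp.shape.hom, hp.shape.nonneg, hp.shape.sorted,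
      hp.shape.t_pos⟩, fun i hi => hO.m_le _ (hp.mem_m i hi), fun i hi => ?_, fun f hf => ?_⟩
    · rw [ht i] at hi; exact absurd hi Bool.false_ne_true
    · obtain ⟨f₀, hf₀, rfl⟩ := mem_trans.1 hf
      refine mul_mem_sub' (pow_mem (hO.S_mem _ (Or.inr rfl)) _) ?_
      exact span_mono_alg hO.le (fun _ h => Submodule.subset_span h) (hp.adm f₀ hf₀)
  · exact span_mono_alg hO.le (fun f hf => Submodule.subset_span
      (show f ∈ {f | f ∈ X'.R ∧ InP π f} from ⟨hle hf.1, hf.2⟩)) (hz i hi)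

end Step

end Lp

open G1 Lp in
/-- the loop of phase 0 -/
theorem loopStmt_of (k : Type) [Field k] [IsAlgClosed k] [CharZero k] (hEV : CentreEV k) :
    LoopStmt k := by
  intro C F _ _ _ _ S π N y B d X I s Gd Ol hr hE hX hI hO hG
  have tl : Tools k C MM := tools k C MM
  refine wf_loop (d := d) (X := {x : Mod π y B d × Finset (GA C MM) // Emb x.1 x.2 ∧ Eqv s x.1 ∧
      (∀ f ∈ x.2, EV s f) ∧ Iso Gd Ol x.1 ∧ Gud Gd x.1 x.2})
    (fun x w t => Top x.1.1.good {q | x.1.1.IsPt q} x.1.1.ε (x.1.2 : Set (GA C MM)) w t) _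
    (fun x => ?_) (fun x w t hA hT => ?_) ⟨(X, I), hE, hX, hI, hO, hG⟩
  · obtain ⟨q, hq, hon⟩ := Lp.exists_onP hr x.1.1
    exact (Lp.setup_of_emb _ x.2.1).exists_Top tl ⟨q, hq, fun f hf =>
      Lp.mem_m_of_onP _ hon (x.2.1.I_mem f hf).1 (x.2.1.I_mem f hf).2⟩
  · obtain ⟨⟨X, I⟩, hE, hX, hI, hO, hG⟩ := x
    obtain ⟨a, W, n, g, e, Z, hg⟩ := hEV C F S π N y B d s tl X I (Lp.setup_of_emb X hE) hX hI
      w t hA hT.1
    by_cases h1 : ∀ j, e j = 1 → InP π (g j)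
    · exact Or.inl ⟨X, I, _, hE, Lp.stop_of primeStmt hr hE Z h1, hX, hO⟩
    · push Not at h1
      obtain ⟨j, hj1, hj⟩ := h1
      have hj' := (inP_or_notP hr X.toPre (Z.g_mem j) (Z.g_hom j)).resolve_left hj
      obtain ⟨X', hB, hX'⟩ := BG.blow X _ hr (Lp.blowIn_of Z hj') hX fun p hp => by
        obtain ⟨i, rfl⟩ := mem_fam.1 hp
        exact hg i
      have hu : ∀ q, X.IsPt q → X.vals q ∈ Gd → ∃ p ∈ fam g e, NZ q p.1 := fun q hq hv =>
        unit_of_good tl.ub hr Z hT.1 hj1 hj' hq (hG q hq hv)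
      refine Or.inr ⟨⟨(X', trans I X.ρ a), Lp.emb_of hE Z hB, hX', fun f hf => ?_,
        hO.blow hB (fam_mem Z) hu, fun q' hq' hv => ?_⟩, fun w' t' hT' => ?_⟩
      · obtain ⟨f₀, hf₀, rfl⟩ := mem_trans.1 hf
        exact (hI f₀ hf₀).mul ((ev_chi _).pow _)
      · obtain ⟨q, hq, hl, -⟩ := hB.pt q' hq'
        rw [vals_eq hl] at hv
        exact goodAt_unit BL.certUnit Z hB hl (hu q hq hv) (hG q hq hv)
      · obtain ⟨q', hq', z, hz⟩ := hT'.2
        exact Lp.drop_of tl.ub BL.certBlow BL.certUnit hE Z hB hq' hz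

end Crest.Agent.X262.Res
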