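import Crest.Agent.X262.Res.Loop
import Crest.Agent.X262.Res.Dest
import Crest.Agent.X262.Res.Emb
import Crest.Agent.X262.Res.Fin

/-!
# Row 262, squad RES+: assembly modulo the first model and the equivariant centre (helper64)
-/

set_option autoImplicit false

namespace Crest.Agent.X262.Res

theorem plusStmt_of (k : Type) [Field k] [IsAlgClosed k] [CharZero k] (h0 : StartStmt k)
    (h1 : CentreEV k) : PlusStmt k :=
  plus_of k h0 (loopStmt_of k h1) (embGlobStmt k) (Dest.destackStmt k) (finalStmt k)

end Crest.Agent.X262.Res
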