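import Crest.Agent.X277.Res.FinLoc

/-!
# Row 262, squad RES+ (helper39): coordinates adapted to a smooth subvariety and a boundary

`exists_adapted`: if `ρ : P → O` is a local surjection of local rings with coordinates and
`ρ (b j)` are distinct coordinates of `O` up to units, then `P` has coordinates which contain the
`b j` and generators of the kernel of `ρ`.
-/

set_option autoImplicit false

noncomputable section

namespace Crest.Agent.X262.Res.StA

open Crest.Agent.X277.Res Crest.Agent.X277.Res.Out IsLocalRing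

variable {k C F : Type} [Field k] [Field C] [Algebra k C] [Field F] [Algebra k F]

theorem Van.neg {P : Subalgebra k C} {x : C} (hx : Van P x) : Van P (-x) := by
  have := Van.mul_left (neg_mem (one_mem P)) hx
  rwa [neg_one_mul] at this

theorem Van.mul_right {P : Subalgebra k C} {x y : C} (hx : Van P x) (hy : y ∈ P) :
    Van P (x * y) := by
  rw [mul_comm]; exact Van.mul_left hy hx

/-- the derivative of a combination of coordinates -/
theorem der_comb {P : Subalgebra k C} [IsLocalRing P] {N : ℕ} {τ : Fin N → C}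
    (hv : ∀ l, Van P (τ l)) {d : Fin N → Derivation k C C} (hd : ∀ l, ∀ x ∈ P, d l x ∈ P)
    (hdt : ∀ l j, d l (τ j) = if l = j then 1 else 0) {r : Fin N → C} (hr : ∀ i, r i ∈ P)
    (l : Fin N) : Van P (d l (∑ i, r i * τ i) - r l) := by
  have h1 : r l = ∑ i, r i * d l (τ i) := by
    simp only [hdt, mul_ite, mul_one, mul_zero, Finset.sum_ite_eq, Finset.mem_univ, if_true]
  rw [map_sum, h1, ← Finset.sum_sub_distrib]
  refine Van.sum _ fun i _ => ?_
  rw [Derivation.leibniz, smul_eq_mul, smul_eq_mul, add_sub_cancel_left]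
  exact Van.mul_right (hv i) (hd l _ (hr i))

/-- exchange of a coordinate -/
theorem coords_update {P : Subalgebra k C} [IsLocalRing P] (ε : P →ₐ[k] k)
    (hε : ∀ x : P, ε x = 0 ↔ Van P x) {N : ℕ} {τ : Fin N → C} (h : Coords P τ)
    {r : Fin N → C} (hr : ∀ i, r i ∈ P) {l : Fin N} (hl : Un P (r l)) :
    Coords P (Function.update τ l (∑ i, r i * τ i)) := by
  classical
  set y := ∑ i, r i * τ i with hy
  have hyv : Van P y := Van.sum _ fun i _ => Van.mul_left (hr i) (h.van i)
  have hvan : ∀ j, Van P (Function.update τ l y j) := fun j => by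
    by_cases hj : j = l
    · rw [hj, Function.update_self]; exact hyv
    · rw [Function.update_of_ne hj]; exact h.van j
  refine ⟨hvan, fun x hx => ?_, ?_⟩
  · obtain ⟨s, hs, rfl⟩ := h.gen x hx
    refine ⟨fun i => if i = l then s l / r l else s i - s l * r i / r l, fun i => ?_, ?_⟩
    · have h1 : ∀ a ∈ P, a / r l ∈ P := fun a ha => by
        rw [div_eq_mul_inv]; exact mul_mem ha hl.2.2
      dsimp only
      split_ifs
      · exact h1 _ (hs l)
      · exact sub_mem (hs i) (h1 _ (mul_mem (hs l) (hr i)))
    · have h0 := hl.1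
      dsimp only
      rw [← Finset.add_sum_erase _ _ (Finset.mem_univ l),
        ← Finset.add_sum_erase _ _ (Finset.mem_univ l), if_pos rfl, Function.update_self, hy,
        ← Finset.add_sum_erase _ _ (Finset.mem_univ l), mul_add, Finset.mul_sum, add_assoc,
        ← Finset.sum_add_distrib]
      congr 1
      · field_simp
      · refine Finset.sum_congr rfl fun i hi => ?_
        have hi' := Finset.ne_of_mem_erase hi
        rw [if_neg hi', Function.update_of_ne hi']
        field_simp
        ring
  · obtain ⟨d, hd, hdt⟩ := h.der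
    let d' : Fin N → Derivation k C C := fun i =>
      if i = l then (r l)⁻¹ • d l else d i - (r i * (r l)⁻¹) • d l
    have hd' : ∀ i, ∀ x ∈ P, d' i x ∈ P := fun i x hx => by
      simp only [d']
      split_ifs
      · exact mul_mem hl.2.2 (hd l x hx)
      · exact sub_mem (hd i x hx) (mul_mem (mul_mem (hr i) hl.2.2) (hd l x hx))
    refine exists_dual ε (fun x hx => ?_) _ (fun j => (hvan j).1) d' hd' fun i j => ?_
    · by_contra hu
      exact hx ((hε x).2 ⟨x.2, hu⟩)
    · have key : Van P (d' i (Function.update τ l y j) - if i = j then 1 else 0) := by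
        by_cases hj : j = l
        · subst hj
          rw [Function.update_self]
          have h1 := der_comb h.van hd hdt hr j
          by_cases hi : i = j
          · subst hi
            have h2 : d' i y - 1 = (r i)⁻¹ * (d i y - r i) := by
              simp only [d', if_true, Derivation.smul_apply, smul_eq_mul]
              rw [mul_sub, inv_mul_cancel₀ hl.1]
            rw [if_pos rfl, h2]
            exact Van.mul_left hl.2.2 h1
          · have h2 : d' i y - 0 = (d i y - r i) + -(r i * (r j)⁻¹ * (d j y - r j)) := by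
              simp only [d', if_neg hi, Derivation.sub_apply, Derivation.smul_apply, smul_eq_mul]
              rw [mul_sub, mul_assoc (r i) _ (r j), inv_mul_cancel₀ hl.1]
              ring
            rw [if_neg hi, h2]
            exact (der_comb h.van hd hdt hr i).add
              (Van.neg (Van.mul_left (mul_mem (hr i) hl.2.2) h1))
        · rw [Function.update_of_ne hj]
          have h2 : d' i (τ j) = if i = j then 1 else 0 := by
            simp only [d']
            split_ifs with h1 h3 h3
            · exact absurd (h3.symm.trans h1) hj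
            · simp [hdt, Ne.symm hj]
            · simp [hdt, Ne.symm hj, h3]
            · simp [hdt, Ne.symm hj, h3]
          rw [h2, sub_self]
          exact van_zero
      have h3 : (⟨_, key.1⟩ : P) = ⟨_, hd' i _ (hvan j).1⟩ - if i = j then 1 else 0 := by
        apply Subtype.ext
        split_ifs <;> rfl
      have h4 := (hε ⟨_, key.1⟩).2 key
      rw [h3, map_sub, sub_eq_zero] at h4
      rw [h4]
      split_ifs <;> simp

section Indep

variable {O : Subalgebra k F} [IsLocalRing O] {n : ℕ} {t : Fin n → F}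

/-- distinct coordinates are independent modulo the square of the maximal ideal -/
theorem coef_mem (ht : Coords O t) {β : Type} [Fintype β] {σ : β → Fin n}
    (hσ : Function.Injective σ) (g : β → O) (hg : ∀ j, Un O ((g j : F) / t (σ j))) (a : β → O)
    (h : ∑ j, a j * g j ∈ maximalIdeal O ^ 2) (j : β) : a j ∈ maximalIdeal O := by
  classical
  obtain ⟨d, hd⟩ := ht.exists_der
  let u : β → O := fun j => ⟨_, (hg j).2.1⟩
  have hgu : ∀ j, g j = u j * ht.el (σ j) := fun j =>
    Subtype.ext (div_mul_cancel₀ _ (ht.ne_zero _)).symm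
  have htm : ∀ l, ht.el l ∈ maximalIdeal O := fun l => (van_iff_mem_max _).1 (ht.van l)
  have h1 := SmCrit.der_mem_pow (d (σ j)) (maximalIdeal O) 1 h
  rw [pow_one, map_sum] at h1
  have h2 : ∑ i, d (σ j) (a i * g i) - a j * u j ∈ maximalIdeal O := by
    have h3 : a j * u j = ∑ i, a i * u i * d (σ j) (ht.el (σ i)) := by
      simp only [hd, hσ.eq_iff, mul_ite, mul_one, mul_zero, Finset.sum_ite_eq, Finset.mem_univ,
        if_true]
    rw [h3, ← Finset.sum_sub_distrib]
    refine Ideal.sum_mem _ fun i _ => ?_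
    rw [hgu, ← mul_assoc, Derivation.leibniz, smul_eq_mul, smul_eq_mul, add_sub_cancel_left]
    exact Ideal.mul_mem_right _ _ (htm _)
  have h3 : a j * u j ∈ maximalIdeal O := by simpa using sub_mem h1 h2
  refine ((maximalIdeal.isMaximal O).isPrime.mem_or_mem h3).resolve_right fun h4 => ?_
  exact ((van_iff_mem_max (u j)).2 h4).2 (hg j)

end Indep

section Main

variable {P : Subalgebra k C} {O : Subalgebra k F} [IsLocalRing P] [IsLocalRing O]
  {ε : P →ₐ[k] k} {ρ : P →ₐ[k] O} {N n : ℕ} {t : Fin n → F} {β : Type} [Fintype β]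
  {b : β → P} {σ : β → Fin n}

/-- splitting a combination of coordinates along the coordinates `e j`, `j ∈ s` -/
theorem sum_split [DecidableEq β] {M : Type} [AddCommMonoid M] {e : β → Fin N} {s : Finset β}
    (he : Set.InjOn e s) (f : Fin N → M) :
    ∑ i, f i = ∑ j, (if j ∈ s then f (e j) else 0) + ∑ i ∈ (s.image e)ᶜ, f i := by
  rw [← Finset.sum_add_sum_compl (s.image e), Finset.sum_image he, Finset.sum_ite_mem,
    Finset.univ_inter]

theorem exists_ins (hε : ∀ x : P, ε x = 0 ↔ Van P x) (hloc : ∀ x : P, ε x = 0 ↔ Van O (ρ x))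
    {τ : Fin N → C} (hτ : Coords P τ) (ht : Coords O t) (hσ : Function.Injective σ)
    (hb : ∀ j, Un O ((ρ (b j) : F) / t (σ j))) (s : Finset β) :
    ∃ (τ' : Fin N → C) (e : β → Option (Fin N)), Coords P τ' ∧
      (∀ j ∈ s, ∃ l, e j = some l ∧ τ' l = b j) ∧ ∀ j ∈ s, ∀ j' ∈ s, e j = e j' → j = j' := by
  classical
  have hρm : ∀ x : P, Van P x → ρ x ∈ maximalIdeal O := fun x hx =>
    (van_iff_mem_max _).1 ((hloc x).1 ((hε x).2 hx))
  induction s using Finset.induction_on with
  | empty => exact ⟨τ, fun _ => none, hτ, by simp, by simp⟩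
  | insert j s hj ih =>
    obtain ⟨τ', e, hτ', he, hinj⟩ := ih
    have hbv : Van P (b j) := (hε _).1 ((hloc _).2 (by
      have h1 : (ρ (b j) : F) = ρ (b j) / t (σ j) * t (σ j) :=
        (div_mul_cancel₀ _ (ht.ne_zero _)).symm
      rw [h1]
      exact Van.mul_left (hb j).2.1 (ht.van _)))
    obtain ⟨r, hr, hbr⟩ := hτ'.gen _ hbv
    have hex : ∃ l, (∀ j' ∈ s, e j' ≠ some l) ∧ Un P (r l) := by
      by_contra hcon
      push Not at hcon
      rcases isEmpty_or_nonempty (Fin N) with hN | ⟨⟨l0⟩⟩
      · have h0 : b j = 0 := Subtype.ext (by rw [hbr]; simp)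
        have h1 := (hb j).1
        rw [h0, map_zero] at h1
        simp at h1
      let e' : β → Fin N := fun j' => (e j').getD l0
      have he' : ∀ j' ∈ s, e j' = some (e' j') ∧ τ' (e' j') = b j' := fun j' hj' => by
        obtain ⟨l, h1, h2⟩ := he j' hj'
        have h3 : e' j' = l := by simp [e', h1]
        rw [h3]; exact ⟨h1, h2⟩
      have hinj' : Set.InjOn e' s := fun a ha a' ha' h =>
        hinj a ha a' ha' (by rw [(he' a ha).1, (he' a' ha').1, h])
      let r' : Fin N → P := fun i => ⟨r i, hr i⟩
      have h1 : b j = ∑ i, r' i * hτ'.el i := Subtype.ext (by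
        rw [hbr, AddSubmonoidClass.coe_finsetSum]; rfl)
      let a : β → O := fun j' => if j' = j then 1 else if j' ∈ s then -ρ (r' (e' j')) else 0
      have h2 : ∑ j', a j' * ρ (b j') = ∑ i ∈ (s.image e')ᶜ, ρ (r' i) * ρ (hτ'.el i) := by
        have h3 := congrArg ρ h1
        rw [map_sum, sum_split hinj'] at h3
        simp only [map_mul] at h3
        rw [← sub_eq_iff_eq_add'] at h3
        rw [← h3, ← Finset.add_sum_erase _ _ (Finset.mem_univ j),
          ← Finset.add_sum_erase _ (fun j' => if j' ∈ s then _ else _) (Finset.mem_univ j),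
          if_neg hj, zero_add, sub_eq_add_neg, ← Finset.sum_neg_distrib]
        congr 1
        · simp [a]
        · refine Finset.sum_congr rfl fun j' hj' => ?_
          simp only [a, if_neg (Finset.ne_of_mem_erase hj')]
          split_ifs with h4
          · rw [show hτ'.el (e' j') = b j' from Subtype.ext (he' j' h4).2, neg_mul]
          · simp
      have h3 := coef_mem ht hσ (fun j' => ρ (b j')) hb a (by
        rw [h2, pow_two]
        refine Ideal.sum_mem _ fun i hi => Ideal.mul_mem_mul (hρm _ ⟨hr i, hcon i ?_⟩)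
          (hρm _ (hτ'.van i))
        intro j' hj' h4
        refine Finset.mem_compl.1 hi (Finset.mem_image.2 ⟨j', hj', ?_⟩)
        exact Option.some.inj ((he' j' hj').1.symm.trans h4)) j
      simp only [a, if_true] at h3
      exact (maximalIdeal.isMaximal O).ne_top ((Ideal.eq_top_iff_one _).2 h3)
    obtain ⟨l, hl, hu⟩ := hex
    have h1 := coords_update ε hε hτ' hr hu
    rw [← hbr] at h1
    refine ⟨_, Function.update e j (some l), h1, fun j' hj' => ?_, fun a ha a' ha' h => ?_⟩
    · rcases Finset.mem_insert.1 hj' with rfl | hj'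
      · exact ⟨l, Function.update_self _ _ _, Function.update_self _ _ _⟩
      · obtain ⟨l', h2, h3⟩ := he j' hj'
        have h4 : j' ≠ j := fun h => hj (h ▸ hj')
        refine ⟨l', by rw [Function.update_of_ne h4, h2], ?_⟩
        have h5 : l' ≠ l := fun h => hl j' hj' (h ▸ h2)
        rw [Function.update_of_ne h5, h3]
    · have hne : ∀ x ∈ s, x ≠ j := fun x hx h => hj (h ▸ hx)
      rcases Finset.mem_insert.1 ha with h2 | h2 <;> rcases Finset.mem_insert.1 ha' with h3 | h3
      · rw [h2, h3]
      · rw [h2, Function.update_self, Function.update_of_ne (hne _ h3)] at h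
        exact absurd h.symm (hl _ h3)
      · rw [h3, Function.update_self, Function.update_of_ne (hne _ h2)] at h
        exact absurd h (hl _ h2)
      · rw [Function.update_of_ne (hne _ h2), Function.update_of_ne (hne _ h3)] at h
        exact hinj _ h2 _ h3 h

/-- **adapted coordinates** -/
theorem exists_adapted [CharZero k] [IsNoetherianRing P] (hε : ∀ x : P, ε x = 0 ↔ Van P x)
    (hρ : Function.Surjective ρ) (hloc : ∀ x : P, ε x = 0 ↔ Van O (ρ x))
    {τ : Fin N → C} (hτ : Coords P τ) (ht : Coords O t) (hσ : Function.Injective σ)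
    (hb : ∀ j, Un O ((ρ (b j) : F) / t (σ j))) :
    ∃ (τ' : Fin N → C) (hτ' : Coords P τ') (A : Set (Fin N)) (e : β → Fin N),
      Function.Injective e ∧ (∀ j, e j ∉ A) ∧ (∀ j, τ' (e j) = b j) ∧
      RingHom.ker ρ = Ideal.span (hτ'.el '' A) := by
  classical
  have hρm : ∀ x : P, Van P x → ρ x ∈ maximalIdeal O := fun x hx =>
    (van_iff_mem_max _).1 ((hloc x).1 ((hε x).2 hx))
  obtain ⟨τ₀, e₀, hτ₀, he₀, hinj₀⟩ := exists_ins hε hloc hτ ht hσ hb Finset.univ
  choose e he1 he2 using fun j => he₀ j (Finset.mem_univ j)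
  have hinj : Function.Injective e := fun a a' h =>
    hinj₀ a (Finset.mem_univ _) a' (Finset.mem_univ _) (by rw [he1, he1, h])
  let Q : Finset (Fin N) → Prop := fun A => ∃ (τ' : Fin N → C) (hτ' : Coords P τ'),
    (∀ j, e j ∉ A) ∧ (∀ j, τ' (e j) = b j) ∧ ∀ a ∈ A, ρ (hτ'.el a) = 0
  obtain ⟨A, hA, hmax⟩ := Finset.exists_max_image (Finset.univ.filter Q) Finset.card
    ⟨∅, Finset.mem_filter.2 ⟨Finset.mem_univ _, τ₀, hτ₀, by simp, he2, by simp⟩⟩
  obtain ⟨τ', hτ', h1, h2, h3⟩ := (Finset.mem_filter.1 hA).2
  refine ⟨τ', hτ', A, e, hinj, fun j => by simpa using h1 j, h2, le_antisymm ?_ ?_⟩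
  swap
  · rw [Ideal.span_le]
    rintro _ ⟨a, ha, rfl⟩
    exact h3 a ha
  have hM : RingHom.ker ε = maximalIdeal P := by
    ext x
    rw [RingHom.mem_ker, ← van_iff_mem_max]
    exact hε x
  refine Submodule.le_of_le_smul_of_le_jacobson_bot (I := RingHom.ker ε)
    (IsNoetherian.noetherian _) (by rw [hM]; exact maximalIdeal_le_jacobson _) fun f hf => ?_
  have hf0 : ρ f = 0 := hf
  have hfv : Van P f := (hε f).1 ((hloc f).2 (by rw [hf0]; exact van_zero))
  obtain ⟨r, hr, hfr⟩ := hτ'.gen _ hfv
  let r' : Fin N → P := fun i => ⟨r i, hr i⟩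
  have hf1 : f = ∑ i, r' i * hτ'.el i := Subtype.ext (by
    rw [hfr, AddSubmonoidClass.coe_finsetSum]; rfl)
  have hfree : ∀ i, i ∉ A → (∀ j, e j ≠ i) → Van P (r i) := by
    intro i hi hie
    refine ⟨hr i, fun hu => ?_⟩
    have h4 := coords_update ε hε hτ' hr hu
    rw [← hfr] at h4
    have h5 := hmax (insert i A) (Finset.mem_filter.2 ⟨Finset.mem_univ _, _, h4,
      fun j hj => (Finset.mem_insert.1 hj).elim (hie j) (h1 j),
      fun j => by rw [Function.update_of_ne (hie j), h2], fun a ha => ?_⟩)
    · rw [Finset.card_insert_of_notMem hi] at h5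
      omega
    · by_cases h6 : a = i
      · subst h6
        rw [show h4.el a = f from Subtype.ext (Function.update_self _ _ _), hf0]
      · rw [show h4.el a = hτ'.el a from Subtype.ext (Function.update_of_ne h6 _ _)]
        exact h3 a ((Finset.mem_insert.1 ha).resolve_left h6)
  have hbd : ∀ j, Van P (r (e j)) := by
    intro j
    have h4 := congrArg ρ hf1
    rw [hf0, map_sum, sum_split (s := Finset.univ) hinj.injOn] at h4
    simp only [Finset.mem_univ, if_true, map_mul] at h4
    have h5 := coef_mem ht hσ (fun j' => ρ (b j')) hb (fun j' => ρ (r' (e j'))) (by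
      have h6 : ∀ j', hτ'.el (e j') = b j' := fun j' => Subtype.ext (h2 j')
      simp only [h6] at h4
      rw [eq_neg_of_add_eq_zero_left h4.symm, neg_mem_iff, pow_two]
      refine Ideal.sum_mem _ fun i hi => ?_
      by_cases hiA : i ∈ A
      · rw [h3 i hiA, mul_zero]; exact zero_mem _
      · refine Ideal.mul_mem_mul (hρm _ (hfree i hiA fun j' h7 => ?_)) (hρm _ (hτ'.van i))
        exact Finset.mem_compl.1 hi (Finset.mem_image.2 ⟨j', Finset.mem_univ _, h7⟩)) j
    exact (hε (r' (e j))).1 ((hloc _).2 ((van_iff_mem_max _).2 h5))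
  have hrest : ∀ i, i ∉ A → r' i ∈ maximalIdeal P := fun i hi => (van_iff_mem_max (r' i)).1 (by
    by_cases h4 : ∃ j, e j = i
    · obtain ⟨j, rfl⟩ := h4
      exact hbd j
    · push Not at h4
      exact hfree i hi h4)
  rw [hf1, ← Finset.sum_add_sum_compl A]
  refine Submodule.add_mem_sup (Ideal.sum_mem _ fun a ha =>
    Ideal.mul_mem_left _ _ (Ideal.subset_span ⟨a, ha, rfl⟩)) ?_
  refine SmCrit.ker_inf_sq_le ρ hρ ε (maximalIdeal.isMaximal O).ne_top ht.el ht.span_eq.symm
    (fun x => (hloc x).trans (van_iff_mem_max _)) ht.exists_der.choose ht.exists_der.choose_spec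
    ?_ ?_
  · have h4 := congrArg ρ hf1
    rw [hf0, ← Finset.sum_add_sum_compl A, map_add, map_sum,
      Finset.sum_eq_zero fun a ha => by rw [map_mul, h3 a ha, mul_zero], zero_add] at h4
    exact h4.symm
  · rw [hM, pow_two]
    exact Ideal.sum_mem _ fun i hi => Ideal.mul_mem_mul (hrest i (Finset.mem_compl.1 hi))
      ((van_iff_mem_max _).1 (hτ'.van i))

end Main

end Crest.Agent.X262.Res.StA
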