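import Crest.Agent.X262.Res.Defs
import Crest.Agent.X277.Res.EmbPi

/-!
# Row 262, squad RES+: weight vectors (helper64)
-/

set_option autoImplicit false

noncomputable section

namespace Crest.Agent.X262.Res

open AddMonoidAlgebra Crest.Agent.X277.Res

variable {k C G : Type} [Field k] [Field C] [Algebra k C] [AddCommGroup G]
variable {s : kˣ →* (C ≃ₐ[k] C)}

theorem Wt.mul {m n : ℤ} {a b : C} (ha : Wt s m a) (hb : Wt s n b) : Wt s (m + n) (a * b) := by
  intro l
  rw [map_mul, ha, hb, zpow_add, Units.val_mul, smul_mul_smul_comm]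

theorem wt_algebraMap (c : k) : Wt s 0 (algebraMap k C c) := by
  intro l
  rw [AlgEquiv.commutes, zpow_zero, Units.val_one, one_smul]

theorem wt_one : Wt s 0 1 := by simpa using wt_algebraMap (s := s) 1

theorem wt_zero (n : ℤ) : Wt s n 0 := fun l => by rw [map_zero, smul_zero]

theorem Wt.pow {n : ℤ} {a : C} (ha : Wt s n a) (e : ℕ) : Wt s (e * n) (a ^ e) := by
  induction e with
  | zero => simpa using wt_one
  | succ e ih => rw [pow_succ, Nat.cast_succ, add_mul, one_mul]; exact ih.mul ha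

theorem Wt.inv {n : ℤ} {a : C} (ha : Wt s n a) : Wt s (-n) a⁻¹ := by
  intro l
  rw [map_inv₀, ha, zpow_neg, Units.val_inv_eq_inv_val, smul_inv₀]

theorem Wt.div {m n : ℤ} {a b : C} (ha : Wt s m a) (hb : Wt s n b) : Wt s (m - n) (a / b) := by
  rw [div_eq_mul_inv, sub_eq_add_neg]
  exact ha.mul hb.inv

theorem EV.isH {f : GA C G} (h : EV s f) : IsH f := by
  obtain ⟨μ, c, -, rfl, -⟩ := h
  exact ⟨μ, c, rfl⟩

theorem EV.mul {f g : GA C G} (hf : EV s f) (hg : EV s g) : EV s (f * g) := by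
  obtain ⟨μ, c, m, rfl, hc⟩ := hf
  obtain ⟨ν, e, n, rfl, he⟩ := hg
  exact ⟨μ + ν, c * e, m + n, single_mul_single _ _ _ _, hc.mul he⟩

theorem ev_chi (μ : G) : EV s (chi μ : GA C G) := ⟨μ, 1, 0, rfl, wt_one⟩

theorem ev_one : EV s (1 : GA C G) := ev_chi 0

theorem ev_zero : EV s (0 : GA C G) := ⟨0, 0, 0, (single_zero _).symm, wt_zero 0⟩

theorem EV.pow {f : GA C G} (hf : EV s f) (n : ℕ) : EV s (f ^ n) := by
  induction n with
  | zero => rw [pow_zero]; exact ev_one
  | succ n ih => rw [pow_succ]; exact ih.mul hf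

theorem EV.prod {ι : Type*} (t : Finset ι) {f : ι → GA C G} (h : ∀ i ∈ t, EV s (f i)) :
    EV s (∏ i ∈ t, f i) :=
  Finset.prod_induction f (EV s) (fun _ _ => EV.mul) ev_one h

theorem EV.coeff {f : GA C G} (hf : EV s f) (μ : G) : ∃ n, Wt s n (f.coeff μ) := by
  classical
  obtain ⟨ν, c, n, rfl, hc⟩ := hf
  refine ⟨n, ?_⟩
  rw [coeff_single, Finsupp.single_apply]
  split_ifs
  · exact hc
  · exact wt_zero n

variable (s) in
/-- the elements whose orbit map is a Laurent polynomial -/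
def FW : Subalgebra k C where
  carrier := {a | ∃ (N : ℕ) (P : Polynomial C), ∀ l : kˣ,
    algebraMap k C l ^ N * s l a = P.eval (algebraMap k C l)}
  mul_mem' := by
    rintro a b ⟨N, P, h⟩ ⟨M, Q, h'⟩
    refine ⟨N + M, P * Q, fun l => ?_⟩
    rw [Polynomial.eval_mul, ← h, ← h', map_mul, pow_add]
    ring
  add_mem' := by
    rintro a b ⟨N, P, h⟩ ⟨M, Q, h'⟩
    refine ⟨N + M, Polynomial.X ^ M * P + Polynomial.X ^ N * Q, fun l => ?_⟩
    simp only [Polynomial.eval_add, Polynomial.eval_mul, Polynomial.eval_pow, Polynomial.eval_X]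
    rw [← h, ← h', map_add, pow_add]
    ring
  algebraMap_mem' c := ⟨0, Polynomial.C (algebraMap k C c), fun l => by simp⟩

theorem Wt.eq_mul {n : ℤ} {a : C} (ha : Wt s n a) (l : kˣ) :
    s l a = algebraMap k C l ^ n * a := by
  rw [ha, Algebra.smul_def, Units.val_zpow_eq_zpow_val, map_zpow₀]

theorem algebraMap_unit_ne (l : kˣ) : algebraMap k C l ≠ 0 :=
  (map_ne_zero _).2 l.ne_zero

theorem Wt.mem_FW {n : ℤ} {a : C} (ha : Wt s n a) : a ∈ FW s := by
  refine ⟨n.natAbs, Polynomial.X ^ (n + n.natAbs).toNat * Polynomial.C a, fun l => ?_⟩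
  simp only [Polynomial.eval_mul, Polynomial.eval_pow, Polynomial.eval_X, Polynomial.eval_C]
  rw [ha.eq_mul, ← mul_assoc, ← zpow_natCast, ← zpow_natCast,
    ← zpow_add₀ (algebraMap_unit_ne l), Int.toNat_of_nonneg (by omega), add_comm]

theorem poly_ext [CharZero k] {P Q : Polynomial C}
    (h : ∀ l : kˣ, P.eval (algebraMap k C l) = Q.eval (algebraMap k C l)) : P = Q := by
  refine Polynomial.eq_of_infinite_eval_eq P Q ?_
  have hinj : Function.Injective fun n : ℕ =>
      algebraMap k C (Units.mk0 ((n + 1 : ℕ) : k) (Nat.cast_ne_zero.2 n.succ_ne_zero)) := by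
    intro a b hab
    have := (algebraMap k C).injective hab
    simpa using this
  exact Set.infinite_of_injective_forall_mem hinj fun n => h _

/-- a divisor of a weight vector is a weight vector -/
theorem Wt.of_mul [CharZero k] {n : ℤ} {a b : C} (ha : a ∈ FW s) (hb : b ∈ FW s)
    (h : Wt s n (a * b)) (h0 : a * b ≠ 0) : ∃ m, Wt s m a := by
  obtain ⟨N, P, hP⟩ := ha
  obtain ⟨M, Q, hQ⟩ := hb
  have key : P * (Q * Polynomial.X ^ n.natAbs * Polynomial.C (a * b)⁻¹) =
      Polynomial.X ^ (N + M + (n + n.natAbs).toNat) := by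
    refine poly_ext (k := k) fun l => ?_
    have hl := algebraMap_unit_ne (C := C) l
    have h1 := h.eq_mul l
    rw [map_mul] at h1
    have h2 : algebraMap k C l ^ (n + n.natAbs).toNat =
        algebraMap k C l ^ n * algebraMap k C l ^ n.natAbs := by
      rw [← zpow_natCast, ← zpow_natCast, ← zpow_add₀ hl, Int.toNat_of_nonneg (by omega)]
    simp only [Polynomial.eval_mul, Polynomial.eval_pow, Polynomial.eval_X, Polynomial.eval_C]
    rw [← hP, ← hQ, pow_add, pow_add, h2]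
    have ha0 := left_ne_zero_of_mul h0
    have hb0 := right_ne_zero_of_mul h0
    field_simp
    linear_combination h1
  obtain ⟨j, -, u, hu⟩ := (dvd_prime_pow Polynomial.prime_X _).1 (Dvd.intro _ key)
  obtain ⟨c, -, hc⟩ := Polynomial.isUnit_iff.1 (u⁻¹).isUnit
  have hP' : P = Polynomial.X ^ j * Polynomial.C c := by
    rw [hc, ← hu, Units.mul_inv_cancel_right]
  have h1 := hP 1
  rw [hP'] at h1
  simp only [Units.val_one, map_one, one_pow, one_mul, AlgEquiv.one_apply, Polynomial.eval_mul,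
    Polynomial.eval_pow, Polynomial.eval_X, Polynomial.eval_C] at h1
  refine ⟨(j : ℤ) - N, fun l => ?_⟩
  have hl := algebraMap_unit_ne (C := C) l
  have h2 := hP l
  rw [hP'] at h2
  simp only [Polynomial.eval_mul, Polynomial.eval_pow, Polynomial.eval_X, Polynomial.eval_C] at h2
  rw [Algebra.smul_def, Units.val_zpow_eq_zpow_val, map_zpow₀, zpow_sub₀ hl, zpow_natCast,
    zpow_natCast, h1]
  rw [h1] at h2
  field_simp
  linear_combination h2

theorem adjoin_le_SA {S : Set (GA C G)} (hS : ∀ u ∈ S, EV s u) :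
    Algebra.adjoin k S ≤ Emb.SA G (FW s) := by
  refine Algebra.adjoin_le fun u hu => ?_
  obtain ⟨μ, c, n, rfl, hc⟩ := hS u hu
  exact Emb.single_mem_SA.2 hc.mem_FW

/-- a homogeneous divisor of a weight vector is a weight vector -/
theorem EV.of_mul [CharZero k] {S : Set (GA C G)} (hS : ∀ u ∈ S, EV s u) {w w' : GA C G}
    (hw : w ∈ Algebra.adjoin k S) (hw' : w' ∈ Algebra.adjoin k S) (h1 : IsH w) (h2 : IsH w')
    (h : EV s (w * w')) (h0 : w * w' ≠ 0) : EV s w := by
  obtain ⟨μ, a, rfl⟩ := h1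
  obtain ⟨ν, b, rfl⟩ := h2
  rw [single_mul_single] at h h0
  obtain ⟨n, hn⟩ := h.coeff (μ + ν)
  rw [coeff_single, Finsupp.single_eq_same] at hn
  obtain ⟨m, hm⟩ := Wt.of_mul (Emb.single_mem_SA.1 (adjoin_le_SA hS hw))
    (Emb.single_mem_SA.1 (adjoin_le_SA hS hw')) hn (single_ne_zero.1 h0)
  exact ⟨μ, a, m, rfl, hm⟩

end Crest.Agent.X262.Res
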