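import Crest.Agent.X262.Res.StartA
import Crest.Agent.X262.Res.Wt
import Crest.Agent.X277.Res.G1e
import Crest.Agent.X277.Res.FinOut
import Crest.Agent.X277.Res.Start

/-!
# Row 262, squad RES+ (helper39): from coordinates of the degree zero part to graded coordinates,
and the centre of a smooth subvariety transversal to the boundary
-/

set_option autoImplicit false

noncomputable section

namespace Crest.Agent.X262.Res.StB

open AddMonoidAlgebra Crest.Agent.X277.Res Crest.Agent.X277.Res.Gr Crest.Agent.X277.Res.Out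

section Ctr

variable {k C G : Type} [Field k] [Field C] [Algebra k C] [AddCommGroup G]

/-- a free direction is logarithmic along the boundary -/
theorem D_eps_mem {L : Loc k C G} {ε : GA C G} {T : Set (GA C G)} {ι : Type} [Fintype ι]
    [DecidableEq ι] (c : Coord L ε T ι) {a : ι} (ha : c.n a = 0) : c.D a ε ∈ prin L.O ε := by
  obtain ⟨g, hg, hug⟩ := L.unit c.u c.u_mem c.u_hom c.u_notMem
  have h1 : c.D a (∏ i, c.x i ^ c.n i) = 0 := by
    refine Finset.prod_induction _ (fun z => c.D a z = 0) (fun _ _ => BL.der_mul_zero)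
      (Derivation.map_one_eq_zero _) fun i _ => ?_
    by_cases h : a = i
    · rw [← h, ha, pow_zero]; exact Derivation.map_one_eq_zero _
    · exact BL.der_pow (c.D_ne h) _
  have h2 : c.D a ε = (c.D a c.u * g) * ε := by
    have h3 := congrArg (c.D a) c.eps
    rw [BL.der_mul_right h1] at h3
    have h4 := congrArg (c.D a c.u * g * ·) c.eps
    refine h3.trans (Eq.trans ?_ h4.symm)
    rw [mul_assoc, ← mul_assoc g, mul_comm g, hug, one_mul]
  rw [h2]
  exact G1.mul_mem_sub (mul_mem (c.pres _ _ c.u_mem) hg) (Submodule.subset_span rfl)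

/-- the centre of a smooth subvariety transversal to the boundary -/
theorem exists_ctr {L : Loc k C G} {ε : GA C G} {I T : Set (GA C G)} {d : ℕ}
    (c : Coord L ε T (Fin d)) (A : Set (Fin d)) (hn : ∀ a ∈ A, c.n a = 0)
    (hA : Submodule.span L.O I = Submodule.span L.O (c.x '' A)) :
    ∃ J : Ctr C G d, (∀ i, J.t i = false) ∧ (∀ i, J.w i = 0 ∨ J.w i = 1) ∧ Cert L ε I T J ∧
      Comp L ε I J ∧ ∀ i, 0 < J.w i → J.z i ∈ Submodule.span L.O I := by
  classical
  let w0 : Fin d → ℚ := fun i => if i ∈ A then 1 else 0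
  let σ := Tuple.sort (ent w0 fun _ => false)
  let J0 : Ctr C G d := ⟨c.x ∘ σ, w0 ∘ σ, fun _ => false⟩
  have hw : ∀ i, 0 < J0.w i → σ i ∈ A ∧ J0.w i = 1 := by
    intro i hi
    by_cases h : σ i ∈ A
    · exact ⟨h, if_pos h⟩
    · exact absurd (show J0.w i = 0 from if_neg h) hi.ne'
  have hsh : Shape L.O J0 :=
    { mem := fun i => c.x_mem _
      hom := fun i => c.x_isH _
      nonneg := fun i => by
        show 0 ≤ (if σ i ∈ A then (1 : ℚ) else 0)
        split_ifs <;> norm_num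
      sorted := Tuple.monotone_sort (ent w0 fun _ => false)
      t_pos := fun i hi => absurd hi Bool.false_ne_true }
  have hxI : ∀ i ∈ A, c.x i ∈ Submodule.span L.O I := fun i hi =>
    hA ▸ Submodule.subset_span ⟨i, hi, rfl⟩
  refine ⟨J0, fun _ => rfl, fun i => ?_, ⟨hsh, fun j hj => ?_⟩, ?_, fun i hi => hxI _ (hw i hi).1⟩
  · by_cases h : σ i ∈ A
    · exact Or.inr (if_pos h)
    · exact Or.inl (if_neg h)
  · obtain ⟨h1, h2⟩ := hw j hj
    refine ⟨⟨c.x (σ j), [], c.D (σ j), 1, 0⟩, hxI _ h1, c.x_mem _, c.x_isH _,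
      fun p hp => absurd hp List.not_mem_nil, by simpa using h2,
      ⟨c.pres _, c.kills _, ⟨_, c.homD _⟩, fun l hl => c.D_ne (σ.injective.ne hl.ne')⟩, ?_, ?_,
      Or.inl ⟨rfl, rfl, D_eps_mem c (hn _ h1)⟩⟩
    · show c.D (σ j) (c.x (σ j)) ∉ L.m
      rw [c.D_self]; exact L.one_notMem
    · show c.D (σ j) (c.x (σ j)) ∉ L.m
      rw [c.D_self]; exact L.one_notMem
  · refine ⟨hsh, fun i _ => c.x_mem_m _, fun i hi => absurd hi Bool.false_ne_true, fun f hf => ?_⟩
    have h1 : f ∈ Submodule.span L.O (c.x '' A) := hA ▸ Submodule.subset_span hf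
    refine (Submodule.span_le.2 ?_) h1
    rintro _ ⟨i, hi, rfl⟩
    obtain ⟨j, rfl⟩ := σ.surjective i
    have h2 := G1.self_mem_filt L.O J0.z J0.w j
    rwa [show J0.w j = 1 from if_pos hi] at h2

end Ctr

section Cone

variable {k C : Type} [Field k] [Field C] [Algebra k C] {R : Subalgebra k (GA C MM)}
  (h : Good R (AddSubgroup.zmultiples (ee 0))) {q : R →ₐ[k] k} {w : GA C MM}

/-- units of every degree -/
theorem exists_unit (hw : BL.U (locOf h q) (ee 0) w) {μ : MM}
    (hμ : μ ∈ AddSubgroup.zmultiples (ee 0)) :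
    ∃ e, BL.U (locOf h q) μ e ∧ ∀ δ : Der k C MM, δ w = 0 → δ e = 0 := by
  obtain ⟨m, rfl⟩ := hμ
  exact BL.exists_zpow hw m

/-- a homogeneous element is a unit times an element of degree zero -/
theorem dec (hw : BL.U (locOf h q) (ee 0) w) {μ : MM} {f : GA C MM} (hf : f ∈ loc R q)
    (hh : HomD μ f) : ∃ a ∈ O0 R q, ∃ e e', e ∈ loc R q ∧ e' ∈ loc R q ∧ IsHom e' ∧
      (∀ δ : Der k C MM, δ w = 0 → δ e = 0) ∧ f = single 0 a * e ∧ single 0 a = f * e' := by
  by_cases h0 : f = 0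
  · exact ⟨0, zero_mem _, 1, 1, one_mem _, one_mem _, isHom_one,
      fun δ _ => Derivation.map_one_eq_zero _, by simp [h0], by simp [h0]⟩
  obtain ⟨e, he, hδ⟩ := exists_unit h hw ((locOf h q).deg μ f hf hh h0)
  obtain ⟨e', he', h1⟩ := he.inv
  obtain ⟨a, ha⟩ : HomD 0 (f * e') := by simpa using hh.mul he'.hom
  refine ⟨a, ?_, e, e', he.mem, he'.mem, he'.hom.isHom, hδ, ?_, ha.symm⟩
  · rw [mem_O0, ← ha]; exact mul_mem hf he'.mem
  · rw [← ha, mul_assoc, h1, mul_one]

theorem single_mem_m_iff {a : C} (ha : a ∈ O0 R q) :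
    (single 0 a : GA C MM) ∈ (locOf h q).m ↔ Van (O0 R q) a :=
  (mem_locOf_m_iff_ev h (f := inc0 R q ⟨a, ha⟩) ⟨0, a, rfl⟩).trans (van_O0_iff ⟨a, ha⟩).symm

theorem exists_der {w0 : C} (hw0 : w0 ≠ 0) (d : Derivation k C C) :
    ∃ D : Der k C MM, HomDer (-0) D ∧ Kills (fresh C 1) D ∧ D (single (ee 0) w0) = 0 ∧
      ∀ a, D (single 0 a) = single 0 (d a) := by
  obtain ⟨E, hE⟩ := Emb.exists_der_coeff (MM := MM) d
  let D : Der k C MM := E - (single 0 (d w0 / w0) : GA C MM) • BL.eul k (Finsupp.applyAddHom 0)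
  have hD : ∀ μ c, D (single μ c) = single μ (d c - (μ 0) • (d w0 / w0 * c)) := by
    intro μ c
    simp only [D, Derivation.sub_apply, Derivation.smul_apply, hE, BL.eul_single, smul_eq_mul,
      Finsupp.applyAddHom_apply, mul_smul_comm, single_mul_single, zero_add, smul_single,
      single_sub]
  refine ⟨D, ?_, ?_, ?_, fun a => ?_⟩
  · rintro μ _ ⟨c, rfl⟩
    exact ⟨_, by rw [hD, neg_zero, add_zero]⟩
  · rintro _ ⟨μ, hμ, rfl⟩
    rw [chi, hD, hμ 0 one_pos]
    simp
  · rw [hD, G1.ee_apply_self, one_smul, div_mul_cancel₀ _ hw0, sub_self, single_zero]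
  · rw [hD]; simp

/-- **graded coordinates from coordinates of the degree zero part** -/
theorem coord_of_coords (hw : BL.U (locOf h q) (ee 0) w) {d : ℕ} {τ : Fin d → C}
    (hτ : Coords (O0 R q) τ) {ε u : GA C MM} {ν : MM} (hu : BL.U (locOf h q) ν u) (n : Fin d → ℕ)
    (hε : ε = u * ∏ l, (single 0 (τ l) : GA C MM) ^ n l) :
    ∃ c : Coord (locOf h q) ε (fresh C 1) (Fin d), (∀ l, c.x l = single 0 (τ l)) ∧ c.n = n := by
  obtain ⟨w0, rfl⟩ := hw.hom
  have hw0 : w0 ≠ 0 := single_ne_zero.1 hw.ne_zero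
  obtain ⟨δ, hδ, hδτ⟩ := hτ.der
  choose D hD1 hD2 hD3 hD4 using fun l => exists_der (k := k) hw0 (δ l)
  refine ⟨{
    x := fun l => single 0 (τ l)
    ξ := fun _ => 0
    D := D
    n := n
    u := u
    hom := fun l => ⟨_, rfl⟩
    span_eq := ?_
    homD := hD1
    pres := fun l f hf => ?_
    kills := hD2
    dual := fun i j => ?_
    U := fun μ hμ => ?_
    u_mem := hu.mem
    u_hom := ⟨_, hu.hom⟩
    u_notMem := hu.nm
    eps := hε }, fun _ => rfl, rfl⟩
  · refine le_antisymm (fun f hf => BL.mem_of_cp fun μ => ?_) (Submodule.span_le.2 ?_)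
    · have hfm : cp μ f ∈ (locOf h q).m := (locOf h q).pr_m μ f hf
      obtain ⟨a, ha, e, e', he, he', -, -, h1, h2⟩ :=
        dec h hw ((locOf h q).m_le _ hfm) (homD_cp μ f)
      obtain ⟨r, hr, h3⟩ := hτ.gen a ((single_mem_m_iff h ha).1 (h2 ▸ BL.mul_mem_sub' he' hfm))
      rw [h1]
      refine BL.mul_mem_sub' he ?_
      have h4 : (single 0 a : GA C MM) = ∑ l, single 0 (r l) * single 0 (τ l) := by
        rw [h3, ← cst_apply (k := k), map_sum]
        exact Finset.sum_congr rfl fun l _ => map_mul _ _ _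
      rw [h4]
      exact sum_mem fun l _ => BL.mul_mem_sub (hr l) (Submodule.subset_span ⟨l, rfl⟩)
    · rintro _ ⟨l, rfl⟩
      exact (single_mem_m_iff h (hτ.mem l)).2 (hτ.van l)
  · rw [← sum_cp f, map_sum]
    refine sum_mem fun μ _ => ?_
    obtain ⟨a, ha, e, e', he, -, -, h0, h1, -⟩ :=
      dec h hw ((locOf h q).pr_O μ f hf) (homD_cp μ f)
    rw [pr_eq] at h1
    rw [h1, BL.der_mul_right (h0 _ (hD3 l)), hD4]
    exact mul_mem (hδ l a ha) he
  · rw [hD4, hδτ]
    split_ifs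
    · rfl
    · exact single_zero _
  · obtain ⟨e, he, h1⟩ := exists_unit h hw hμ
    exact ⟨1, one_pos, e, he.mem, he.nm, by rw [one_smul]; exact he.hom, fun l => h1 _ (hD3 l)⟩

/-- coordinates of the degree zero part from graded coordinates -/
theorem coords_of_coord (hw : BL.U (locOf h q) (ee 0) w) {d : ℕ} {ε : R} {T : Set (GA C MM)}
    (c : Coord (locOf h q) ε T (Fin d)) : ∃ τ : Fin d → C, Coords (O0 R q) τ := by
  obtain ⟨p⟩ := finPt_of_coord h q ε c fun μ hμ => by
    obtain ⟨e, he, -⟩ := exists_unit h hw hμ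
    exact ⟨⟨e, he.mem⟩, he.hom, fun h0 =>
      he.nm ((mem_locOf_m_iff_ev h (f := ⟨e, he.mem⟩) ⟨μ, he.hom⟩).2 h0)⟩
  exact ⟨_, coords_O0 h.gr p.x p.w p.μ p.hx p.hw p.hw0 p.span p.d p.hd p.dual⟩

end Cone

end Crest.Agent.X262.Res.StB
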