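import Crest.Agent.X262.Res.StartB
import Crest.Agent.X277.Res.G1d

/-!
# Row 262, squad RES+ (helper39): the cone over projective space near a point of the variety
-/

set_option autoImplicit false

noncomputable section

namespace Crest.Agent.X262.Res.StC

open AddMonoidAlgebra Crest.Agent.X277.Res Crest.Agent.X277.Res.Gr Crest.Agent.X277.Res.Out
  Crest.Agent.X277.Res.Emb Crest.Agent.X277.Res.St Crest.Agent.X277.Lef

variable {k C F : Type} [Field k] [Field C] [Algebra k C] [Field F] [Algebra k F] {N : ℕ}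

/-- the reduction of projective space onto the model `y` -/
structure Dat {S : Subalgebra k C} (π : S →ₐ[k] F) (Y : Fin (N + 1) → C)
    (y : Fin (N + 1) → F) : Prop where
  le : Algebra.adjoin k (Set.range Y) ≤ S
  inv : ∀ c : S, π c ≠ 0 → (c : C)⁻¹ ∈ S
  hY : ∀ j, pf π (Y j) = y j / y 0
  y_ne : ∀ j, y j ≠ 0

/-- the coordinates as elements of the ring -/
abbrev yy (k : Type) [Field k] [Algebra k C] (Y : Fin (N + 1) → C) (j : Fin (N + 1)) :
    (pre k Y).R := ⟨YY Y j, YY_mem Y j⟩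

variable {S : Subalgebra k C} {π : S →ₐ[k] F} {Y : Fin (N + 1) → C} {y : Fin (N + 1) → F}

theorem Dat.R_le (D : Dat π Y y) : (pre k Y).R ≤ SA MM S :=
  fun _ hf => mem_SA.2 fun μ => D.le ((pre k Y).coeff_mem hf μ).1

theorem Dat.coef (D : Dat π Y y) {μ : MM} {c : C} (h : (single μ c : GA C MM) ∈ (pre k Y).R) :
    c ∈ S := single_mem_SA.1 (D.R_le h)

theorem R_ind {p : (pre k Y).R → Prop} (h1 : ∀ j, p (yy k Y j))
    (h2 : ∀ c, p (algebraMap k _ c)) (h3 : ∀ a b, p a → p b → p (a + b))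
    (h4 : ∀ a b, p a → p b → p (a * b)) (f : (pre k Y).R) : p f := by
  obtain ⟨f, hf⟩ := f
  induction hf using Algebra.adjoin_induction with
  | mem a ha =>
    have ha' := ha
    rw [coe_gens] at ha'
    obtain ⟨j, rfl⟩ := ha'
    exact h1 j
  | algebraMap c => exact h2 c
  | add a b ha hb iha ihb => exact h3 ⟨a, ha⟩ ⟨b, hb⟩ iha ihb
  | mul a b ha hb iha ihb => exact h4 ⟨a, ha⟩ ⟨b, hb⟩ iha ihb

theorem u_YY {q : (pre k Y).R →ₐ[k] k} {j : Fin (N + 1)} (h : q (yy k Y j) ≠ 0) :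
    BL.U (locOf (pre k Y).good q) (ee 0) (YY Y j) :=
  ⟨homD_YY Y j, le_loc q (YY_mem Y j), fun hm =>
    h ((mem_locOf_m_iff (pre k Y).good (f := yy k Y j) ⟨_, homD_YY Y j⟩).1 hm)⟩

theorem div_mem {q : (pre k Y).R →ₐ[k] k} {i : Fin (N + 1)} (h : q (yy k Y i) ≠ 0)
    (j : Fin (N + 1)) : Y j / Y i ∈ O0 (pre k Y).R q ∧
      YY Y j = (single 0 (Y j / Y i) : GA C MM) * YY Y i := by
  have h0 : Y i ≠ 0 := single_ne_zero.1 (u_YY h).ne_zero
  have h1 : YY Y j = (single 0 (Y j / Y i) : GA C MM) * YY Y i := by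
    rw [YY, YY, single_mul_single, zero_add, div_mul_cancel₀ _ h0]
  refine ⟨⟨yy k Y i, ⟨_, homD_YY Y i⟩, h, ?_⟩, h1⟩
  change YY Y i * single 0 (Y j / Y i) ∈ _
  rw [mul_comm, ← h1]
  exact YY_mem Y j

section Pt

variable (D : Dat π Y y) {q : (pre k Y).R →ₐ[k] k} {i : Fin (N + 1)}
  {ψ : chart k y i →ₐ[k] k} (hv : q (yy k Y i) ≠ 0)
  (hψ : ∀ j, ψ ⟨_, div_mem_chart y i j⟩ = q (yy k Y j) / q (yy k Y i))
include D hv hψ

theorem exists_Phi : ∃ (Φ : (pre k Y).R →ₐ[k] chart k y i) (z : F), z ≠ 0 ∧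
    (∀ (μ : MM) (c : C) (h : (single μ c : GA C MM) ∈ (pre k Y).R),
      (Φ ⟨_, h⟩ : F) = pf π c * z ^ (μ 0)) ∧ ∀ f, ψ (Φ f) = q f := by
  set z : F := algebraMap k F (q (yy k Y i)) * (y 0 / y i) with hz
  have hz0 : z ≠ 0 := mul_ne_zero ((map_ne_zero _).2 hv) (div_ne_zero (D.y_ne 0) (D.y_ne i))
  let χ : Multiplicative MM →* F :=
    { toFun := fun μ => z ^ (μ.toAdd 0)
      map_one' := by simp
      map_mul' := fun a b => by rw [toAdd_mul, Finsupp.add_apply, zpow_add₀ hz0] }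
  obtain ⟨Φ0, h1⟩ : ∃ Φ0 : (pre k Y).R →ₐ[k] F,
      ∀ (μ : MM) (c : C) (h : (single μ c : GA C MM) ∈ (pre k Y).R),
        Φ0 ⟨_, h⟩ = pf π c * z ^ (μ 0) := by
    refine ⟨(((AddMonoidAlgebra.lift F F MM χ).restrictScalars k).comp (PiH π)).comp
      (Subalgebra.inclusion D.R_le), fun μ c h => ?_⟩
    change AddMonoidAlgebra.lift F F MM χ (Pf π (single μ c)) = _
    rw [Pf_single, lift_single, smul_eq_mul]
    rfl
  have h2 : ∀ j, Φ0 (yy k Y j) = algebraMap k F (q (yy k Y i)) * (y j / y i) := by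
    intro j
    have h0 := D.y_ne 0
    have hi := D.y_ne i
    refine (h1 _ _ (YY_mem Y j)).trans ?_
    rw [D.hY, G1.ee_apply_self, zpow_one, hz]
    field_simp
  have h3 : ∀ f : (pre k Y).R, Φ0 f ∈ chart k y i := fun f =>
    R_ind (p := fun f => Φ0 f ∈ chart k y i)
      (fun j => by rw [h2]; exact mul_mem (Subalgebra.algebraMap_mem _ _) (div_mem_chart y i j))
      (fun c => by rw [AlgHom.commutes]; exact Subalgebra.algebraMap_mem _ c)
      (fun a b ha hb => by rw [map_add]; exact add_mem ha hb)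
      (fun a b ha hb => by rw [map_mul]; exact mul_mem ha hb) f
  refine ⟨Φ0.codRestrict _ h3, z, hz0, h1, R_ind (fun j => ?_) (fun c => ?_)
    (fun a b ha hb => ?_) fun a b ha hb => ?_⟩
  · rw [show Φ0.codRestrict _ h3 (yy k Y j) = algebraMap k _ (q (yy k Y i)) *
      ⟨_, div_mem_chart y i j⟩ from Subtype.ext (h2 j), map_mul, hψ, AlgHom.commutes]
    exact mul_div_cancel₀ _ hv
  · rw [AlgHom.commutes, AlgHom.commutes, AlgHom.commutes]
  · rw [map_add, map_add, map_add, ha, hb]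
  · rw [map_mul, map_mul, map_mul, ha, hb]

/-- the point lies on the variety -/
theorem not_nz {f : GA C MM} (hf : InP π f) : ¬ NZ q f := by
  obtain ⟨Φ, z, -, h1, h2⟩ := exists_Phi D hv hψ
  obtain ⟨μ, c, rfl, hc⟩ := hf
  rintro ⟨h, hq⟩
  refine hq ?_
  rw [← h2, show Φ ⟨_, h⟩ = 0 from Subtype.ext (by rw [h1, pf_coe, hc, zero_mul]; rfl), map_zero]

theorem pf_ne {μ : MM} {c : C} (h : (single μ c : GA C MM) ∈ (pre k Y).R) (hq : q ⟨_, h⟩ ≠ 0) :
    pf π c ≠ 0 := fun h0 =>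
  not_nz D hv hψ ⟨μ, ⟨c, D.coef h⟩, rfl, (pf_of_mem π _).symm.trans h0⟩ ⟨h, hq⟩

theorem O0_le : O0 (pre k Y).R q ≤ S := by
  rintro x ⟨⟨_, hb⟩, ⟨β, c, rfl⟩, hq, hbx⟩
  change (single β c : GA C MM) * single 0 x ∈ _ at hbx
  rw [single_mul_single] at hbx
  have h1 := pf_ne D hv hψ hb hq
  have h2 : c ≠ 0 := fun h => h1 (by rw [h, pf_zero])
  have h3 := mul_mem (D.inv ⟨c, D.coef hb⟩ (by rwa [← pf_of_mem])) (D.coef hbx)
  rwa [← mul_assoc, inv_mul_cancel₀ h2, one_mul] at h3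

theorem pf_mem {x : C} (hx : x ∈ O0 (pre k Y).R q) : pf π x ∈ lo (chart k y i) ψ ∧
    (ev0 _ q ⟨x, hx⟩ = 0 ↔ Van (lo (chart k y i) ψ) (pf π x)) := by
  obtain ⟨Φ, z, -, h1, h2⟩ := exists_Phi D hv hψ
  have hxS := O0_le D hv hψ hx
  obtain ⟨⟨_, hb⟩, ⟨β, c, rfl⟩, hq, hbx⟩ := id hx
  have hbx' : (single β (c * x) : GA C MM) ∈ (pre k Y).R := by
    change (single β c : GA C MM) * single 0 x ∈ _ at hbx
    rwa [single_mul_single, add_zero] at hbx
  have h3 : (Φ ⟨_, hb⟩ : F) * pf π x = Φ ⟨_, hbx'⟩ := by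
    rw [h1, h1, pf_mul π (D.coef hb) hxS, mul_right_comm]
  have h4 : ψ (Φ ⟨_, hb⟩) ≠ 0 := by rwa [h2]
  have h5 : pf π x ∈ lo (chart k y i) ψ := ⟨_, h4, h3 ▸ (Φ ⟨_, hbx'⟩).2⟩
  have h6 : q ⟨_, hbx'⟩ = q ⟨_, hb⟩ * ev0 _ q ⟨x, hx⟩ := by
    rw [ev0_apply, ← ev_spec (inc0 _ q ⟨x, hx⟩) (b := ⟨_, hb⟩) hbx]
    congr 1
    apply Subtype.ext
    change _ = (single β c : GA C MM) * single 0 x
    rw [single_mul_single, add_zero]
  refine ⟨h5, fun h => ⟨h5, fun hu => ?_⟩, fun h => ?_⟩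
  · have h7 := (un_lo h4).mul hu
    rw [h3, un_lo_iff, h2, h6, h, mul_zero] at h7
    exact h7 rfl
  · have h7 := Van.mul_left (le_lo ψ (Φ ⟨_, hb⟩).2) h
    rw [h3, van_lo_iff, h2, h6] at h7
    exact (mul_eq_zero.1 h7).resolve_left hq

theorem pf_div (j : Fin (N + 1)) : pf π (Y j / Y i) = y j / y i := by
  have h0 : Y i ≠ 0 := single_ne_zero.1 (u_YY hv).ne_zero
  have h1 := pf_mul π (O0_le D hv hψ (div_mem hv j).1) (D.le (Algebra.subset_adjoin ⟨i, rfl⟩))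
  rw [div_mul_cancel₀ _ h0, D.hY, D.hY] at h1
  have h2 := D.y_ne 0
  have h3 := D.y_ne i
  field_simp at h1 ⊢
  exact h1.symm

/-- the local surjection onto the local ring of the variety -/
theorem exists_rho : ∃ ρ : O0 (pre k Y).R q →ₐ[k] lo (chart k y i) ψ,
    (∀ x, (ρ x : F) = pf π x) ∧ Function.Surjective ρ ∧
      ∀ x, ev0 _ q x = 0 ↔ Van (lo (chart k y i) ψ) (ρ x) := by
  let ρ0 : O0 (pre k Y).R q →ₐ[k] F := π.comp (Subalgebra.inclusion (O0_le D hv hψ))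
  have h0 : ∀ x, ρ0 x = pf π x := fun x => (pf_of_mem π _).symm
  let ρ : O0 (pre k Y).R q →ₐ[k] lo (chart k y i) ψ :=
    ρ0.codRestrict _ fun x => h0 x ▸ (pf_mem D hv hψ x.2).1
  have hloc : ∀ x, ev0 _ q x = 0 ↔ Van (lo (chart k y i) ψ) (ρ x) := fun x => by
    change _ ↔ Van _ (ρ0 x)
    rw [h0]; exact (pf_mem D hv hψ x.2).2
  have hch : chart k y i ≤ ρ0.range := chart_le fun j =>
    ⟨⟨_, (div_mem hv j).1⟩, (h0 _).trans (pf_div D hv hψ j)⟩
  refine ⟨ρ, h0, ?_, hloc⟩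
  rintro ⟨g, a, ha, hag⟩
  obtain ⟨a', ha'⟩ := hch a.2
  obtain ⟨b', hb'⟩ := hch hag
  have h1 : Un (O0 (pre k Y).R q) a' := (un_O0_iff a').2 fun h => by
    have h2 := (hloc a').1 h
    change Van _ (ρ0 a') at h2
    rw [show ρ0 a' = a from ha'] at h2
    exact h2.2 (un_lo ha)
  refine ⟨⟨_, h1.2.2⟩ * b', Subtype.ext ?_⟩
  change ρ0 (⟨_, h1.2.2⟩ * b') = g
  have h2 : ρ0 a' * ρ0 ⟨_, h1.2.2⟩ = 1 := by
    rw [← map_mul, show a' * ⟨_, h1.2.2⟩ = 1 from Subtype.ext (mul_inv_cancel₀ h1.1), map_one]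
  rw [map_mul, show ρ0 b' = a * g from hb', ← show ρ0 a' = a from ha', ← mul_assoc,
    mul_comm _ (ρ0 a'), h2, one_mul]

end Pt

/-- the degree zero part is the local ring of a chart of projective space -/
theorem O0_eq (h0 : Y 0 = 1) (hY : ∀ j, Y j ≠ 0) {q : (pre k Y).R →ₐ[k] k} {i : Fin (N + 1)}
    (hv : q (yy k Y i) ≠ 0) : ∃ ψ, O0 (pre k Y).R q = lo (chart k Y i) ψ := by
  have D : Dat (⊤ : Subalgebra k C).val Y Y :=
    ⟨le_top, fun _ _ => trivial, fun j => by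
      rw [h0, div_one]; exact pf_of_mem (⊤ : Subalgebra k C).val Algebra.mem_top, hY⟩
  have hle : chart k Y i ≤ O0 (pre k Y).R q := chart_le fun j => (div_mem hv j).1
  have hψ : ∀ j, ((ev0 _ q).comp (Subalgebra.inclusion hle)) ⟨_, div_mem_chart Y i j⟩ =
      q (yy k Y j) / q (yy k Y i) := by
    intro j
    have h1 : ((yy k Y i : (pre k Y).R) : GA C MM) * inc0 _ q ⟨_, (div_mem hv j).1⟩ = YY Y j := by
      rw [mul_comm]; exact (div_mem hv j).2.symm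
    have h3 : ((yy k Y i : (pre k Y).R) : GA C MM) * inc0 _ q ⟨_, (div_mem hv j).1⟩ ∈
        (pre k Y).R := by rw [h1]; exact YY_mem Y j
    have h2 := ev_spec (inc0 _ q ⟨_, (div_mem hv j).1⟩) (b := yy k Y i) h3
    rw [show (⟨_, h3⟩ : (pre k Y).R) = yy k Y j from Subtype.ext h1] at h2
    rw [h2, mul_div_cancel_left₀ _ hv]
    rfl
  obtain ⟨ρ, h1, h2, -⟩ := exists_rho D hv hψ
  have h3 : ∀ x, (ρ x : C) = x := fun x => 
    (h1 x).trans (pf_of_mem (⊤ : Subalgebra k C).val Algebra.mem_top)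
  refine ⟨(ev0 _ q).comp (Subalgebra.inclusion hle),
    le_antisymm (fun x hx => ?_) fun x hx => ?_⟩
  · have := (ρ ⟨x, hx⟩).2
    rwa [h3] at this
  · obtain ⟨a, ha⟩ := h2 ⟨x, hx⟩
    have h4 := h3 a
    rw [ha] at h4
    change x = a at h4
    rw [h4]
    exact a.2

end Crest.Agent.X262.Res.StC
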