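import Crest.Agent.X262.Res.StartC

/-!
# Row 262, squad RES+ (helper39): good points of the first model; weights
-/

set_option autoImplicit false

noncomputable section

namespace Crest.Agent.X262.Res.StC

open AddMonoidAlgebra Crest.Agent.X277.Res Crest.Agent.X277.Res.Gr Crest.Agent.X277.Res.Out
  Crest.Agent.X277.Res.Emb Crest.Agent.X277.Res.St Crest.Agent.X277.Lef

variable {k C F : Type} [Field k] [Field C] [Algebra k C] [Field F] [Algebra k F] {N : ℕ}

open Classical in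
/-- the boundary of the first model -/
def eps (Y : Fin (N + 1) → C) (B : Set (Fin (N + 1))) : GA C MM :=
  ∏ j ∈ Finset.univ.filter (· ∈ B), YY Y j

variable {S : Subalgebra k C} {π : S →ₐ[k] F} {Y : Fin (N + 1) → C} {y : Fin (N + 1) → F}
  {B : Set (Fin (N + 1))}

theorem eps_mem : eps Y B ∈ (pre k Y).R := prod_mem fun j _ => YY_mem Y j

theorem eps_isH : IsH (eps Y B) := IsHom.prod _ fun j _ => ⟨_, homD_YY Y j⟩

theorem coord_eps [CharZero k] {L : Loc k C MM} {T : Set (GA C MM)} (hL : (pre k Y).R ≤ L.O)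
    (c : Coord L (∏ j, YY Y j) T (Fin N)) : Nonempty (Coord L (eps Y B) T (Fin N)) := by
  classical
  obtain ⟨u, h1, h2, h3, n, h4⟩ := monoStmt L _ T _ c (eps Y B) eps_isH (hL eps_mem) (by
    rw [← Finset.prod_filter_mul_prod_filter_not Finset.univ (· ∈ B), mul_comm]
    exact BL.mul_mem_sub (hL (prod_mem fun j _ => YY_mem Y j)) (Submodule.subset_span (by
      rw [Set.mem_singleton_iff, eps])))
  exact ⟨{ c with n := n, u := u, u_mem := h1, u_hom := h3, u_notMem := h2, eps := h4 }⟩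

/-- at a good point the ideal of the variety is generated by free coordinates -/
theorem exists_good [CharZero k] (D : Dat π Y y) (h0 : Y 0 = 1) (hY : ∀ j, Y j ≠ 0)
    {q : (pre k Y).R →ₐ[k] k} {i : Fin (N + 1)} {ψ : chart k y i →ₐ[k] k}
    (hv : q (yy k Y i) ≠ 0)
    (hψ : ∀ j, ψ ⟨_, div_mem_chart y i j⟩ = q (yy k Y j) / q (yy k Y i))
    (hs : Snc y B i (lo (chart k y i) ψ)) {ε₀ : (pre k Y).R} {T : Set (GA C MM)}
    (c₀ : Coord ((pre k Y).loc q) ε₀ T (Fin N)) {I : Set (GA C MM)}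
    (hI : ∀ f ∈ I, f ∈ (pre k Y).R ∧ InP π f)
    (hgen : ∀ f ∈ (pre k Y).R, InP π f → f ∈ Submodule.span (pre k Y).R I) :
    ∃ (c : Coord ((pre k Y).loc q) (eps Y B) (fresh C 1) (Fin N)) (A : Set (Fin N)),
      (∀ a ∈ A, c.n a = 0) ∧
      Submodule.span ((pre k Y).loc q).O I = Submodule.span ((pre k Y).loc q).O (c.x '' A) := by
  classical
  have hg := (pre k Y).good
  have hw := u_YY hv
  obtain ⟨n, t, σ, ht, hinj, hun⟩ := hs
  obtain ⟨τ₀, hτ₀⟩ := StB.coords_of_coord hg hw c₀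
  obtain ⟨ρ, hρ1, hρ2, hρ3⟩ := exists_rho D hv hψ
  obtain ⟨ψ₀, hψ₀⟩ := O0_eq h0 hY hv
  have := finiteType_chart (k := k) Y i
  have : IsLocalRing (O0 (pre k Y).R q) := by rw [hψ₀]; infer_instance
  have : IsNoetherianRing (O0 (pre k Y).R q) := by rw [hψ₀]; exact isNoetherianRing_lo _ _
  let β := {j : Fin (N + 1) // j ∈ B ∧ (σ j).isSome}
  let b : β → O0 (pre k Y).R q := fun j => ⟨_, (div_mem hv j.1).1⟩
  let σ' : β → Fin n := fun j => (σ j.1).get j.2.2
  have hσ' : ∀ j : β, σ j.1 = some (σ' j) := fun j => (Option.some_get _).symm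
  obtain ⟨τ, hτ, A, e, he, heA, hτe, hker⟩ := StA.exists_adapted (b := b) (σ := σ')
    (fun x => (van_O0_iff x).symm) hρ2 hρ3 hτ₀ ht
    (fun j j' h => Subtype.ext (hinj _ j.2.1 _ j'.2.1 _ (hσ' j) (h ▸ hσ' j')))
    (fun j => by
      have := hun j.1 j.2.1
      rwa [hσ' j, Option.elim_some, ← pf_div D hv hψ, ← hρ1 (b j)] at this)
  obtain ⟨ν, hu⟩ := BL.u_prod (L := locOf hg q) (Finset.univ.filter (· ∈ B))
    (a := fun j => if (σ j).isSome then YY Y i else YY Y j) fun j hj => ⟨ee 0, by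
      split_ifs with h
      · exact hw
      · refine u_YY fun h1 => ?_
        have h2 := hun j (Finset.mem_filter.1 hj).2
        rw [Option.not_isSome_iff_eq_none.1 h, Option.elim_none, div_one] at h2
        refine (un_lo_iff ⟨_, div_mem_chart y i j⟩).1 h2 ?_
        rw [hψ, h1, zero_div]⟩
  obtain ⟨c, hc1, hc2⟩ := StB.coord_of_coords hg hw hτ (ε := eps Y B) hu
    (fun l => if l ∈ Finset.univ.image e then 1 else 0) (by
      have h1 : ∏ l, (single 0 (τ l) : GA C MM) ^ (if l ∈ Finset.univ.image e then 1 else 0) =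
          ∏ j ∈ Finset.univ.filter (· ∈ B),
            if (σ j).isSome then (single 0 (Y j / Y i) : GA C MM) else 1 := by
        simp only [pow_ite, pow_one, pow_zero]
        rw [Finset.prod_ite_mem, Finset.univ_inter, Finset.prod_image he.injOn,
          ← Finset.prod_filter, Finset.filter_filter,
          Finset.prod_subtype (p := fun j => j ∈ B ∧ (σ j).isSome) _ (by simp)]
        exact Finset.prod_congr rfl fun j _ => by rw [hτe]
      rw [h1, ← Finset.prod_mul_distrib, eps]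
      refine Finset.prod_congr rfl fun j _ => ?_
      split_ifs
      · rw [mul_comm]; exact (div_mem hv j).2
      · rw [mul_one])
  refine ⟨c, A, fun a ha => ?_, le_antisymm (Submodule.span_le.2 fun f hf => ?_)
    (Submodule.span_le.2 ?_)⟩
  · rw [hc2]
    refine if_neg fun h => ?_
    obtain ⟨j, -, rfl⟩ := Finset.mem_image.1 h
    exact heA j ha
  · obtain ⟨hfR, μ, cf, rfl, hcf⟩ := hI f hf
    obtain ⟨a, ha, e₁, e₂, he₁, he₂, ⟨η, c₂, rfl⟩, -, h1, h2⟩ :=
      StB.dec hg hw (le_loc q hfR) ⟨_, rfl⟩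
    have h3 : ρ ⟨a, ha⟩ = 0 := by
      obtain ⟨⟨_, hb⟩, ⟨γ, cb, rfl⟩, hq, hbe⟩ := he₂
      change (single γ cb : GA C MM) * single η c₂ ∈ _ at hbe
      rw [single_mul_single] at hbe
      have h4 : a = cf * c₂ := by
        have h5 := congrArg (fun z : GA C MM => z.coeff 0) h2
        have h6 := congrArg (fun z : GA C MM => z.coeff (μ + η)) h2
        simp only [single_mul_single, coeff_single, Finsupp.single_eq_same] at h5 h6
        by_cases h7 : μ + η = 0
        · rwa [h7, Finsupp.single_eq_same] at h5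
        · rw [Finsupp.single_eq_of_ne (Ne.symm h7)] at h5
          rw [Finsupp.single_eq_of_ne h7] at h6
          rw [h5, ← h6]
      have h5 := pf_mul π (D.coef hb) (O0_le D hv hψ ha)
      rw [h4, mul_left_comm, pf_mul π cf.2 (D.coef hbe), pf_coe, hcf, zero_mul, ← h4] at h5
      apply Subtype.ext
      rw [hρ1]
      exact (mul_eq_zero.1 h5.symm).resolve_left (pf_ne D hv hψ hb hq)
    have h4 : (⟨a, ha⟩ : O0 (pre k Y).R q) ∈ Ideal.span (hτ.el '' A) := hker ▸ h3
    have h5 : ∀ x ∈ Ideal.span (hτ.el '' A), (single 0 (x : C) : GA C MM) ∈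
        Submodule.span ((pre k Y).loc q).O (c.x '' A) := by
      intro x hx
      induction hx using Submodule.span_induction with
      | mem x hx =>
        obtain ⟨l, hl, rfl⟩ := hx
        exact Submodule.subset_span ⟨l, hl, hc1 l⟩
      | zero => rw [ZeroMemClass.coe_zero, single_zero]; exact zero_mem _
      | add x x' _ _ h h' => rw [AddMemClass.coe_add, single_add]; exact add_mem h h'
      | smul r x _ h =>
        rw [smul_eq_mul, MulMemClass.coe_mul, ← cst_apply (k := k), map_mul]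
        exact BL.mul_mem_sub r.2 h
    change _ ∈ Submodule.span _ _
    rw [h1]
    exact BL.mul_mem_sub' he₁ (h5 _ h4)
  · rintro _ ⟨a, ha, rfl⟩
    have h1 : ρ (hτ.el a) = 0 := by
      rw [← RingHom.mem_ker, hker]
      exact Ideal.subset_span ⟨a, ha, rfl⟩
    obtain ⟨⟨_, hb⟩, ⟨γ, cb, rfl⟩, hq, hbx⟩ := hτ.mem a
    change (single γ cb : GA C MM) * single 0 (τ a) ∈ _ at hbx
    have h2 : InP π ((single γ cb : GA C MM) * single 0 (τ a)) := by
      rw [single_mul_single] at hbx ⊢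
      refine ⟨_, ⟨_, D.coef hbx⟩, rfl, ?_⟩
      rw [← pf_of_mem π, pf_mul π (D.coef hb) (O0_le D hv hψ (hτ.mem a)),
        ← show (ρ (hτ.el a) : F) = pf π (τ a) from hρ1 _, h1]
      simp
    have h3 : BL.U (locOf hg q) γ (single γ cb) := ⟨⟨_, rfl⟩, le_loc q hb, fun hm =>
      hq ((mem_locOf_m_iff hg (f := ⟨_, hb⟩) ⟨_, _, rfl⟩).1 hm)⟩
    change _ ∈ Submodule.span _ _
    rw [hc1]
    exact h3.cancel (span_mono_alg (le_loc q) (fun g hg => Submodule.subset_span hg)
      (hgen _ hbx h2))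

/-! ### weights -/

section Weights

variable {s : kˣ →* (C ≃ₐ[k] C)} {s' : kˣ →* (F ≃ₐ[k] F)}

theorem eqRed_of (hr : Red S π Y) (hw : ∀ j, ∃ n, Wt s n (Y j) ∧ Wt s' n (pf π (Y j))) :
    EqRed s s' π := by
  have key : ∀ a : kˣ, ∀ c ∈ Algebra.adjoin k (Set.range Y),
      s a c ∈ Algebra.adjoin k (Set.range Y) ∧ pf π (s a c) = s' a (pf π c) := by
    intro a c hc
    induction hc using Algebra.adjoin_induction with
    | mem c hc =>
      obtain ⟨j, rfl⟩ := hc
      obtain ⟨n, h1, h2⟩ := hw j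
      have h3 : Y j ∈ Algebra.adjoin k (Set.range Y) := Algebra.subset_adjoin ⟨j, rfl⟩
      rw [h1, h2, Algebra.smul_def, Algebra.smul_def,
        pf_mul π (S.algebraMap_mem _) (hr.le h3), pf_algebraMap]
      exact ⟨mul_mem (Subalgebra.algebraMap_mem _ _) h3, rfl⟩
    | algebraMap c =>
      rw [AlgEquiv.commutes, pf_algebraMap, AlgEquiv.commutes]
      exact ⟨Subalgebra.algebraMap_mem _ _, rfl⟩
    | add b c hb hc ihb ihc =>
      rw [map_add, pf_add π (hr.le ihb.1) (hr.le ihc.1), pf_add π (hr.le hb) (hr.le hc), map_add,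
        ihb.2, ihc.2]
      exact ⟨add_mem ihb.1 ihc.1, rfl⟩
    | mul b c hb hc ihb ihc =>
      rw [map_mul, pf_mul π (hr.le ihb.1) (hr.le ihc.1), pf_mul π (hr.le hb) (hr.le hc), map_mul,
        ihb.2, ihc.2]
      exact ⟨mul_mem ihb.1 ihc.1, rfl⟩
  intro a c
  obtain ⟨b, hb, hb0, hbc⟩ := hr.frac c
  obtain ⟨h1, h2⟩ := key a _ hb
  obtain ⟨h3, h4⟩ := key a _ hbc
  rw [pf_coe] at h2
  have h5 : pf π (s a b) ≠ 0 := by rw [h2]; exact (map_ne_zero _).2 hb0
  have h6 : s a b ≠ 0 := fun h => h5 (by rw [h, pf_zero])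
  have h7 : s a c ∈ S := by
    have := mul_mem (hr.inv ⟨_, hr.le h1⟩ (by rwa [← pf_of_mem])) (hr.le h3)
    rwa [map_mul, ← mul_assoc, inv_mul_cancel₀ h6, one_mul] at this
  refine ⟨h7, mul_left_cancel₀ h5 ?_⟩
  rw [← pf_of_mem π h7, ← pf_mul π (hr.le h1) h7, ← map_mul, h4, h2, ← map_mul,
    pf_mul π b.2 c.2, pf_coe, pf_coe]

theorem wt_pf (h : EqRed s s' π) {n : ℤ} {c : C} (hc : c ∈ S) (hw : Wt s n c) :
    Wt s' n (pf π c) := by
  intro a
  obtain ⟨h1, h2⟩ := h a ⟨c, hc⟩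
  rw [pf_of_mem π hc, ← h2, ← map_smul]
  exact congrArg π (Subtype.ext (hw a))

/-- weight vectors of different weights are independent -/
theorem wt_indep [CharZero k] (t : Finset ℤ) (v : ℤ → F) (hv : ∀ n ∈ t, Wt s' n (v n))
    (h : ∑ n ∈ t, v n = 0) : ∀ n ∈ t, v n = 0 := by
  let a : kˣ := Units.mk0 2 two_ne_zero
  have hinj : Function.Injective fun n : ℤ => ((a ^ n : kˣ) : k) := by
    intro m n hmn
    have h1 : ((2 : ℚ) : k) ^ m = ((2 : ℚ) : k) ^ n := by
      simpa [a, Units.val_zpow_eq_zpow_val] using hmn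
    have h2 : (2 : ℚ) ^ m = 2 ^ n := by exact_mod_cast h1
    exact zpow_right_injective₀ (by norm_num) (by norm_num) h2
  refine (iSupIndep_iff_finsetSum_eq_zero_imp_eq_zero _).1
    ((Module.End.eigenspaces_iSupIndep (s' a).toLinearMap).comp hinj) t v (fun n hn => ?_) h
  exact Module.End.mem_eigenspace_iff.2 (hv n hn a)

/-- elements of a subalgebra all of whose coefficients have weight `n` -/
def WS (s : kˣ →* (C ≃ₐ[k] C)) (R : Subalgebra k (GA C MM)) (n : ℤ) : Submodule k (GA C MM) where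
  carrier := {g | g ∈ R ∧ ∀ μ, Wt s n (g.coeff μ)}
  add_mem' := fun {f g} hf hg => ⟨add_mem hf.1 hg.1, fun μ a => by
    rw [coeff_add, Finsupp.add_apply, map_add, hf.2, hg.2, smul_add]⟩
  zero_mem' := ⟨zero_mem _, fun _ => wt_zero n⟩
  smul_mem' := fun c f hf => ⟨R.smul_mem hf.1 c, fun μ a => by
    rw [coeff_smul, Finsupp.smul_apply, map_smul, hf.2, smul_comm]⟩

theorem single_mem_WS {R : Subalgebra k (GA C MM)} {n : ℤ} {μ : MM} {c : C}
    (h : (single μ c : GA C MM) ∈ R) (hc : Wt s n c) : single μ c ∈ WS s R n := by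
  classical
  refine ⟨h, fun ν => ?_⟩
  rw [coeff_single, Finsupp.single_apply]
  split_ifs
  · exact hc
  · exact wt_zero n

theorem mul_mem_WS {R : Subalgebra k (GA C MM)} {m n : ℤ} {f g : GA C MM} (hf : f ∈ WS s R m)
    (hg : g ∈ WS s R n) : f * g ∈ WS s R (m + n) := by
  refine ⟨mul_mem hf.1 hg.1, fun μ a => ?_⟩
  rw [coeff_mul_apply_left, Finsupp.sum, map_sum, Finset.smul_sum]
  exact Finset.sum_congr rfl fun ν _ => (hf.2 ν).mul (hg.2 _) a

theorem mem_iSup_WS {G : Set (GA C MM)} (hG : ∀ u ∈ G, EV s u) {f : GA C MM}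
    (hf : f ∈ Algebra.adjoin k G) : f ∈ ⨆ n, WS s (Algebra.adjoin k G) n := by
  induction hf using Algebra.adjoin_induction with
  | mem u hu =>
    obtain ⟨μ, c, n, rfl, hc⟩ := hG u hu
    exact Submodule.mem_iSup_of_mem n (single_mem_WS (Algebra.subset_adjoin hu) hc)
  | algebraMap c =>
    have h0 : algebraMap k (GA C MM) c = single 0 (algebraMap k C c) := by
      rw [AddMonoidAlgebra.coe_algebraMap]; rfl
    exact Submodule.mem_iSup_of_mem 0
      (h0 ▸ single_mem_WS (h0 ▸ Subalgebra.algebraMap_mem _ c) (wt_algebraMap c))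
  | add a b _ _ ha hb => exact add_mem ha hb
  | mul a b _ _ ha hb =>
    refine Submodule.iSup_induction _ (motive := fun a => a * b ∈ _) ha (fun m a ha => ?_)
      (by simp) fun a a' h h' => by rw [add_mul]; exact add_mem h h'
    refine Submodule.iSup_induction _ (motive := fun b => a * b ∈ _) hb (fun n b hb => ?_)
      (by simp) fun b b' h h' => by rw [mul_add]; exact add_mem h h'
    exact Submodule.mem_iSup_of_mem _ (mul_mem_WS ha hb)

/-- the ideal of the variety is generated by weight vectors -/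
theorem exists_gens [CharZero k] (hr : Red S π Y) (h : EqRed s s' π) (X : Pre k C Y)
    (hX : ∀ u ∈ X.gens, EV s u) : ∃ I : Finset (GA C MM),
      (∀ f ∈ I, f ∈ X.R ∧ InP π f ∧ EV s f) ∧
      ∀ f ∈ X.R, InP π f → f ∈ Submodule.span X.R (I : Set (GA C MM)) := by
  classical
  have := X.good.noeth
  set P : Ideal X.R := Ideal.span {f : X.R | InP π (f : GA C MM) ∧ EV s (f : GA C MM)} with hP
  obtain ⟨t, ht, htP⟩ := (Submodule.fg_span_iff_fg_span_finset_subset _).1
    (IsNoetherian.noetherian P)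
  refine ⟨t.image Subtype.val, fun f hf => ?_, fun f hf hfP => ?_⟩
  · obtain ⟨g, hg, rfl⟩ := Finset.mem_image.1 hf
    exact ⟨g.2, ht hg⟩
  have h1 : (⟨f, hf⟩ : X.R) ∈ P := by
    obtain ⟨μ, c, rfl, hc⟩ := hfP
    obtain ⟨g, hg, hgf⟩ := (Submodule.mem_iSup_iff_exists_finsupp _ _).1 (mem_iSup_WS hX hf)
    have hS : ∀ n, (g n).coeff μ ∈ S := fun n => hr.le (X.coeff_mem (hg n).1 μ).1
    have h2 : (c : C) = ∑ n ∈ g.support, (g n).coeff μ := by
      have := congrArg (fun z : GA C MM => z.coeff μ) hgf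
      simp only [Finsupp.sum, coeff_sum, Finsupp.finsetSum_apply, coeff_single,
        Finsupp.single_eq_same] at this
      exact this.symm
    have h3 := wt_indep g.support (fun n => pf π ((g n).coeff μ))
      (fun n _ => wt_pf h (hS n) ((hg n).2 μ)) (by
        rw [← hc, show c = ∑ n ∈ g.support, ⟨_, hS n⟩ from Subtype.ext (by
          rw [h2, AddSubmonoidClass.coe_finsetSum]), map_sum]
        exact Finset.sum_congr rfl fun n _ => pf_of_mem π _)
    have h4 : (⟨_, hf⟩ : X.R) = ∑ n ∈ g.support, ⟨cp μ (g n), X.graded _ (hg n).1 μ⟩ := by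
      apply Subtype.ext
      rw [AddSubmonoidClass.coe_finsetSum]
      change single μ (c : C) = _
      rw [h2, ← lsingle_apply (R := C), map_sum]
      rfl
    rw [h4]
    exact Ideal.sum_mem _ fun n hn => Ideal.subset_span
      ⟨⟨μ, ⟨_, hS n⟩, rfl, (pf_of_mem π _).symm.trans (h3 n hn)⟩, μ, _, n, rfl, (hg n).2 μ⟩
  have h2 : (⟨f, hf⟩ : X.R) ∈ Submodule.span X.R (t : Set X.R) := htP ▸ h1
  have h3 := mem_amb.2 ⟨hf, h2⟩
  rw [Ideal.submodule_span_eq, amb_span] at h3
  rwa [Finset.coe_image]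

end Weights

/-- a diagonal action on the function field of projective space -/
theorem exists_action (k : Type) [Field k] (N : ℕ) (w : Fin N → ℤ) :
    ∃ s : kˣ →* (CC k N ≃ₐ[k] CC k N), ∀ j, Wt s (w j) (YC k N j.succ) := by
  let f : kˣ → MvPolynomial (Fin N) k →ₐ[k] MvPolynomial (Fin N) k := fun a =>
    MvPolynomial.aeval fun j => ((a ^ w j : kˣ) : k) • MvPolynomial.X j
  have f1 : f 1 = AlgHom.id _ _ := by ext j; simp [f]
  have fm : ∀ a b, f (a * b) = (f a).comp (f b) := fun a b => by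
    ext1 j
    simp only [f, MvPolynomial.aeval_X, AlgHom.comp_apply, map_smul, smul_smul, mul_zpow,
      Units.val_mul, mul_comm]
  let e : kˣ → MvPolynomial (Fin N) k ≃ₐ[k] MvPolynomial (Fin N) k := fun a =>
    AlgEquiv.ofAlgHom (f a) (f a⁻¹) (by rw [← fm, mul_inv_cancel, f1])
      (by rw [← fm, inv_mul_cancel, f1])
  let g : kˣ → CC k N ≃ₐ[k] CC k N := fun a => IsFractionRing.algEquivOfAlgEquiv (e a)
  have hg : ∀ a p, g a (algebraMap _ _ p) = algebraMap _ _ (f a p) := fun a p =>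
    IsFractionRing.algEquivOfAlgEquiv_algebraMap _ _
  have hext : ∀ g₁ g₂ : CC k N ≃ₐ[k] CC k N,
      (∀ p : MvPolynomial (Fin N) k, g₁ (algebraMap _ _ p) = g₂ (algebraMap _ _ p)) → g₁ = g₂ :=
    fun g₁ g₂ h => AlgEquiv.ext fun x => RingHom.congr_fun
      (IsFractionRing.ringHom_ext (A := MvPolynomial (Fin N) k)
        (f1 := (g₁ : CC k N →+* CC k N)) (f2 := (g₂ : CC k N →+* CC k N)) h) x
  refine ⟨MonoidHom.mk' g fun a b => hext _ _ fun p => ?_, fun j a => ?_⟩
  · rw [AlgEquiv.mul_apply, hg, hg, hg, fm, AlgHom.comp_apply]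
  · refine (hg a (MvPolynomial.X j)).trans ?_
    simp only [f, MvPolynomial.aeval_X]
    exact map_smul (ιC k N) _ _

end Crest.Agent.X262.Res.StC
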